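import Vale.Agent.P159.H447.MassH
import Vale.Agent.P159.H963.NeuI
import Vale.Agent.P159.Helicity

/-!
P159 / LIST P_up, frozen text (helper972): the `P` half of the induction state `G n e`, and
`Good n eps = exists a real mass tau in [t_n, 4 t_n], forall e in [eps, es], G n e` at this mass.
`xi = 2 ^ n`, `t_n = 4 ^ (-n)`; every scale depending on `e` is a power of two:
`K = 2 ^ kE`, window `m - n` between `w` and `4 w`, cells `l = 2 ^ sE`, AP torus `2 ^ (n + 3 xE)`.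
-/

set_option linter.unusedSectionVars false

namespace Vale.Agent.P159.H972

open Finset Matrix
open Vale.Agent.P159.H37
open Vale.Agent.P159.TM.H104 (EM)
open Vale.Agent.P159.TM.H764 (EE)
open Vale.Agent.P159.TM.Spec (V Rng)
open Vale.Agent.P159.TM.SpecC (wT)
open Vale.Agent.P159.H447 (K4S SN)
open Vale.Agent.P159.H963 (nwt Pin)
open Vale.Agent.P159.H864 (yt)

noncomputable section

/-- exponents (chosen in the order `sg, x1, thp, th, C0, q0, es`); `x1` is the exponent of the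
amplitude `X = e ^ (-x1)` of AP, `thp` the one of the window, `th` the one of `K` -/
structure Par where
  th : ℝ
  thp : ℝ
  x1 : ℝ
  C0 : ℝ
  q0 : ℕ
  /-- exponent of the flat profile -/
  pf : ℝ
  es : ℝ
  /-- constants of the cluster theorems (`Spec.Rng b1 b2 a1 W ys X0`) -/
  b1 : ℝ
  b2 : ℝ
  W : ℝ
  ys : ℝ
  X0 : ℕ
  th0 : 0 < th
  thp0 : 0 < thp
  x10 : 0 < x1
  C00 : 0 < C0
  es0 : 0 < es
  es1 : es ≤ 1 / 2

variable (P : Par)

/-- `ceil (c log2 (1/e))` -/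
def lg (c e : ℝ) : ℕ := ⌈c * Real.logb 2 (1 / e)⌉₊

/-- `K = 2 ^ kE` -/
def Par.kE (e : ℝ) : ℕ := lg P.th e

/-- window length -/
def Par.w (e : ℝ) : ℕ := lg P.thp e

/-- `X = 2 ^ xE` (up to a factor 2 equal to `e ^ (-x1)`) -/
def Par.xE (e : ℝ) : ℕ := lg P.x1 e

/-- cells of side `2 ^ sE` at level `n` -/
def Par.sE (n : ℕ) (e : ℝ) : ℕ := n - lg P.C0 e

/-- admissible tori `2 ^ r`: `K <= N / xi <= K Mx ^ q0`, `Mx = 2 ^ (4 w)` -/
def Par.TT (n : ℕ) (e : ℝ) (r : ℕ) : Prop :=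
  n + P.kE e ≤ r ∧ r ≤ n + P.kE e + P.q0 * (4 * P.w e)

/-- `t_n` -/
def tn (n : ℕ) : ℝ := (4 ^ n : ℝ)⁻¹

/-- the neutral, UV inclusive, per block norm `D_N(tau)`, `N = 2 ^ r`, cells `2 ^ s` -/
def DN (b : ℝ) (n r s : ℕ) (τ : ℝ) : ℝ :=
  1 / 2 * τ ^ 2 * (2 ^ n / 2 ^ r) ^ 2 *
    K4S (nwt (2 ^ r) b τ 0) (SN (2 ^ r) (2 ^ s)) (SN (2 ^ r) (2 ^ s))

/-- orthonormal cell functions (side `l`) of the block `B` of `q * q` cells -/
def cobB (N l q : ℕ) [NeZero N] (B : ℕ × ℕ) : Matrix (V N) (Fin (N / l) × Fin (N / l)) ℝ :=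
  Matrix.of fun x c => if c.1.val / q = B.1 ∧ c.2.val / q = B.2 then cob N l c x else 0

/-- **AP**: the a priori bound `Rs <= delta` for block noise of amplitude `X` on the torus `2 ^ r`,
blocks of side `2 ^ n`, cells of side `2 ^ s` -/
def AP (b : ℝ) (n r s : ℕ) (X τ δ : ℝ) : Prop :=
  ∀ B : ℕ × ℕ, (gau (Fin (2 ^ r / 2 ^ s) × Fin (2 ^ r / 2 ^ s))).real
    {g | δ < Rs (wt (2 ^ r) b τ) (((X * √τ) • cobB (2 ^ r) (2 ^ s) (2 ^ (n - s)) B) *ᵥ g)} ≤ 1 / 30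

/-- the standing range of the cluster theorems on the torus `2 ^ r` at level `n`, activity
`e ^ (1 / 4)` -/
def RNG (b : ℝ) (n r : ℕ) (e : ℝ) : Prop :=
  Rng P.b1 P.b2 (5 / 2) P.W P.ys P.X0 (2 ^ r) b (2 ^ n) (e ^ (1 / 4 : ℝ))

/-- **flat profile of the torus `N` at mass `t`** in quartic form (neutral model, all site momenta,
weight exponent one): `Pin = z + a' EE + O(eta EE ^ 2 / t)`, `a'` close to `a` -/
def FL (b t a η : ℝ) (N : ℕ) [NeZero N] : Prop :=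
  ∃ z a' : ℝ, 0 ≤ z ∧ z * (N : ℝ) ^ 2 ≤ η ∧ |a' - a| ≤ η ∧ ∀ k : V N, k ≠ 0 →
    |Pin N b t k - z - a' * EE k| ≤ η * EE k ^ 2 / t

/-- the `P` half of the state: level `n`, size `e`, real mass `tau` for (i), stiffness `a` -/
structure GP (b a : ℝ) (n : ℕ) (e τ : ℝ) : Prop where
  /-- (i) the fourth cumulant, at one real mass, all admissible tori -/
  D : ∀ r, P.TT n e r → DN b n r (P.sE n e) τ ≤ e
  /-- (ii) the a priori bound at the natural mass, base torus `K2 xi`, `K2 = X ^ 3` (276, row 4007: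
  smallness `e ^ (1 / 8)`, mass `t_n` only) -/
  ap : AP b n (n + 3 * P.xE e) (P.sE n e) (2 ^ P.xE e) (tn n) (e ^ (1 / 8 : ℝ))
  /-- (iii) the range of the cluster theorems, at `xi` and at `xi / 2` -/
  rng : ∀ r, P.TT n e r ∨ r = n + 3 * P.xE e → RNG P b n r e ∧ RNG P b (n - 1) r e
  /-- (v) the flat profile at the masses `t_n` and `4 t_n` -/
  flat : ∀ r, P.TT n e r → FL b (tn n) a (e ^ P.pf) (2 ^ r) ∧ FL b (4 * tn n) a (e ^ P.pf) (2 ^ r)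
  /-- the level is large against `log (1 / e)` (helper159): the cells `2 ^ sE` contain many sites -/
  nE : 4 * lg P.C0 e ≤ n

/-- **the induction state of P_up** (the same real mass `tau` and stiffness `a` for all `e`) -/
def Good (b : ℝ) (n : ℕ) (ε : ℝ) : Prop :=
  ∃ τ a, tn n ≤ τ ∧ τ ≤ 4 * tn n ∧ ∀ e, ε ≤ e → e ≤ P.es → GP P b a n e τ

/-- `y n` bounds the integrality effect `yt = 1 - t Ghat(0)` on all tori `2 ^ r >= K xi`
(43: `Lc = (N / xi) ^ 2 yt`, `OscZ (Lc / 2)`) -/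
def YB (b : ℝ) (y : ℕ → ℝ) (N0 : ℕ) : Prop :=
  ∀ n, N0 ≤ n → 0 < y n ∧ ∀ e, y n ^ 2 ≤ e → e ≤ P.es → ∀ r, n + P.kE e ≤ r →
    yt (2 ^ r) b (tn n) ≤ y n

variable {P}

lemma Good.mono {b : ℝ} {n : ℕ} {ε ε' : ℝ} (h : Good P b n ε) (hε : ε ≤ ε') :
    Good P b n ε' := by
  obtain ⟨τ, a, h1, h2, h3⟩ := h
  exact ⟨τ, a, h1, h2, fun e he => h3 e (hε.trans he)⟩

lemma lg_anti {c e e' : ℝ} (hc : 0 ≤ c) (he : 0 < e) (h : e ≤ e') : lg c e' ≤ lg c e := by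
  unfold lg
  apply Nat.ceil_mono
  apply mul_le_mul_of_nonneg_left _ hc
  exact Real.logb_le_logb_of_le one_lt_two (by have := he.trans_le h; positivity)
    (one_div_le_one_div_of_le he h)

lemma one_le_logb {e : ℝ} (he : 0 < e) (h : e ≤ 1 / 2) : 1 ≤ Real.logb 2 (1 / e) := by
  rw [Real.le_logb_iff_rpow_le one_lt_two (by positivity), Real.rpow_one, le_div_iff₀ he]
  linarith

lemma one_le_lg {c e : ℝ} (hc : 0 < c) (he : 0 < e) (h : e ≤ 1 / 2) : 1 ≤ lg c e := by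
  have h1 := one_le_logb he h
  unfold lg
  exact Nat.one_le_ceil_iff.2 (by positivity)

lemma lg_half {c ε ε' : ℝ} (hc : 0 < c) (hc1 : c ≤ 1) (hε : 0 < ε) (h1 : ε / 2 ≤ ε')
    (h3 : ε ≤ 1 / 2) : lg c ε' ≤ 2 * lg c ε := by
  have h0 : 0 < ε' := by linarith
  have h5 : Real.logb 2 (1 / ε') ≤ 1 + Real.logb 2 (1 / ε) := by
    have h6 : (1 : ℝ) + Real.logb 2 (1 / ε) = Real.logb 2 (2 * (1 / ε)) := by
      rw [Real.logb_mul two_ne_zero (by positivity), Real.logb_self_eq_one one_lt_two]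
    rw [h6]
    apply Real.logb_le_logb_of_le one_lt_two (by positivity)
    rw [mul_one_div, div_le_div_iff₀ h0 hε]
    linarith
  have h7 : lg c ε' ≤ lg c ε + 1 := by
    unfold lg
    rw [Nat.ceil_le]
    push_cast
    have h8 := Nat.le_ceil (c * Real.logb 2 (1 / ε))
    nlinarith
  have h9 := one_le_lg hc hε h3
  omega

lemma w1 {e : ℝ} (he : 0 < e) (h : e ≤ P.es) : 1 ≤ P.w e :=
  one_le_lg P.thp0 he (h.trans P.es1)

lemma w2 (hthp : P.thp ≤ 1) {ε ε' : ℝ} (hε : 0 < ε) (h1 : ε / 2 ≤ ε') (h4 : ε ≤ P.es) :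
    P.w ε' ≤ 2 * P.w ε :=
  lg_half P.thp0 hthp hε h1 (h4.trans P.es1)

lemma w3 {e : ℝ} (he : 0 < e) (h : e ≤ P.es) :
    (P.w e : ℝ) ≤ ((P.thp + 1) / Real.log 2) * Real.log (1 / e) := by
  have h1 := one_le_logb he (h.trans P.es1)
  have h2 : (P.w e : ℝ) ≤ P.thp * Real.logb 2 (1 / e) + 1 :=
    (Nat.ceil_lt_add_one (by have := P.thp0; positivity)).le
  have h3 : ((P.thp + 1) / Real.log 2) * Real.log (1 / e) = (P.thp + 1) * Real.logb 2 (1 / e) := by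
    unfold Real.logb
    ring
  rw [h3]
  linarith

/-- the statement of the P half of the step (contracts `Ind2`, `Ind3` of helper801) -/
def StepP (P : Par) (b : ℝ) (y : ℕ → ℝ) (sg : ℝ) (N0 : ℕ) : Prop :=
  ∀ n m ε, N0 ≤ n → Good P b n ε → y n ^ 2 ≤ ε → ε ≤ P.es → n + P.w ε ≤ m →
    m ≤ n + 4 * P.w ε → Good P b m (max (ε / 2) (ε ^ (-sg) * y n ^ 2))

/-- the statement of START for P_up: the stiffness is `1 / helicity b` -/
def StartP (P : Par) (b : ℝ) : Prop :=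
  ∀ e0, 0 < e0 → e0 ≤ P.es → ∃ n0, ∀ n, n0 ≤ n → ∃ τ, tn n ≤ τ ∧ τ ≤ 4 * tn n ∧
    ∀ e, e0 ≤ e → e ≤ P.es → GP P b (helicity b)⁻¹ n e τ

lemma StartP.good {P : Par} {b : ℝ} (h : StartP P b) {e0 : ℝ} (h0 : 0 < e0) (h1 : e0 ≤ P.es) :
    ∃ n0, ∀ n, n0 ≤ n → Good P b n e0 := by
  obtain ⟨n0, hn⟩ := h e0 h0 h1
  refine ⟨n0, fun n hn0 => ?_⟩
  obtain ⟨τ, h2, h3, h4⟩ := hn n hn0
  exact ⟨τ, _, h2, h3, h4⟩

end

end Vale.Agent.P159.H972
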