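import Vale.Agent.P159.H972.Xs

/-!
P159 / LIST P_up (helper972): admissible parameters. `Par.Adm` collects the side conditions of the
order of constants (`x1 -> thp -> th -> C0, q0 -> es`), `exists_par` gives such parameters,
`Par.cut` lowers `es`; the tori used in one step are admissible at the starting level.
-/

set_option linter.unusedSectionVars false

namespace Vale.Agent.P159.H972

open Finset Matrix

noncomputable section

variable {P : Par} {b : ℝ}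

lemma logb_nonneg' {e : ℝ} (he : 0 < e) (he1 : e ≤ 1) : 0 ≤ Real.logb 2 (1 / e) :=
  Real.logb_nonneg one_lt_two ((le_div_iff₀ he).2 (by linarith))

lemma lg_mul_le {c c' e : ℝ} {q : ℕ} (h : c ≤ q * c') (he : 0 < e) (he1 : e ≤ 1) :
    lg c e ≤ q * lg c' e := by
  have h0 := logb_nonneg' he he1
  unfold lg
  rw [Nat.ceil_le]
  push_cast
  calc c * Real.logb 2 (1 / e) ≤ q * c' * Real.logb 2 (1 / e) := by gcongr
    _ = q * (c' * Real.logb 2 (1 / e)) := by ring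
    _ ≤ _ := by gcongr; exact Nat.le_ceil _

lemma lg_mono {c c' e : ℝ} (h : c ≤ c') (he : 0 < e) (he1 : e ≤ 1) : lg c e ≤ lg c' e := by
  have := lg_mul_le (q := 1) (c' := c') (by simpa using h) he he1
  simpa using this

lemma lg_add_le {c c' e : ℝ} : lg (c + c') e ≤ lg c e + lg c' e := by
  unfold lg
  rw [add_mul]
  exact Nat.ceil_add_le _ _

/-- the side conditions of the order of constants -/
structure Par.Adm (P : Par) : Prop where
  thp1 : P.thp ≤ 1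
  x11 : P.x1 ≤ 1
  /-- `(K Mx ^ 3) ^ 4 <= X ^ (1 / 2)` up to factors 2 -/
  hx : 4 * P.th + 48 * P.thp ≤ P.x1 / 2
  hth : P.th ≤ P.thp
  hq : 2 ≤ P.q0
  /-- `X ^ 3` and `4 w` fit into `q0 * (4 w)` -/
  hq2 : P.x1 ≤ ((P.q0 : ℝ) - 2) * P.thp
  pf0 : 0 < P.pf
  pf1 : P.pf ≤ 1
  es4 : P.es ≤ 1 / 4
  hk : 3 ≤ P.kE P.es

lemma Par.Adm.th1 (h : P.Adm) : P.th ≤ 1 := h.hth.trans h.thp1

lemma kE_le_w (hth : P.th ≤ P.thp) {e : ℝ} (he : 0 < e) (he1 : e ≤ 1) : P.kE e ≤ P.w e :=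
  lg_mono hth he he1

lemma xE_le_w {q : ℕ} (h : P.x1 ≤ q * P.thp) {e : ℝ} (he : 0 < e) (he1 : e ≤ 1) :
    P.xE e ≤ q * P.w e :=
  lg_mul_le h he he1

/-- every torus between `xi_m` and `xi_m Mx ^ (q0 - 1)` is admissible at level `n` -/
lemma TT_mid (hth : P.th ≤ P.thp) (hq : 1 ≤ P.q0) {n m r : ℕ} {ε : ℝ} (hε : 0 < ε)
    (hes : ε ≤ P.es) (h3 : n + P.w ε ≤ m) (h4 : m ≤ n + 4 * P.w ε) (h5 : m ≤ r)
    (h6 : r ≤ m + (P.q0 - 1) * (4 * P.w ε)) : P.TT n ε r := by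
  have h7 := kE_le_w hth hε (hes.trans (P.es1.trans (by norm_num)))
  refine ⟨by omega, ?_⟩
  have h8 : P.q0 * (4 * P.w ε) = (P.q0 - 1) * (4 * P.w ε) + 4 * P.w ε := by
    obtain ⟨q, hq'⟩ : ∃ q, P.q0 = q + 1 := ⟨P.q0 - 1, by omega⟩
    rw [hq', Nat.add_sub_cancel]
    ring
  omega

/-- the AP torus of every later state is admissible at the starting level -/
lemma Par.Adm.TT_ap (h : P.Adm) {n m : ℕ} {ε e : ℝ} (hε : 0 < ε) (hes : ε ≤ P.es)
    (h1 : ε / 2 ≤ e) (h3 : n + P.w ε ≤ m) (h4 : m ≤ n + 4 * P.w ε) :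
    P.TT n ε (m + 3 * P.xE e) := by
  have h5 : P.xE e ≤ P.xE ε + 1 := lg_half' P.x10 h.x11 hε h1
  have he1 : ε ≤ 1 := hes.trans (P.es1.trans (by norm_num))
  have h6 : P.xE ε ≤ (P.q0 - 2) * P.w ε := by
    apply xE_le_w _ hε he1
    rw [Nat.cast_sub h.hq]
    exact h.hq2
  have h7 : 1 ≤ P.w ε := w1 hε hes
  refine TT_mid h.hth (by have := h.hq; omega) hε hes h3 h4 (by omega) ?_
  obtain ⟨q, hq'⟩ : ∃ q, P.q0 = q + 2 := ⟨P.q0 - 2, by have := h.hq; omega⟩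
  rw [hq', Nat.add_sub_cancel] at h6
  rw [hq', show q + 2 - 1 = q + 1 from rfl]
  have h8 : 3 * P.xE e ≤ 3 * (q * P.w ε) + 3 * P.w ε := by omega
  have h9 : 3 * (q * P.w ε) + 3 * P.w ε ≤ (q + 1) * (4 * P.w ε) := by
    have : (q + 1) * (4 * P.w ε) = 4 * (q * P.w ε) + 4 * P.w ε := by ring
    rw [this]
    omega
  omega

/-- the base torus `2 K xi_m` of the step is admissible at the starting level -/
lemma Par.Adm.TT_base1 (h : P.Adm) {n m : ℕ} {ε e : ℝ} (hε : 0 < ε) (hes : ε ≤ P.es)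
    (h1 : ε / 2 ≤ e) (h3 : n + P.w ε ≤ m) (h4 : m ≤ n + 4 * P.w ε) :
    P.TT n ε (m + P.kE e) ∧ P.TT n ε (m + P.kE e + 1) := by
  have he1 : ε ≤ 1 := hes.trans (P.es1.trans (by norm_num))
  have h5 : P.kE e ≤ P.kE ε + 1 := lg_half' P.th0 h.th1 hε h1
  have h6 := kE_le_w h.hth hε he1
  have h7 : 1 ≤ P.w ε := w1 hε hes
  have hq := h.hq
  have h8 : 1 * (4 * P.w ε) ≤ (P.q0 - 1) * (4 * P.w ε) := Nat.mul_le_mul_right _ (by omega)
  exact ⟨TT_mid h.hth (by omega) hε hes h3 h4 (by omega) (by omega),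
    TT_mid h.hth (by omega) hε hes h3 h4 (by omega) (by omega)⟩

/-- the AP torus is admissible at its own level as soon as it is larger than `K xi` -/
lemma Par.Adm.TT_ap0 (h : P.Adm) {n : ℕ} {e : ℝ} (he : 0 < e) (hes : e ≤ P.es) :
    P.TT n e (n + 3 * P.xE e) := by
  have he1 : e ≤ 1 := hes.trans (P.es1.trans (by norm_num))
  have hthx : P.th ≤ P.x1 := by
    have := h.hx
    have := P.thp0
    have := P.th0
    linarith
  have h1 : P.kE e ≤ P.xE e := lg_mono hthx he he1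
  have h6 : P.xE e ≤ (P.q0 - 2) * P.w e := by
    apply xE_le_w _ he he1
    rw [Nat.cast_sub h.hq]
    exact h.hq2
  refine ⟨by omega, ?_⟩
  have h7 : (P.q0 - 2) * P.w e ≤ P.q0 * P.w e := Nat.mul_le_mul_right _ (by omega)
  have h8 : P.q0 * (4 * P.w e) = 4 * (P.q0 * P.w e) := by ring
  omega

/-- lower `es` -/
def Par.cut (P : Par) (E : ℝ) (hE : 0 < E) : Par :=
  { P with es := min P.es E, es0 := lt_min P.es0 hE, es1 := (min_le_left _ _).trans P.es1 }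

lemma cut_es (P : Par) {E : ℝ} (hE : 0 < E) : (P.cut E hE).es = min P.es E := rfl

lemma Par.Adm.cut (h : P.Adm) {E : ℝ} (hE : 0 < E) : (P.cut E hE).Adm where
  thp1 := h.thp1
  x11 := h.x11
  hx := h.hx
  hth := h.hth
  hq := h.hq
  hq2 := h.hq2
  pf0 := h.pf0
  pf1 := h.pf1
  es4 := (min_le_left _ _).trans h.es4
  hk := h.hk.trans (lg_anti P.th0.le (lt_min P.es0 hE) (min_le_left _ _))

lemma GP.cut {n : ℕ} {a e τ E : ℝ} (hE : 0 < E) (h : GP P b a n e τ) :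
    GP (P.cut E hE) b a n e τ :=
  ⟨h.D, h.ap, h.rng, h.flat, h.nE⟩

lemma GP.uncut {n : ℕ} {a e τ E : ℝ} (hE : 0 < E) (h : GP (P.cut E hE) b a n e τ) :
    GP P b a n e τ :=
  ⟨h.D, h.ap, h.rng, h.flat, h.nE⟩

lemma Good.cut {n : ℕ} {ε E : ℝ} (hE : 0 < E) (h : Good P b n ε) : Good (P.cut E hE) b n ε := by
  obtain ⟨τ, a, h1, h2, h3⟩ := h
  exact ⟨τ, a, h1, h2, fun e he he1 => (h3 e he (he1.trans (min_le_left _ _))).cut hE⟩

lemma StartP.cut {E : ℝ} (hE : 0 < E) (h : StartP P b) : StartP (P.cut E hE) b := by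
  intro e0 h0 h1
  obtain ⟨n0, hn⟩ := h e0 h0 (h1.trans (min_le_left _ _))
  refine ⟨n0, fun n hn0 => ?_⟩
  obtain ⟨τ, h2, h3, h4⟩ := hn n hn0
  exact ⟨τ, h2, h3, fun e he he1 => (h4 e he (he1.trans (min_le_left _ _))).cut hE⟩

/-- admissible parameters exist -/
theorem exists_par {th thp x1 C0 pf b1 b2 W ys : ℝ} (X0 Q : ℕ) (hth : 0 < th) (hthp : th ≤ thp)
    (hthp1 : thp ≤ 1) (hx1 : x1 ≤ 1) (hx : 4 * th + 48 * thp ≤ x1 / 2) (hC : 0 < C0)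
    (hpf : 0 < pf) (hpf1 : pf ≤ 1) {E : ℝ} (hE : 0 < E) :
    ∃ P : Par, P.Adm ∧ P.th = th ∧ P.thp = thp ∧ P.x1 = x1 ∧ P.C0 = C0 ∧ P.pf = pf ∧ P.b1 = b1 ∧
      P.b2 = b2 ∧ P.W = W ∧ P.ys = ys ∧ P.X0 = X0 ∧ Q ≤ P.q0 ∧ P.es ≤ E := by
  have hthp0 : 0 < thp := hth.trans_le hthp
  have hx0 : 0 < x1 := by linarith
  obtain ⟨q, hq⟩ := exists_nat_ge (x1 / thp)
  have hes : 0 < min E (min (1 / 4) ((2 : ℝ) ^ (-(3 / th)))) := by positivity
  refine ⟨{ th := th, thp := thp, x1 := x1, C0 := C0, q0 := Q + q + 2, pf := pf,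
            es := min E (min (1 / 4) ((2 : ℝ) ^ (-(3 / th)))), b1 := b1, b2 := b2, W := W, ys := ys,
            X0 := X0, th0 := hth, thp0 := hthp0, x10 := hx0, C00 := hC, es0 := hes,
            es1 := (min_le_right _ _).trans ((min_le_left _ _).trans (by norm_num)) }, ?_, rfl, rfl,
            rfl, rfl, rfl, rfl, rfl, rfl, rfl, rfl, by simp; omega, min_le_left _ _⟩
  refine ⟨hthp1, hx1, hx, hthp, by simp, ?_, hpf, hpf1,
    (min_le_right _ _).trans (min_le_left _ _), ?_⟩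
  · push_cast
    have h1 := (div_le_iff₀ hthp0).1 hq
    have h2 : (0 : ℝ) ≤ Q := Nat.cast_nonneg _
    nlinarith
  · unfold Par.kE lg
    have h1 : min E (min (1 / 4) ((2 : ℝ) ^ (-(3 / th)))) ≤ (2 : ℝ) ^ (-(3 / th)) :=
      (min_le_right _ _).trans (min_le_right _ _)
    have h2 : (2 : ℝ) ^ (3 / th) ≤ 1 / min E (min (1 / 4) ((2 : ℝ) ^ (-(3 / th)))) := by
      rw [le_div_iff₀ hes]
      calc _ ≤ (2 : ℝ) ^ (3 / th) * (2 : ℝ) ^ (-(3 / th)) := by gcongr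
        _ = 1 := by rw [← Real.rpow_add two_pos, add_neg_cancel, Real.rpow_zero]
    have h3 : 3 / th ≤ Real.logb 2 (1 / min E (min (1 / 4) ((2 : ℝ) ^ (-(3 / th))))) := by
      rw [Real.le_logb_iff_rpow_le one_lt_two (by positivity)]
      exact h2
    have h4 : (3 : ℝ) ≤ th * Real.logb 2 (1 / min E (min (1 / 4) ((2 : ℝ) ^ (-(3 / th))))) := by
      calc (3 : ℝ) = th * (3 / th) := by field_simp
        _ ≤ _ := by gcongr
    have h5 := h4.trans (Nat.le_ceil _)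
    exact_mod_cast h5

/-- admissible parameters with an upper bound on the torus range:
`K Mx ^ q0 <= e ^ (-(th + 4 (x1 + (Q + 3) thp)))` up to constants -/
theorem exists_par' {th thp x1 C0 pf b1 b2 W ys : ℝ} (X0 Q : ℕ) (hth : 0 < th) (hthp : th ≤ thp)
    (hthp1 : thp ≤ 1) (hx1 : x1 ≤ 1) (hx : 4 * th + 48 * thp ≤ x1 / 2) (hC : 0 < C0)
    (hpf : 0 < pf) (hpf1 : pf ≤ 1) {E : ℝ} (hE : 0 < E) :
    ∃ P : Par, P.Adm ∧ P.th = th ∧ P.thp = thp ∧ P.x1 = x1 ∧ P.C0 = C0 ∧ P.pf = pf ∧ P.b1 = b1 ∧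
      P.b2 = b2 ∧ P.W = W ∧ P.ys = ys ∧ P.X0 = X0 ∧ Q ≤ P.q0 ∧ P.es ≤ E ∧
      (P.q0 : ℝ) * P.thp ≤ x1 + (Q + 3) * thp := by
  have hthp0 : 0 < thp := hth.trans_le hthp
  have hx0 : 0 < x1 := by linarith
  obtain ⟨P, hA, h1, h2, h3, h4, h5, h6, h7, h8, h9, h10, -, h12⟩ :=
    exists_par (b1 := b1) (b2 := b2) (W := W) (ys := ys) X0 Q hth hthp hthp1 hx1 hx hC hpf hpf1 hE
  set q : ℕ := ⌈x1 / thp⌉₊ with hq
  have hq1 : x1 / thp ≤ q := Nat.le_ceil _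
  have hq2 : (q : ℝ) < x1 / thp + 1 := Nat.ceil_lt_add_one (by positivity)
  refine ⟨{ P with q0 := Q + q + 2 }, ?_, h1, h2, h3, h4, h5, h6, h7, h8, h9, h10, ?_, h12, ?_⟩
  · refine ⟨hA.thp1, hA.x11, hA.hx, hA.hth, by simp, ?_, hA.pf0, hA.pf1, hA.es4, hA.hk⟩
    change P.x1 ≤ (((Q + q + 2 : ℕ) : ℝ) - 2) * P.thp
    rw [h3, h2]
    push_cast
    have h13 := (div_le_iff₀ hthp0).1 hq1
    have h14 : (0 : ℝ) ≤ Q := Nat.cast_nonneg _
    nlinarith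
  · change Q ≤ Q + q + 2
    omega
  · change ((Q + q + 2 : ℕ) : ℝ) * P.thp ≤ _
    rw [h2]
    push_cast
    have h13 : (q : ℝ) * thp ≤ x1 + thp := by
      calc (q : ℝ) * thp ≤ (x1 / thp + 1) * thp := by gcongr
        _ = x1 + thp := by field_simp
    linarith

end

end Vale.Agent.P159.H972
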