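import Vale.Agent.P159.H972.ParL
import Vale.Agent.P159.H864.Fou2

/-!
P159 / LIST P_up (helper972, plan of helper239): skeleton of the step of the `P` half.
`StepP'` (hypothesis `YBn`, helper801) follows from `FlatStep`, `RngStep`, `ApStep`, `DStep`;
`DStep` follows from `D0Step` (one torus) and `DtrStep` (transfer to all tori).
-/

set_option linter.unusedSectionVars false

namespace Vale.Agent.P159.H972

open Finset Matrix
open Vale.Agent.P159.TM.Spec (V)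
open Vale.Agent.P159.H864 (yt yt_eq yt_nonneg Pik_mono Pik_nonneg)
open Vale.Agent.P159.H37 (Pik)

noncomputable section

/-- the zero background number at level `n` and size `ε` (helper801): at parameter `e` only the
tori of side at least `K(e) xi` and only the bound `max Y e` are needed; the masses `tn n` and
`4 * tn n` (helper43: the posterior mass of a `D0` step is larger than `tn n`) -/
def YBn (P : Par) (b : ℝ) (n : ℕ) (ε Y : ℝ) : Prop :=
  0 < Y ∧ (∀ e, ε ≤ e → e ≤ P.es → ∀ r, n + P.kE e ≤ r → yt (2 ^ r) b (tn n) ≤ max Y e) ∧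
    (∀ e, ε ≤ e → e ≤ P.es → ∀ r, n + P.kE e ≤ r → yt (2 ^ r) b (4 * tn n) ≤ max Y e)

/-- size of the new state -/
def en (sg ε Y : ℝ) : ℝ := max (ε / 2) (ε ^ (-sg) * Y ^ 2)

/-- the P half of the step, with the number `Y` of the state -/
def StepP' (P : Par) (b sg : ℝ) (N0 : ℕ) : Prop :=
  ∀ n m ε Y, N0 ≤ n → Good P b n ε → YBn P b n ε Y → Y ^ 2 ≤ ε → ε ≤ P.es → n + P.w ε ≤ m →
    m ≤ n + 4 * P.w ε → Good P b m (max (ε / 2) (ε ^ (-sg) * Y ^ 2))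

/-- the hypotheses of one step -/
structure SI (P : Par) (b : ℝ) (N0 n m : ℕ) (ε Y : ℝ) : Prop where
  n0 : N0 ≤ n
  good : Good P b n ε
  yb : YBn P b n ε Y
  yε : Y ^ 2 ≤ ε
  εes : ε ≤ P.es
  lo : n + P.w ε ≤ m
  up : m ≤ n + 4 * P.w ε

/-- the fields `flat` at level `m`, all sizes `e` in `[ε', es]`, stiffness `a` -/
def FLs (P : Par) (b : ℝ) (m : ℕ) (ε' a : ℝ) : Prop :=
  ∀ e, ε' ≤ e → e ≤ P.es → ∀ r, P.TT m e r →
    FL b (tn m) a (e ^ P.pf) (2 ^ r) ∧ FL b (4 * tn m) a (e ^ P.pf) (2 ^ r)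

/-- the fields `rng` at level `m` -/
def RNGs (P : Par) (b : ℝ) (m : ℕ) (ε' : ℝ) : Prop :=
  ∀ e, ε' ≤ e → e ≤ P.es → ∀ r, P.TT m e r ∨ r = m + 3 * P.xE e →
    RNG P b m r e ∧ RNG P b (m - 1) r e

/-- the fields `D` at level `m` and real mass `τ` -/
def DNs (P : Par) (b : ℝ) (m : ℕ) (ε' τ : ℝ) : Prop :=
  ∀ e, ε' ≤ e → e ≤ P.es → ∀ r, P.TT m e r → DN b m r (P.sE m e) τ ≤ e

/-- the fields `ap` at level `m` -/
def APs (P : Par) (b : ℝ) (m : ℕ) (ε' : ℝ) : Prop :=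
  ∀ e, ε' ≤ e → e ≤ P.es →
    AP b m (m + 3 * P.xE e) (P.sE m e) (2 ^ P.xE e) (tn m) (e ^ (1 / 8 : ℝ))

/-- flat profile (helper846) -/
def FlatStep (P : Par) (b sg : ℝ) (N0 : ℕ) : Prop :=
  ∀ n m ε Y, SI P b N0 n m ε Y → ∃ a, FLs P b m (en sg ε Y) a

/-- range of the cluster theorems (helper37), from the profile -/
def RngStep (P : Par) (b sg : ℝ) (N0 : ℕ) : Prop :=
  ∀ n m ε Y a, SI P b N0 n m ε Y → FLs P b m (en sg ε Y) a → RNGs P b m (en sg ε Y)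

/-- a priori bound -/
def ApStep (P : Par) (b sg : ℝ) (N0 : ℕ) : Prop :=
  ∀ n m ε Y a, SI P b N0 n m ε Y → FLs P b m (en sg ε Y) a → RNGs P b m (en sg ε Y) →
    APs P b m (en sg ε Y)

/-- fourth cumulant, all tori -/
def DStep (P : Par) (b sg : ℝ) (N0 : ℕ) : Prop :=
  ∀ n m ε Y a, SI P b N0 n m ε Y → FLs P b m (en sg ε Y) a → RNGs P b m (en sg ε Y) →
    ∃ τ, tn m ≤ τ ∧ τ ≤ 4 * tn m ∧ DNs P b m (en sg ε Y) τ

/-- fourth cumulant, one torus of side `2 K(ε) xi_m`, cells of the level `n` -/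
def D0Step (P : Par) (b sg : ℝ) (N0 : ℕ) : Prop :=
  ∀ n m ε Y a, SI P b N0 n m ε Y → FLs P b m (en sg ε Y) a → RNGs P b m (en sg ε Y) →
    ∃ τ, tn m ≤ τ ∧ τ ≤ 4 * tn m ∧
      DN b m (m + P.kE ε + 1) (P.sE n ε) τ ≤ max (ε / 8) (ε ^ (-(sg / 2)) * Y ^ 2)

/-- transfer of the fourth cumulant to all tori and all sizes (helper640) -/
def DtrStep (P : Par) (b sg : ℝ) (N0 : ℕ) : Prop :=
  ∀ n m ε Y a τ, SI P b N0 n m ε Y → FLs P b m (en sg ε Y) a → RNGs P b m (en sg ε Y) →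
    tn m ≤ τ → τ ≤ 4 * tn m →
    DN b m (m + P.kE ε + 1) (P.sE n ε) τ ≤ max (ε / 8) (ε ^ (-(sg / 2)) * Y ^ 2) →
    DNs P b m (en sg ε Y) τ

variable {P : Par} {b sg : ℝ} {N0 : ℕ}

theorem DStep.of (h0 : D0Step P b sg N0) (h1 : DtrStep P b sg N0) : DStep P b sg N0 := by
  intro n m ε Y a hS hF hR
  obtain ⟨τ, h2, h3, h4⟩ := h0 n m ε Y a hS hF hR
  exact ⟨τ, h2, h3, h1 n m ε Y a τ hS hF hR h2 h3 h4⟩

/-- `lg` at half the size -/
lemma lg_half_le {c e e' : ℝ} (hc : 0 ≤ c) (he : 0 < e) (h : e / 2 ≤ e') :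
    lg c e' ≤ lg c e + ⌈c⌉₊ := by
  have h0 : 0 < e' := by linarith
  have h5 : Real.logb 2 (1 / e') ≤ 1 + Real.logb 2 (1 / e) := by
    have h6 : (1 : ℝ) + Real.logb 2 (1 / e) = Real.logb 2 (2 * (1 / e)) := by
      rw [Real.logb_mul two_ne_zero (by positivity), Real.logb_self_eq_one one_lt_two]
    rw [h6]
    apply Real.logb_le_logb_of_le one_lt_two (by positivity)
    rw [mul_one_div, div_le_div_iff₀ h0 he]
    linarith
  unfold lg
  rw [Nat.ceil_le]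
  push_cast
  have h8 := Nat.le_ceil (c * Real.logb 2 (1 / e))
  have h9 := Nat.le_ceil c
  nlinarith

/-- the level is large against `log (1 / e)` -/
lemma SI.nE {n m : ℕ} {ε Y : ℝ} (h : SI P b N0 n m ε Y) : 4 * lg P.C0 ε ≤ n := by
  obtain ⟨τ, a, -, -, h3⟩ := h.good
  exact (h3 ε le_rfl h.εes).nE

/-- the same at the new level -/
lemma SI.nE' {n m : ℕ} {ε Y : ℝ} (h : SI P b N0 n m ε Y) (hC : 4 * ⌈P.C0⌉₊ ≤ P.w P.es) {e' : ℝ}
    (he : ε / 2 ≤ e') : 4 * lg P.C0 e' ≤ m := by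
  have h0 : 0 < ε := (pow_pos h.yb.1 2).trans_le h.yε
  have h1 := lg_half_le P.C00.le h0 he
  have h2 := h.nE
  have h3 : P.w P.es ≤ P.w ε := lg_anti P.thp0.le h0 h.εes
  have h4 := h.lo
  omega

/-- **the step of the P half from its parts** -/
theorem StepP'.of (hC : 4 * ⌈P.C0⌉₊ ≤ P.w P.es) (hF : FlatStep P b sg N0)
    (hR : RngStep P b sg N0) (hA : ApStep P b sg N0) (hD : DStep P b sg N0) :
    StepP' P b sg N0 := by
  intro n m ε Y hn hG hy hy2 hes h1 h2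
  have hS : SI P b N0 n m ε Y := ⟨hn, hG, hy, hy2, hes, h1, h2⟩
  obtain ⟨a, hfl⟩ := hF n m ε Y hS
  have hrg := hR n m ε Y a hS hfl
  have hap := hA n m ε Y a hS hfl hrg
  obtain ⟨τ, h3, h4, hd⟩ := hD n m ε Y a hS hfl hrg
  exact ⟨τ, a, h3, h4, fun e he hes' => ⟨hd e he hes', hap e he hes', hrg e he hes', hfl e he hes',
    hS.nE' hC ((le_max_left _ _).trans he)⟩⟩

section numbers

variable {n m : ℕ} {ε Y : ℝ}

lemma SI.εpos (h : SI P b N0 n m ε Y) : 0 < ε := (pow_pos h.yb.1 2).trans_le h.yε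

lemma SI.ε1 (h : SI P b N0 n m ε Y) : ε ≤ 1 := h.εes.trans (P.es1.trans (by norm_num))

lemma SI.lt (h : SI P b N0 n m ε Y) : n < m := by
  have h1 := w1 h.εpos h.εes
  have := h.lo
  omega

lemma SI.half (_h : SI P b N0 n m ε Y) {e : ℝ} (he : en sg ε Y ≤ e) : ε / 2 ≤ e :=
  (le_max_left _ _).trans he

lemma SI.sq (_h : SI P b N0 n m ε Y) {e : ℝ} (he : en sg ε Y ≤ e) : ε ^ (-sg) * Y ^ 2 ≤ e :=
  (le_max_right _ _).trans he

/-- `yt` at smaller masses -/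
lemma yt_mass {N : ℕ} [NeZero N] (hb : 0 < b) {τ t : ℝ} (hτ : 0 < τ) (h : τ ≤ t) :
    yt N b τ ≤ t / τ * yt N b t := by
  have ht : 0 < t := hτ.trans_le h
  have h1 := Pik_mono (N := N) hb hτ h 0
  have h2 := Pik_nonneg (N := N) hb hτ 0
  have h3 := Pik_nonneg (N := N) hb ht 0
  rw [yt_eq hb hτ, yt_eq hb ht, div_mul_div_comm, div_le_div_iff₀ (by positivity) (by positivity)]
  have h4 : 0 ≤ τ * (t - τ) := mul_nonneg hτ.le (by linarith)
  have h5 : Pik N b τ 0 * (τ * (t + Pik N b t 0)) ≤ t * Pik N b t 0 * (τ + Pik N b τ 0) := by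
    have h6 : 0 ≤ t * τ * (Pik N b t 0 - Pik N b τ 0) := by
      apply mul_nonneg (by positivity); linarith
    have h7 : 0 ≤ (t - τ) * (Pik N b t 0 * Pik N b τ 0) := mul_nonneg (by linarith) (by positivity)
    nlinarith
  linarith

/-- the zero background number at every real mass of level `m`, all tori of side at least `xi_m` -/
lemma SI.yt (h : SI P b N0 n m ε Y) (hb : 0 < b) (hth : P.th ≤ P.thp) {r : ℕ} (hr : m ≤ r)
    {τ : ℝ} (hτ : tn m ≤ τ) (hτ2 : τ ≤ tn n) : yt (2 ^ r) b τ ≤ 4 ^ (m - n) * max Y ε := by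
  have h0 : 0 < τ := (tn_pos m).trans_le hτ
  have h1 := kE_le_w hth h.εpos h.ε1
  have h2 := h.yb.2.1 ε le_rfl h.εes r (by have := h.lo; omega)
  refine (yt_mass hb h0 hτ2).trans ?_
  have h3 : tn n / τ ≤ 4 ^ (m - n) := by
    rw [div_le_iff₀ h0]
    have h4 : (4 : ℝ) ^ (m - n) * tn m = tn n := by
      unfold tn
      have h5 : (4 : ℝ) ^ m = 4 ^ (m - n) * 4 ^ n := by
        rw [← pow_add, Nat.sub_add_cancel h.lt.le]
      rw [h5]
      field_simp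
    rw [← h4]
    gcongr
  have h4 := yt_nonneg (N := 2 ^ r) hb.le (tn_pos n)
  exact mul_le_mul h3 h2 h4 (by positivity)

end numbers

end

end Vale.Agent.P159.H972
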