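import Vale.Agent.P159.H972.Lk0

/-!
P159 / LINKW (C), numbers (helper972): the smoothed pyramid `smz s (pf x0 y0 p)` on the torus, the
two scale splitting, the start of the local form.
-/

set_option linter.unusedSectionVars false

namespace Vale.Agent.P159.H972

open Finset Matrix
open Vale.Agent.P159.H37
open Vale.Agent.P159.TM.H764 (EE hatu)
open Vale.Agent.P159.TM.Spec (V)
open Vale.Agent.P159.H864 (TI sym hsq hsq_nonneg lapM ti_lapM sym_lapM qf_eq_sum sum_hsq qf_lapM)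
open Vale.Agent.P159.H963 (Gn Pin ti_Gn)
open Vale.Agent.P159.H859 (lapz enz gdz Fsu smz pf smz_ne smz_fsu pf_fsu enz_smz_le enz_diff enz_up
  le_enz lapz_smz_le sq_lapz_smz sum_lapz_smz smz_nonneg smz_le pf_nonneg pf_le lapz_ne gdz_fsu)
open Vale.Agent.P159.H692 (Xf Xf_eq PrF xf_c1)

noncomputable section

/-- energy of a difference -/
lemma enz_sub_le {f g : ℤ × ℤ → ℝ} (hf : Fsu f) (hg : Fsu g) :
    enz (fun c => f c - g c) ≤ 2 * enz f + 2 * enz g := by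
  have h1 := (gdz_fsu hf).summable
  have h2 := (gdz_fsu hg).summable
  have h3 := (gdz_fsu (hf.sub hg)).summable
  unfold H859.enz
  rw [← tsum_mul_left, ← tsum_mul_left, ← (h1.mul_left 2).tsum_add (h2.mul_left 2)]
  refine h3.tsum_le_tsum (fun c => ?_) ((h1.mul_left 2).add (h2.mul_left 2))
  unfold H859.gdz
  nlinarith [sq_nonneg ((f (c + (1, 0)) - f c) + (g (c + (1, 0)) - g c)),
    sq_nonneg ((f (c + (0, 1)) - f c) + (g (c + (0, 1)) - g c))]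

/-- two scales -/
lemma enz_two (x0 y0 : ℤ) {p s s' : ℕ} (hp : 1 ≤ p) (hs : 1 ≤ s) (hss : s ≤ s') :
    enz (fun c => smz s (pf x0 y0 p) c - smz s' (pf x0 y0 p) c) ≤ 256 * p * s' := by
  have hp' : (1 : ℤ) ≤ (p : ℤ) := by exact_mod_cast hp
  have h1 := enz_diff x0 y0 hp' hs
  have h2 := enz_diff x0 y0 hp' (hs.trans hss)
  have f0 := pf_fsu x0 y0 p
  have f1 := f0.sub (smz_fsu f0 s)
  have f2 := f0.sub (smz_fsu f0 s')
  have e : (fun c => smz s (pf x0 y0 p) c - smz s' (pf x0 y0 p) c) =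
      fun c => (fun c => pf x0 y0 p c - smz s' (pf x0 y0 p) c) c -
        (fun c => pf x0 y0 p c - smz s (pf x0 y0 p) c) c := by
    funext c
    ring
  rw [e]
  refine (enz_sub_le f2 f1).trans ?_
  push_cast at h1 h2
  have h3 : (s : ℝ) ≤ s' := by exact_mod_cast hss
  have h4 : (0 : ℝ) ≤ s := Nat.cast_nonneg _
  have h5 : (1 : ℝ) ≤ p := by exact_mod_cast hp
  nlinarith

/-- total energy of the smoothed pyramid -/
lemma enz_smz_up (x0 y0 : ℤ) {p s : ℕ} (hp : 1 ≤ p) (hs : 1 ≤ s) :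
    enz (smz s (pf x0 y0 p)) ≤ 16 * (p : ℝ) ^ 2 := by
  have hp' : (1 : ℤ) ≤ (p : ℤ) := by exact_mod_cast hp
  refine (enz_smz_le (pf_fsu x0 y0 p) hs).trans ((enz_up x0 y0 hp').trans ?_)
  have h5 : (1 : ℝ) ≤ p := by exact_mod_cast hp
  push_cast
  nlinarith

/-- sum over a set which contains the support -/
lemma tsum_le_card {F : ℤ × ℤ → ℝ} {S : Finset (ℤ × ℤ)} {B : ℝ} (h1 : ∀ c, F c ≠ 0 → c ∈ S)
    (h2 : ∀ c, F c ≤ B) : ∑' c, F c ≤ S.card * B := by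
  rw [tsum_eq_sum (s := S) fun c hc => by by_contra h; exact hc (h1 c h)]
  refine (Finset.sum_le_sum fun c _ => h2 c).trans ?_
  rw [Finset.sum_const, nsmul_eq_mul]

/-- the box of the support -/
def bxs (x0 y0 : ℤ) (p s : ℕ) : Finset (ℤ × ℤ) :=
  Finset.Icc (x0 - p - s) (x0 + p) ×ˢ Finset.Icc (y0 - p - s) (y0 + p)

lemma card_bxs (x0 y0 : ℤ) {p s : ℕ} (hp : 1 ≤ p) (hsp : s ≤ p) :
    ((bxs x0 y0 p s).card : ℝ) ≤ 16 * (p : ℝ) ^ 2 := by
  unfold bxs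
  rw [Finset.card_product, Int.card_Icc, Int.card_Icc]
  have h1 : (x0 + p + 1 - (x0 - p - s)).toNat ≤ 4 * p := by omega
  have h2 : (y0 + p + 1 - (y0 - p - s)).toNat ≤ 4 * p := by omega
  have h3 := Nat.mul_le_mul h1 h2
  have h4 : (((x0 + p + 1 - (x0 - p - s)).toNat * (y0 + p + 1 - (y0 - p - s)).toNat : ℕ) : ℝ) ≤
      ((4 * p * (4 * p) : ℕ) : ℝ) := by exact_mod_cast h3
  refine h4.trans (le_of_eq ?_)
  push_cast
  ring

lemma smz_box {x0 y0 : ℤ} {p s : ℕ} {c : ℤ × ℤ} (h : smz s (pf x0 y0 p) c ≠ 0) :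
    c ∈ bxs x0 y0 p s := by
  have h1 := smz_ne h
  unfold bxs
  rw [Finset.mem_product, Finset.mem_Icc, Finset.mem_Icc]
  omega

lemma smz_abs (x0 y0 : ℤ) {p s : ℕ} (hs : 1 ≤ s) (c : ℤ × ℤ) :
    0 ≤ smz s (pf x0 y0 p) c ∧ smz s (pf x0 y0 p) c ≤ p := by
  refine ⟨smz_nonneg (pf_nonneg x0 y0 p) s c, ?_⟩
  exact smz_le (A := (p : ℝ)) (fun c => by
    have := pf_le x0 y0 (p := (p : ℤ)) (by positivity) c
    simpa using this) hs c

/-- the square norm of the smoothed pyramid -/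
lemma sq_smz (x0 y0 : ℤ) {p s : ℕ} (hp : 1 ≤ p) (hs : 1 ≤ s) (hsp : s ≤ p) :
    ∑' c, smz s (pf x0 y0 p) c ^ 2 ≤ 16 * (p : ℝ) ^ 4 := by
  have h1 := tsum_le_card (F := fun c => smz s (pf x0 y0 p) c ^ 2) (S := bxs x0 y0 p s)
    (B := (p : ℝ) ^ 2) (fun c hc => smz_box fun h0 => hc (by simp [h0])) fun c => by
      have h2 := smz_abs x0 y0 (p := p) hs c
      exact pow_le_pow_left₀ h2.1 h2.2 2
  refine h1.trans ?_
  have h2 := card_bxs x0 y0 hp hsp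
  calc ((bxs x0 y0 p s).card : ℝ) * (p : ℝ) ^ 2 ≤ 16 * (p : ℝ) ^ 2 * (p : ℝ) ^ 2 := by gcongr
    _ = _ := by ring

/-- the sum norm of the smoothed pyramid -/
lemma one_smz (x0 y0 : ℤ) {p s : ℕ} (hp : 1 ≤ p) (hs : 1 ≤ s) (hsp : s ≤ p) :
    ∑' c, |smz s (pf x0 y0 p) c| ≤ 16 * (p : ℝ) ^ 3 := by
  have h1 := tsum_le_card (F := fun c => |smz s (pf x0 y0 p) c|) (S := bxs x0 y0 p s)
    (B := (p : ℝ)) (fun c hc => smz_box fun h0 => hc (by simp [h0])) fun c => by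
      have h2 := smz_abs x0 y0 (p := p) hs c
      rw [abs_of_nonneg h2.1]
      exact h2.2
  refine h1.trans ?_
  have h2 := card_bxs x0 y0 hp hsp
  calc ((bxs x0 y0 p s).card : ℝ) * (p : ℝ) ≤ 16 * (p : ℝ) ^ 2 * (p : ℝ) := by gcongr
    _ = _ := by ring

lemma lapz_fsu {f : ℤ × ℤ → ℝ} (hf : Fsu f) : Fsu (lapz f) := by
  have h1 : ∀ q : ℤ × ℤ, Fsu (fun c => f c - f (c + q)) := fun q => hf.sub (hf.trz q)
  have h2 := ((h1 (1, 0)).add (h1 (-(1, 0)))).add ((h1 (0, 1)).add (h1 (-(0, 1))))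
  have e : lapz f = fun c => ((f c - f (c + (1, 0))) + (f c - f (c + -(1, 0)))) +
      ((f c - f (c + (0, 1))) + (f c - f (c + -(0, 1)))) := by
    funext c
    unfold H859.lapz
    rw [← sub_eq_add_neg, ← sub_eq_add_neg]
    ring
  rw [e]
  exact h2

/-- square norm of the Laplacian of the smoothed pyramid -/
lemma sq_lap (x0 y0 : ℤ) {p s : ℕ} (hp : 1 ≤ p) (hs : 1 ≤ s) :
    ∑' c, lapz (smz s (pf x0 y0 p)) c ^ 2 ≤ 128 * p / s := by
  have hp' : (1 : ℤ) ≤ (p : ℤ) := by exact_mod_cast hp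
  have hf : Fsu fun c => lapz (smz s (pf x0 y0 p)) c ^ 2 := by
    have h1 := (lapz_fsu (smz_fsu (pf_fsu x0 y0 p) s)).mul (lapz (smz s (pf x0 y0 p)))
    have e : (fun c => lapz (smz s (pf x0 y0 p)) c ^ 2) =
        fun c => lapz (smz s (pf x0 y0 p)) c * lapz (smz s (pf x0 y0 p)) c := by
      funext c
      exact pow_two _
    rw [e]
    exact h1
  refine hf.summable.tsum_le_of_sum_le fun S => ?_
  have hs0 : (0 : ℝ) < s := by exact_mod_cast hs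
  refine (sq_lapz_smz x0 y0 hp' hs S).trans ?_
  refine div_le_div_of_nonneg_right ?_ hs0.le
  push_cast
  linarith

/-- sum norm of the Laplacian of the smoothed pyramid -/
lemma one_lap (x0 y0 : ℤ) {p s : ℕ} (hp : 1 ≤ p) (hs : 1 ≤ s) :
    ∑' c, |lapz (smz s (pf x0 y0 p)) c| ≤ 16 * p := by
  have hp' : (1 : ℤ) ≤ (p : ℤ) := by exact_mod_cast hp
  have hf : Fsu fun c => |lapz (smz s (pf x0 y0 p)) c| := by
    refine (lapz_fsu (smz_fsu (pf_fsu x0 y0 p) s)).subset fun c hc => ?_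
    simpa using hc
  refine hf.summable.tsum_le_of_sum_le fun S => ?_
  refine (sum_lapz_smz x0 y0 hp' hs S).trans ?_
  push_cast
  linarith

section torus

variable {N : ℕ} [NeZero N] {x0 y0 : ℤ} {p s s' : ℕ}

lemma fit_smz (h1 : (p : ℤ) + s < x0) (h2 : (p : ℤ) + s < y0) (h3 : x0 + p < N)
    (h4 : y0 + p < N) : Fit N (smz s (pf x0 y0 p)) := by
  intro c hc
  have h := smz_ne hc
  omega

lemma Fit.sub {f g : ℤ × ℤ → ℝ} (hf : Fit N f) (hg : Fit N g) : Fit N fun c => f c - g c := by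
  intro c hc
  by_cases h : f c = 0
  · exact hg c fun h' => hc (by simp [h, h'])
  · exact hf c h

/-- **(C1) for the smoothed pyramid** -/
theorem xf_pyr {b t a c0 c1 δ η C : ℝ} (hb : 0 < b) (ht : 0 < t) (h : PrF N b t a c0 c1 δ η)
    (hc0 : 0 < c0) (ha : 0 ≤ a) (hc1 : 0 ≤ c1) (hη : 0 ≤ η) (hδ : 0 ≤ δ) (hC1 : 1 ≤ C)
    (hC : a ≤ C * c0) (hp : 1 ≤ p) (hs : 1 ≤ s) (hss : s ≤ s')
    (g1 : (p : ℤ) + s' < x0) (g2 : (p : ℤ) + s' < y0) (g3 : x0 + p < N) (g4 : y0 + p < N) :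
    |Xf N b t a (em N (smz s (pf x0 y0 p)))| ≤
      C * (δ * (16 * (p : ℝ) ^ 2) + 2 * (η / t) * (128 * p / s') +
        2 * (a + c1) * (256 * p * s')) := by
  have hss' : (s : ℤ) ≤ s' := by exact_mod_cast hss
  have F1 : Fit N (smz s (pf x0 y0 p)) := fit_smz (by omega) (by omega) g3 g4
  have F2 : Fit N (smz s' (pf x0 y0 p)) := fit_smz g1 g2 g3 g4
  have e : em N (smz s (pf x0 y0 p)) = em N (smz s' (pf x0 y0 p)) +
      em N (fun c => smz s (pf x0 y0 p) c - smz s' (pf x0 y0 p) c) := by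
    funext x
    rw [Pi.add_apply]
    unfold em
    ring
  have h1 := xf_c1 hb ht h hc0 ha hc1 hη hδ hC1 hC (em N (smz s' (pf x0 y0 p)))
    (em N (fun c => smz s (pf x0 y0 p) c - smz s' (pf x0 y0 p) c))
  rw [← e, qf_em F1, sum_em_lap F2, qf_em (F1.sub F2)] at h1
  refine h1.trans (mul_le_mul_of_nonneg_left ?_ (by linarith))
  have a1 := enz_smz_up x0 y0 hp hs
  have a2 := sq_lap x0 y0 hp (hs.trans hss)
  have a3 := enz_two x0 y0 hp hs hss
  have b1 := mul_le_mul_of_nonneg_left a1 hδ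
  have b2 := mul_le_mul_of_nonneg_left a2 (by positivity : 0 ≤ 2 * (η / t))
  have b3 := mul_le_mul_of_nonneg_left a3 (by positivity : 0 ≤ 2 * (a + c1))
  linarith

end torus

/-- the choice of the second scale: `s' ~ sqrt η * p` -/
lemma scale_num {η t : ℝ} {p s' : ℕ} (hη : 0 < η) (hp : 1 ≤ p) (ht : 1 ≤ t * (p : ℝ) ^ 2)
    (ht0 : 0 < t) (h1 : √η * p ≤ s') (h2 : (s' : ℝ) ≤ 2 * (√η * p)) {K δ : ℝ} (hK : 0 ≤ K) :
    δ * (16 * (p : ℝ) ^ 2) + 2 * (η / t) * (128 * p / s') + 2 * K * (256 * p * s') ≤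
      (16 * δ + (256 + 1024 * K) * √η) * (p : ℝ) ^ 2 := by
  have hp0 : (0 : ℝ) < p := by exact_mod_cast hp
  have hr : 0 < √η := Real.sqrt_pos.2 hη
  have hs0 : (0 : ℝ) < s' := lt_of_lt_of_le (by positivity) h1
  have e1 : 2 * (η / t) * (128 * p / s') ≤ 256 * √η * (p : ℝ) ^ 2 := by
    have h3 : η / t ≤ η * (p : ℝ) ^ 2 := by
      rw [div_le_iff₀ ht0]
      nlinarith
    have h4 : 128 * (p : ℝ) / s' ≤ 128 / √η := by
      rw [div_le_div_iff₀ hs0 hr]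
      nlinarith
    have h5 : 2 * (η / t) * (128 * p / s') ≤ 2 * (η * (p : ℝ) ^ 2) * (128 / √η) := by
      have : 0 ≤ 128 * (p : ℝ) / s' := by positivity
      have h6 : 0 ≤ 2 * (η * (p : ℝ) ^ 2) := by positivity
      exact mul_le_mul (by linarith) h4 this h6
    refine h5.trans (le_of_eq ?_)
    have h6 : η = √η * √η := (Real.mul_self_sqrt hη.le).symm
    field_simp
    rw [Real.sq_sqrt hη.le]
    ring
  have e2 : 2 * K * (256 * p * s') ≤ 1024 * K * √η * (p : ℝ) ^ 2 := by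
    have h3 : 256 * (p : ℝ) * s' ≤ 512 * √η * (p : ℝ) ^ 2 := by nlinarith
    have := mul_le_mul_of_nonneg_left h3 (by positivity : 0 ≤ 2 * K)
    linarith
  nlinarith

end

end Vale.Agent.P159.H972
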