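import Vale.Agent.P159.H972.Lk4

/-!
P159 / LINKW (helper972), assembly, third part: the whole chain from the level `u`.
-/

set_option linter.unusedSectionVars false

namespace Vale.Agent.P159.H972

open Finset Matrix
open Vale.Agent.P159.H37
open Vale.Agent.P159.TM.H764 (EE hatu)
open Vale.Agent.P159.TM.Spec (V)
open Vale.Agent.P159.H864 (TI sym hsq hsq_nonneg lapM ti_lapM sym_lapM qf_eq_sum sum_hsq qf_lapM)
open Vale.Agent.P159.H963 (Gn Pin ti_Gn)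
open Vale.Agent.P159.H859 (lapz enz gdz Fsu smz pf smz_ne smz_fsu pf_fsu enz_smz_le enz_diff enz_up
  le_enz enz_trz)
open Vale.Agent.P159.H692 (Xf Xf_eq PrF lk3s eS)

noncomputable section

variable {P : Par} {b s : ℝ} {N0 : ℕ} {ε Y a : ℕ → ℝ}

/-- the powers of four along the chain -/
lemma four_lev (h : Chn P b s N0 ε Y a) {J q u : ℕ} (hL : Lg2 P s N0 J q u) {C1 : ℝ}
    (hJ : (J : ℝ) * P.thp ≤ 2 * q + 8) (hC1 : 12 * (q : ℝ) + 49 ≤ C1) {i : ℕ} (hi : i ≤ J) :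
    (4 : ℝ) ^ (lev P ε u i - u) ≤ (lev P ε u i : ℝ) ^ C1 := by
  have hu := hL.lrg.u0
  have hn0 := h.npos hu
  have hge := lev_ge h u i
  have hthp := P.thp0
  have hl1 := hL.l1
  have hu1 : (1 : ℝ) ≤ u := by
    have := h.n0
    exact_mod_cast (by omega : 1 ≤ u)
  have hW : 0 ≤ Wm P u := by unfold Wm; positivity
  have h1 : ((lev P ε u i - u : ℕ) : ℝ) ≤ J * Wm P u := by
    rw [Nat.cast_sub hge]
    have h2 := lev_up h hu hL.lrg.J i (by omega)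
    have h3 : (i : ℝ) * Wm P u ≤ J * Wm P u := by
      have : (i : ℝ) ≤ J := by exact_mod_cast hi
      gcongr
    linarith
  have h2 : (4 : ℝ) ^ (lev P ε u i - u) ≤ (4 : ℝ) ^ (J * Wm P u) := by
    rw [← Real.rpow_natCast]
    exact Real.rpow_le_rpow_of_exponent_le (by norm_num) h1
  have h3 : (4 : ℝ) ^ (J * Wm P u) =
      (u : ℝ) ^ (6 * (J * P.thp)) * (4 : ℝ) ^ (J * (3 * P.thp + 1)) := by
    have e1 : (u : ℝ) = (2 : ℝ) ^ (Real.logb 2 u) := by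
      rw [Real.rpow_logb two_pos (by norm_num) hn0]
    have e2 : (4 : ℝ) = (2 : ℝ) ^ (2 : ℝ) := by norm_num
    have e3 : (u : ℝ) ^ (6 * (J * P.thp)) =
        (2 : ℝ) ^ (Real.logb 2 u * (6 * (J * P.thp))) := by
      conv_lhs => rw [e1]
      rw [← Real.rpow_mul (by norm_num)]
    rw [e3, e2, ← Real.rpow_mul (by norm_num), ← Real.rpow_mul (by norm_num),
      ← Real.rpow_add (by norm_num)]
    congr 1
    unfold Wm
    ring
  have h4 : (4 : ℝ) ^ (J * (3 * P.thp + 1)) ≤ u := by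
    refine le_trans ?_ hL.pow
    apply Real.rpow_le_rpow_of_exponent_le (by norm_num)
    have : 0 ≤ (J : ℝ) * (3 * P.thp + 1) := by positivity
    linarith
  have h5 : (u : ℝ) ^ (6 * (J * P.thp)) ≤ (u : ℝ) ^ (12 * (q : ℝ) + 48) :=
    Real.rpow_le_rpow_of_exponent_le hu1 (by linarith)
  have h6 : (u : ℝ) ^ (12 * (q : ℝ) + 48) * u = (u : ℝ) ^ (12 * (q : ℝ) + 49) := by
    rw [show 12 * (q : ℝ) + 49 = (12 * (q : ℝ) + 48) + 1 by ring,
      Real.rpow_add hn0 (12 * (q : ℝ) + 48) 1, Real.rpow_one]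
  have h7 : (u : ℝ) ≤ lev P ε u i := by exact_mod_cast hge
  have hq : (0 : ℝ) ≤ q := Nat.cast_nonneg _
  calc (4 : ℝ) ^ (lev P ε u i - u) ≤ (4 : ℝ) ^ (J * Wm P u) := h2
    _ = (u : ℝ) ^ (6 * (J * P.thp)) * (4 : ℝ) ^ (J * (3 * P.thp + 1)) := h3
    _ ≤ (u : ℝ) ^ (12 * (q : ℝ) + 48) * u := by gcongr
    _ = (u : ℝ) ^ (12 * (q : ℝ) + 49) := h6
    _ ≤ (lev P ε u i : ℝ) ^ (12 * (q : ℝ) + 49) := by gcongr
    _ ≤ _ := Real.rpow_le_rpow_of_exponent_le (hu1.trans h7) hC1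

/-- the error of one window, in numbers -/
lemma eS_le {C au b c1 D F t E U dd kk v X : ℝ} (hb : 0 < b) (hc1 : 0 ≤ c1)
    (hE0 : 0 ≤ E) (hE : E ≤ v ^ 2) (hU0 : 0 ≤ U) (hU : U ≤ v) (hv0 : 0 ≤ v) (hv1 : v ≤ 1)
    (_ : 0 ≤ X) (hF0 : 0 ≤ t * F) (hF : t * F ≤ 16 * X) (hD0 : 0 ≤ D) (hD : D ≤ 16 * X)
    (hdd : dd ≤ v * X) (hkk : kk ≤ v * X) (ha2 : au ≤ 2) :
    eS C au (1 / b) c1 D F t (34 * E + 8 * U) (34 * E) dd kk ≤
      (C ^ 2 + 2 * b ^ 2 * (28224 + 544 * (2 + c1)) + 1) * (v * X) := by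
  unfold eS
  have t6 : 2 / (1 / b) ^ 2 = 2 * b ^ 2 := by field_simp
  rw [t6]
  have hvv : v ^ 2 ≤ v := by nlinarith
  have t1 : C ^ 2 * dd ≤ C ^ 2 * (v * X) := mul_le_mul_of_nonneg_left hdd (sq_nonneg C)
  have w1 : 34 * E + 8 * U ≤ 42 * v := by linarith
  have w2 : (34 * E + 8 * U) ^ 2 ≤ (42 * v) ^ 2 := pow_le_pow_left₀ (by positivity) w1 2
  have w3 : (42 * v) ^ 2 ≤ 1764 * v := by nlinarith
  have t3 : (34 * E + 8 * U) ^ 2 * (t * F) ≤ 1764 * v * (16 * X) :=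
    mul_le_mul (w2.trans w3) hF hF0 (by positivity)
  have t4 : (au + c1) * (34 * E) * D ≤ (2 + c1) * (34 * v) * (16 * X) :=
    mul_le_mul (mul_le_mul (by linarith) (by linarith) (by positivity) (by linarith)) hD hD0
      (by positivity)
  have t7 := mul_le_mul_of_nonneg_left (add_le_add t3 t4) (by positivity : 0 ≤ 2 * b ^ 2)
  have t8 : (C ^ 2 + 2 * b ^ 2 * (28224 + 544 * (2 + c1)) + 1) * (v * X) =
      C ^ 2 * (v * X) + 2 * b ^ 2 * (1764 * v * (16 * X) + (2 + c1) * (34 * v) * (16 * X)) +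
        v * X := by ring
  rw [t8]
  exact add_le_add (add_le_add t1 t7) hkk

/-- the last mass, in numbers -/
lemma last_le {u m c : ℕ} {v F : ℝ} (hm : u + c ≤ m) (hv : ((4 : ℝ) ^ c)⁻¹ ≤ v) (hF0 : 0 ≤ F)
    (hF : F ≤ 16 * 16 ^ u) : tn m * F ≤ 16 * (v * 4 ^ u) := by
  have w6 : tn m ≤ ((4 : ℝ) ^ u * 4 ^ c)⁻¹ := by
    unfold tn
    rw [← pow_add]
    exact inv_anti₀ (by positivity) (pow_le_pow_right₀ (by norm_num) hm)
  calc tn m * F ≤ ((4 : ℝ) ^ u * 4 ^ c)⁻¹ * (16 * 16 ^ u) :=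
        mul_le_mul w6 hF hF0 (by positivity)
    _ = 16 * (((4 : ℝ) ^ c)⁻¹ * 4 ^ u) := by
        have : (16 : ℝ) ^ u = 4 ^ u * 4 ^ u := by rw [← mul_pow]; norm_num
        rw [this]
        field_simp
    _ ≤ 16 * (v * 4 ^ u) := by gcongr

/-- the last level is at least `u + clog u` -/
lemma lev_last (h : Chn P b s N0 ε Y a) {J q u : ℕ} (hL : Lg2 P s N0 J q u) :
    u + Nat.clog 2 u ≤ lev P ε u J := by
  have hu := hL.lrg.u0
  have w1 := lev_low h hu J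
  have w2 := hL.big
  have w3 := clog_le_logb (u := u) (by have := h.n0; omega)
  have hl1 := hL.l1
  have w4 : (u : ℝ) + Nat.clog 2 u ≤ lev P ε u J := by
    have : (3 * (q : ℝ) + 10) * Real.logb 2 u ≥ Nat.clog 2 u := by
      have hq : (0 : ℝ) ≤ q := Nat.cast_nonneg _
      nlinarith
    linarith
  exact_mod_cast w4

lemma clog_inv (h : Chn P b s N0 ε Y a) {u : ℕ} (hu : N0 ≤ u) :
    ((4 : ℝ) ^ Nat.clog 2 u)⁻¹ ≤ (u : ℝ) ^ (-(s * P.pf)) := by
  have hn0 := h.npos hu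
  have hu1 : (1 : ℝ) ≤ u := by
    have := h.n0
    exact_mod_cast (by omega : 1 ≤ u)
  have hpf0 := h.adm.pf0
  have hpf1 := h.adm.pf1
  have hs1 := h.s1
  have hs2 := h.s2
  have w8 : (u : ℝ) ≤ 4 ^ Nat.clog 2 u :=
    (clog_ge u).trans (pow_le_pow_left₀ (by norm_num) (by norm_num) _)
  have w9 : ((4 : ℝ) ^ Nat.clog 2 u)⁻¹ ≤ (u : ℝ)⁻¹ := inv_anti₀ hn0 w8
  refine w9.trans ?_
  rw [← Real.rpow_neg_one]
  refine Real.rpow_le_rpow_of_exponent_le hu1 ?_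
  nlinarith

/-- the constant of the chain -/
def Rc (b c1 C : ℝ) (J : ℕ) : ℝ :=
  C * (544 + 6 * (256 + 1024 * (2 + c1))) +
    J * (C ^ 2 + 2 * b ^ 2 * (28224 + 544 * (2 + c1)) + 1) + 16

/-- **the neutral covariance at the end of the chain** -/
theorem chain_end (h : Chn P b s N0 ε Y a) {c1 p3 C1 : ℝ} (hc1 : 1 ≤ c1)
    (hK1 : KP P b c1 N0 ε a) (hK2 : KT P b s C1 N0 ε) (hK3 : KD P b p3 N0 ε) (hp3 : 1 / 2 ≤ p3)
    {J q u : ℕ} (hL : Lg2 P s N0 J q u) (hJ : (J : ℝ) * P.thp ≤ 2 * q + 8)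
    (hC1 : 12 * (q : ℝ) + 49 ≤ C1) {C : ℝ} (hC : 1 ≤ C) (hCb : 2 * b ≤ C) :
    qf (Gm (wt (2 ^ tor P ε u J) b (tn (lev P ε u J))))
      (lapM *ᵥ em (2 ^ tor P ε u J) (fu u)) ≤
      enz (fu u) / a u + Rc b c1 C J * (u : ℝ) ^ (-(s * P.pf)) * 4 ^ u := by
  have hu := hL.lrg.u0
  have hb := h.hb
  have hn0 := h.npos hu
  have hpf0 := h.adm.pf0
  have hpf1 := h.adm.pf1
  have hs1 := h.s1
  have hs2 := h.s2
  have hthp := P.thp0
  obtain ⟨ha1, ha2⟩ := h.a1 u hu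
  have hu1 : (1 : ℝ) ≤ u := by
    have := h.n0
    exact_mod_cast (by omega : 1 ≤ u)
  set v : ℝ := (u : ℝ) ^ (-(s * P.pf)) with hv
  have hv0 : 0 < v := Real.rpow_pos_of_pos hn0 _
  have hθ : 0 ≤ s * P.pf := by positivity
  have hv1 : v ≤ 1 := Real.rpow_le_one_of_one_le_of_nonpos hu1 (by linarith)
  have hvv : v ^ 2 ≤ v := by nlinarith
  have hge : ∀ i, u ≤ lev P ε u i := lev_ge h u
  have hN : ∀ i, N0 ≤ lev P ε u i := fun i => hu.trans (hge i)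
  -- sizes
  have z1 : ∀ i, ε (lev P ε u i) ^ P.pf ≤ v ^ 2 := by
    intro i
    have h3 := h.ε_pow hu (hge i) (q := P.pf) (c := 2 * s * P.pf) hpf0.le (by positivity) le_rfl
    refine h3.trans (le_of_eq ?_)
    rw [hv, ← Real.rpow_natCast, ← Real.rpow_mul hn0.le]
    congr 1
    push_cast
    ring
  have z2 : ∀ i, ε (lev P ε u i) ^ p3 ≤ v := by
    intro i
    refine h.ε_pow hu (hge i) (q := p3) (c := s * P.pf) (by linarith) hθ ?_
    nlinarith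
  have z3 : ∀ i, (lev P ε u i : ℝ) ^ (-s) ≤ v := by
    intro i
    refine rp_anti (by have := h.n0; omega) (hge i) ?_ hθ
    nlinarith
  have z4 : (u : ℝ) ^ (-s) ≤ v := by
    refine rp_anti (by have := h.n0; omega) le_rfl ?_ hθ
    nlinarith
  have hη0 : ∀ i, 0 ≤ 34 * ε (lev P ε u i) ^ P.pf := fun i => by
    have := (h.εpos (hN i)).le
    positivity
  -- geometry
  have htor : ∀ i, u + 3 ≤ tor P ε u i := by
    intro i
    have h1 := tor_ge h (u := u) (i := i) hu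
    have h2 := hge (i + 1)
    have h3 := h.adm.hk
    omega
  have hfit : ∀ i, Fit (2 ^ tor P ε u i) (fu u) := fun i => fu_fit (htor i)
  have key := lk3s (fun i => lev P ε u i) (fun i => tor P ε u i) (b := b) (a := a u)
    (c0 := 1 / b) (c1 := c1) (C := C) (D := enz (fu u)) (F := ∑' c, fu u c ^ 2)
    (e0 := C * ((544 + 6 * (256 + 1024 * (2 + c1))) * v * 4 ^ u))
    (fun i => em (2 ^ tor P ε u i) (fu u))
    (fun i => 34 * ε (lev P ε u i) ^ P.pf + 8 * (u : ℝ) ^ (-s))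
    (fun i => 34 * ε (lev P ε u i) ^ P.pf) (fun i => ε (lev P ε u i) ^ p3 * 4 ^ u)
    (fun i => (lev P ε u (i + 1) : ℝ) ^ (-s) * 4 ^ u) hb (by linarith) (by positivity)
    (by linarith) hC (by rw [mul_one_div, le_div_iff₀ hb]; nlinarith) J
    (fun i _ => Nat.le_add_right _ _) (fun i _ => qf_em (hfit i)) (fun i _ => sum_em_sq (hfit i))
    (start_X h hc1 hK1 hL hC hCb) (fun i _ => hη0 i)
    (fun i hi => hK1 _ (hN i) _ (tor_TT h hL.lrg (by omega)) (a u) _ (h.a_sub hu (hge i)))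
    (fun i _ k hk => H276.Pin_ge hb (tn_pos _) hk)
    (fun i _ k hk => H276.Pin_mono hb (tn_pos _) (by
      unfold tn
      exact inv_anti₀ (by positivity) (pow_le_pow_right₀ (by norm_num) (Nat.le_add_right _ _)))
      hk)
    (fun i hi => hK3 _ (hN i) _ le_rfl (by show _ + _ ≤ _; omega) _ (tor_TT h hL.lrg (by omega))
      (tor_ge h hu) u (hge i))
    (fun i hi => by
      have h1 := hK2 (lev P ε u (i + 1)) (hN _) (tor P ε u (i + 1)) (tor P ε u i)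
        (tor_TT h hL.lrg (by omega)) (tor_TT' h hL.lrg (by omega)) u (hge _)
        (by
          have := lev_two h hL.lrg (i := i + 1) (by omega)
          exact_mod_cast this)
        (four_lev h hL hJ hC1 (by omega)) (a u) (by linarith) ha2
      have := (abs_le.1 h1).2
      linarith)
  refine key.trans ?_
  -- the sum of the errors
  have hD0 := D_nonneg u
  have hD := D_le' u
  have hF0 := F_nonneg u
  have h4u : (0 : ℝ) < 4 ^ u := by positivity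
  have hsum : ∑ i ∈ range J, eS C (a u) (1 / b) c1 (enz (fu u)) (∑' c, fu u c ^ 2)
      (tn (lev P ε u i)) (34 * ε (lev P ε u i) ^ P.pf + 8 * (u : ℝ) ^ (-s))
      (34 * ε (lev P ε u i) ^ P.pf) (ε (lev P ε u i) ^ p3 * 4 ^ u)
      ((lev P ε u (i + 1) : ℝ) ^ (-s) * 4 ^ u) ≤
      J * ((C ^ 2 + 2 * b ^ 2 * (28224 + 544 * (2 + c1)) + 1) * (v * 4 ^ u)) := by
    refine (Finset.sum_le_sum fun i _ => eS_le hb (by linarith)
      (Real.rpow_nonneg (h.εpos (hN i)).le _) (z1 i) (Real.rpow_nonneg hn0.le _) z4 hv0.le hv1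
      h4u.le (mul_nonneg (tn_pos _).le hF0) (tF_le (hge i)) hD0 hD
      (mul_le_mul_of_nonneg_right (z2 i) h4u.le)
      (mul_le_mul_of_nonneg_right (z3 (i + 1)) h4u.le) ha2).trans (le_of_eq ?_)
    rw [Finset.sum_const, Finset.card_range, nsmul_eq_mul]
  -- the last mass
  have hlast : tn (lev P ε u J) * ∑' c, fu u c ^ 2 ≤ 16 * (v * 4 ^ u) :=
    last_le (lev_last h hL) (clog_inv h hu) hF0 (F_le u)
  -- together
  have hR : C * ((544 + 6 * (256 + 1024 * (2 + c1))) * v * 4 ^ u) +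
      J * ((C ^ 2 + 2 * b ^ 2 * (28224 + 544 * (2 + c1)) + 1) * (v * 4 ^ u)) +
        16 * (v * 4 ^ u) = Rc b c1 C J * v * 4 ^ u := by
    unfold Rc
    ring
  have hR0 : 0 ≤ Rc b c1 C J * v * 4 ^ u := by
    unfold Rc
    positivity
  have hdiv : ∀ x : ℝ, x ≤ Rc b c1 C J * v * 4 ^ u → x / a u ^ 2 ≤ Rc b c1 C J * v * 4 ^ u := by
    intro x hx
    refine (div_le_div_of_nonneg_right hx (sq_nonneg _)).trans ?_
    exact div_le_self hR0 (one_le_pow₀ ha1)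
  refine add_le_add le_rfl (hdiv _ ?_)
  exact (add_le_add (add_le_add le_rfl hsum) hlast).trans (le_of_eq hR)

end

end Vale.Agent.P159.H972
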