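import Vale.Agent.P159.H972.Lk2
import Vale.Agent.P159.H801.SFlow
import Vale.Agent.P159.H447.LkT

/-!
P159 / LINKW (helper972): the chain of states `Chn` from the flow with its states `SFlow`
(helper801).
-/

open Filter Topology Finset

namespace Vale.Agent.P159.H972

open Vale.Agent.P159.H801 (SFlow xa FLC)

noncomputable section

/-- scalar part: the sizes of the letters of one level -/
lemma chn_sc {n y ε σ c s s1 : ℝ} (hn : 1 ≤ n) (hy : 0 < y) (hσ0 : 0 < σ) (hσ1 : σ ≤ 1 / 4)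
    (hc : 0 ≤ c) (hc4 : 4 * c ≤ σ) (hs0 : 0 ≤ s) (hs1 : 1 / 2 ≤ s1)
    (hs : s ≤ s1 * (1 - 3 / 2 * σ)) (hlo : y ^ (2 - σ) ≤ ε) (hup : ε ≤ y ^ (2 - 3 * σ))
    (h1 : n ^ (-(2 - s1)) ≤ y) (h2 : y ≤ n ^ (-s1)) :
    ε ≤ n ^ (-(2 * s)) ∧ n ^ (-3 : ℝ) ≤ ε ∧ ε ^ (-c) * y ≤ n ^ (-s) := by
  have hn0 : 0 < n := by linarith
  have hp : 0 < y ^ (2 - σ) := Real.rpow_pos_of_pos hy _
  refine ⟨?_, ?_, ?_⟩
  · calc ε ≤ y ^ (2 - 3 * σ) := hup
      _ ≤ (n ^ (-s1)) ^ (2 - 3 * σ) := Real.rpow_le_rpow hy.le h2 (by linarith)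
      _ = n ^ (-s1 * (2 - 3 * σ)) := (Real.rpow_mul hn0.le _ _).symm
      _ ≤ _ := Real.rpow_le_rpow_of_exponent_le hn (by linarith)
  · calc n ^ (-3 : ℝ) ≤ n ^ (-(2 - s1) * (2 - σ)) :=
          Real.rpow_le_rpow_of_exponent_le hn (by nlinarith)
      _ = (n ^ (-(2 - s1))) ^ (2 - σ) := Real.rpow_mul hn0.le _ _
      _ ≤ y ^ (2 - σ) := Real.rpow_le_rpow (Real.rpow_nonneg hn0.le _) h1 (by linarith)
      _ ≤ ε := hlo
  · have e1 : ε ^ (-c) ≤ (y ^ (2 - σ)) ^ (-c) :=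
      Real.rpow_le_rpow_of_nonpos hp hlo (by linarith)
    have hexp : 0 ≤ 1 - (2 - σ) * c := by nlinarith
    calc ε ^ (-c) * y ≤ (y ^ (2 - σ)) ^ (-c) * y := mul_le_mul_of_nonneg_right e1 hy.le
      _ = y ^ (1 - (2 - σ) * c) := by
          rw [← Real.rpow_mul hy.le]
          nth_rw 2 [← Real.rpow_one y]
          rw [← Real.rpow_add hy]
          congr 1
          ring
      _ ≤ (n ^ (-s1)) ^ (1 - (2 - σ) * c) := Real.rpow_le_rpow hy.le h2 hexp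
      _ = n ^ (-s1 * (1 - (2 - σ) * c)) := (Real.rpow_mul hn0.le _ _).symm
      _ ≤ _ := by
        refine Real.rpow_le_rpow_of_exponent_le hn ?_
        have h3 : (2 - σ) * c ≤ 3 / 2 * σ := by nlinarith
        have h4 : s1 * (1 - 3 / 2 * σ) ≤ s1 * (1 - (2 - σ) * c) :=
          mul_le_mul_of_nonneg_left (by linarith) (by linarith)
        linarith

/-- **the chain of states of LINKW from the flow** -/
theorem chn_of_flow {P : Par} {b σ c c1 q2 qx : ℝ} {a y ε xs : ℕ → ℝ} {c' r q A : ℝ} {N : ℕ}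
    (h : SFlow P b σ c c1 q2 qx a y ε xs c' r q A N) (hb : 0 < b) (hadm : P.Adm) (hσ0 : 0 < σ)
    (hσ1 : σ ≤ 1 / 8) (hc : 0 ≤ c) (hc4 : 4 * c ≤ σ) {s : ℝ} (hs0 : 3 / 4 ≤ s)
    (hs : s < 1 - 3 / 2 * σ) :
    ∃ N1, ∀ N0, N1 ≤ N0 → Chn P b s N0 ε (fun n => ε n ^ (-c) * y n) a := by
  have hd : 0 < 1 - 3 / 2 * σ := by linarith
  obtain ⟨s1, hs1⟩ : ∃ s1 : ℝ, s1 = s / (1 - 3 / 2 * σ) := ⟨_, rfl⟩
  have hs1' : s1 < 1 := by rw [hs1, div_lt_one hd]; exact hs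
  have hs1s : s = s1 * (1 - 3 / 2 * σ) := by rw [hs1, div_mul_cancel₀ _ hd.ne']
  have hs1'' : s ≤ s1 := by
    rw [hs1, le_div_iff₀ hd]
    nlinarith
  have hx : ∀ᶠ n in atTop, |xa a n - xs n| ≤ y n ^ q2 := by
    filter_upwards [eventually_ge_atTop N] with n hn
    rw [abs_sub_comm]
    exact h.near n hn
  have hpow := H447.T3_pow h.t3 h.q21.le hx hs1'
  have ha2 : ∀ᶠ n in atTop, a n < 2 :=
    h.lim.eventually (gt_mem_nhds (by linarith [Real.pi_lt_four]))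
  obtain ⟨N1, hN1⟩ := eventually_atTop.1 (hpow.and (ha2.and (eventually_ge_atTop (max N 4))))
  refine ⟨max N1 4, fun N0 hN0 => ?_⟩
  have hN0' : N1 ≤ N0 := (le_max_left _ _).trans hN0
  have key : ∀ n, N0 ≤ n → N ≤ n ∧ (1 : ℝ) ≤ n := by
    intro n hn
    obtain ⟨-, -, h3⟩ := hN1 n (hN0'.trans hn)
    refine ⟨(le_max_left _ _).trans h3, ?_⟩
    have : 4 ≤ n := (le_max_right _ _).trans h3
    exact_mod_cast (by omega : 1 ≤ n)
  have num : ∀ n, N0 ≤ n → ε n ≤ (n : ℝ) ^ (-(2 * s)) ∧ (n : ℝ) ^ (-3 : ℝ) ≤ ε n ∧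
      ε n ^ (-c) * y n ≤ (n : ℝ) ^ (-s) := by
    intro n hn
    obtain ⟨hNn, hn1⟩ := key n hn
    obtain ⟨⟨h1, h2, -⟩, -, -⟩ := hN1 n (hN0'.trans hn)
    exact chn_sc hn1 (h.fl.y0 n) hσ0 (by linarith) hc hc4 (by linarith) (by linarith) hs1s.le
      (h.lo n hNn) (h.up n hNn) h1 h2
  refine ⟨hb, hadm, hs0, by linarith, (le_max_right _ _).trans hN0, ?_, ?_, ?_, ?_, ?_, ?_, ?_, ?_,
    ?_, ?_⟩
  · exact fun n hn => h.good n (key n hn).1
  · exact fun n hn => h.yb n (key n hn).1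
  · exact fun n hn => h.Y2 hσ0 (by linarith) hc hc4 (key n hn).1
  · exact fun n hn => h.es n (key n hn).1
  · exact fun n hn => (num n hn).1
  · exact fun n hn => (num n hn).2.1
  · exact fun n hn => (num n hn).2.2
  · intro n hn
    obtain ⟨⟨-, -, h3⟩, -, -⟩ := hN1 n (hN0'.trans hn)
    refine h3.trans ?_
    exact Real.rpow_le_rpow_of_exponent_le (key n hn).2 (by linarith)
  · intro n hn
    exact ⟨h.a1 n (key n hn).1, (hN1 n (hN0'.trans hn)).2.1.le⟩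
  · intro n hn r hr
    have hNn := (key n hn).1
    have hε : 0 < ε n := by
      have h5 : 0 < y n ^ (2 - σ) := Real.rpow_pos_of_pos (h.fl.y0 n) _
      exact h5.trans_le (h.lo n hNn)
    exact h.flc n (ε n) hε (h.es n hNn) (h.good n hNn) (ε n) le_rfl (h.es n hNn) r hr

end

end Vale.Agent.P159.H972
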