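import Vale.Agent.P159.H972.Lk7
import Vale.Agent.P159.H972.Linkw0
import Vale.Agent.P159.H692.LkG
import Vale.Agent.P159.H239.FamEv

/-!
P159 / LINKW with a sharp rate (helper972): the inputs of the chain as families, the stiffness of
all large squares, the rate from the flow and the start of the chain.
-/

set_option linter.unusedSectionVars false

namespace Vale.Agent.P159.H972

open Filter Topology
open Vale.Agent.P159.H37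
open Vale.Agent.P159.TM.Spec (V)
open Vale.Agent.P159.H864 (lapM ti_Gm_wt)
open Vale.Agent.P159.H859 (lapz enz smz pf)
open Vale.Agent.P159.H239 (Fam)
open Vale.Agent.P159.H801 (SFlow Ev)
open Vale.Agent.P159.H692 (fv KTv KDv)

noncomputable section

variable {P : Par} {b b1 b2 s : ℝ} {N0 : ℕ} {ε Y a : ℕ → ℝ}

/-- the smoothed pyramid with centre `2 ^ K` -/
def fvK (u K : ℕ) : ℤ × ℤ → ℝ :=
  smz (2 ^ (u - 2 * (2 * Nat.clog 2 u))) (pf (2 ^ K) (2 ^ K) ((2 ^ u : ℕ) : ℤ))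

lemma fvK_shift (u K : ℕ) :
    (fun c => fv u (c + ((4 * 2 ^ u - 2 ^ K : ℤ), (4 * 2 ^ u - 2 ^ K : ℤ)))) = fvK u K := by
  funext c
  unfold fv fvK
  rw [show 2 * (2 * Nat.clog 2 u) = 4 * Nat.clog 2 u by ring]
  exact smz_shift _ _ _ _ _

lemma fvK_fit {u K r : ℕ} (hK : u + 2 ≤ K) (hr : K + 1 ≤ r) : Fit (2 ^ r) (fvK u K) := by
  have h1 : 2 ^ (u - 2 * (2 * Nat.clog 2 u)) ≤ 2 ^ u :=
    Nat.pow_le_pow_right (by norm_num) (by omega)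
  have h2 : 2 ^ (K + 1) ≤ 2 ^ r := Nat.pow_le_pow_right (by norm_num) hr
  have h3 : 2 ^ (u + 2) ≤ 2 ^ K := Nat.pow_le_pow_right (by norm_num) hK
  have h4 : 0 < 2 ^ u := Nat.two_pow_pos u
  have e2 : 2 ^ (K + 1) = 2 * 2 ^ K := by rw [pow_succ]; ring
  have e3 : 2 ^ (u + 2) = 4 * 2 ^ u := by rw [pow_add]; ring
  rw [e2] at h2
  rw [e3] at h3
  have h1' : ((2 ^ (u - 2 * (2 * Nat.clog 2 u)) : ℕ) : ℤ) ≤ ((2 ^ u : ℕ) : ℤ) := by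
    exact_mod_cast h1
  have h2' : 2 * ((2 ^ K : ℕ) : ℤ) ≤ ((2 ^ r : ℕ) : ℤ) := by exact_mod_cast h2
  have h3' : 4 * ((2 ^ u : ℕ) : ℤ) ≤ ((2 ^ K : ℕ) : ℤ) := by exact_mod_cast h3
  have h4' : (0 : ℤ) < ((2 ^ u : ℕ) : ℤ) := by exact_mod_cast h4
  have h5 : (2 : ℤ) ^ K = ((2 ^ K : ℕ) : ℤ) := by push_cast; rfl
  refine fit_smz ?_ ?_ ?_ ?_ <;> rw [h5] <;> omega

/-- **the stiffness of the large squares**, sharp errors -/
theorem rate_at_v (h : Chn P b s N0 ε Y a) {c1 p p3 C1 θ Cx : ℝ} (hc1 : 1 ≤ c1)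
    (hK1 : KP P b c1 N0 ε a) (hK2 : KTv P b p C1 N0 ε) (hK3 : KDv P b p3 N0 ε)
    (hθ : 0 ≤ θ) (hθ2 : θ ≤ 3 / 2) (hθ1 : θ ≤ 2 * s * P.pf) (hθp : θ ≤ p) (hp3 : 0 ≤ p3)
    (hθ3 : θ ≤ 2 * s * p3)
    {J q u : ℕ} (hL : Lg2 P s N0 J (2 * q + 10) u) (hc4 : 4 * Nat.clog 2 u + 1 ≤ u)
    (hJ : (J : ℝ) * P.thp ≤ 2 * ((2 * q + 10 : ℕ) : ℝ) + 8)
    (hC1 : 12 * ((2 * q + 10 : ℕ) : ℝ) + 49 ≤ C1) {C : ℝ} (hC : 1 ≤ C) (hCb : 2 * b ≤ C)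
    (hCx : 0 ≤ Cx) (hX : KXv P b θ Cx ε a u) {Cw : ℝ} (hCw : 0 ≤ Cw) (hq : 4 ≤ q)
    (hW : LW b Cw q) {L : ℕ} (hLL : 2 ^ (u + (3 * q + 25) * Nat.clog 2 u) ≤ L) :
    stiff L b ≤ (a u)⁻¹ + (8 * Rv b c1 C Cx J + Cw) * (u : ℝ) ^ (-θ) := by
  have hu := hL.lrg.u0
  have hb := h.hb
  have hn0 := h.npos hu
  have hu4 : 4 ≤ u := h.n0.trans hu
  obtain ⟨ha1, ha2⟩ := h.a1 u hu
  have hend := chain_end_v h hc1 hK1 hK2 hK3 hθ hθ2 hθ1 hθp hp3 hθ3 hL hJ hC1 hC hCb hCx hX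
  have hlast' := lev_last' h hL
  have hj1 : 1 ≤ Nat.clog 2 u := Nat.clog_pos (by norm_num) (by omega)
  obtain ⟨k, hk⟩ : ∃ k, Nat.clog 2 u = k := ⟨_, rfl⟩
  rw [hk] at hlast' hj1 hLL hc4
  obtain ⟨j, hj⟩ : ∃ j, j = 2 * k := ⟨_, rfl⟩
  obtain ⟨K, hK⟩ : ∃ K, K = u + q * (j + 1) := ⟨_, rfl⟩
  have hKu : u + 4 ≤ K := by
    have : 4 * 1 ≤ q * (j + 1) := Nat.mul_le_mul hq (by omega)
    omega
  have hlast : K + 5 * j ≤ lev P ε u J := by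
    refine le_trans ?_ hlast'
    rw [hK, hj]
    have : (2 * q + 10) * (k + 1) = q * (2 * k + 1) + q + 10 * (k + 1) := by ring
    omega
  have hto := tor_ge h (u := u) (i := J) hu
  have hge1 : lev P ε u J ≤ lev P ε u (J + 1) := Nat.le_add_right _ _
  have hr : K + 5 ≤ tor P ε u J := by omega
  -- the translation
  have hfu : Fit (2 ^ tor P ε u J) (fv u) := fv_fit (by omega)
  have hfK : Fit (2 ^ tor P ε u J) (fvK u K) := fvK_fit (by omega) (by omega)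
  have e1 : qf (Gm (wt (2 ^ tor P ε u J) b (tn (lev P ε u J)))) (em (2 ^ tor P ε u J)
      (lapz (fvK u K))) = qf (Gm (wt (2 ^ tor P ε u J) b (tn (lev P ε u J))))
      (Matrix.mulVec lapM (em (2 ^ tor P ε u J) (fv u))) := by
    rw [lapM_em hfu, ← fvK_shift u K]
    refine qf_lap_shift (ti_Gm_wt _) _ hfu ?_
    rw [fvK_shift]
    exact hfK
  -- the energy
  have e2 : enz (pf (4 * 2 ^ u) (4 * 2 ^ u) ((2 ^ u : ℕ) : ℤ)) =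
      enz (pf (2 ^ K) (2 ^ K) ((2 ^ u : ℕ) : ℤ)) := enz_pf_center _ _ _
  have e3 := enz_ge (2 ^ K) (2 ^ K) (u := u) (by omega)
  have e4 := Dv_le u
  rw [e2] at e4
  obtain ⟨D, hD⟩ : ∃ D, D = enz (pf (2 ^ K) (2 ^ K) ((2 ^ u : ℕ) : ℤ)) := ⟨_, rfl⟩
  rw [← hD] at e3 e4
  obtain ⟨v, hv⟩ : ∃ v : ℝ, v = (u : ℝ) ^ (-θ) := ⟨_, rfl⟩
  have hv0 : 0 < v := by rw [hv]; exact Real.rpow_pos_of_pos hn0 _
  obtain ⟨R, hR⟩ : ∃ R : ℝ, R = Rv b c1 C Cx J := ⟨_, rfl⟩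
  have hR0 : 0 ≤ R := by
    rw [hR]
    unfold Rv
    positivity
  rw [← hv, ← hR] at hend ⊢
  have h4u : (0 : ℝ) < 4 ^ u := by positivity
  have hkk : qf (Gm (wt (2 ^ tor P ε u J) b (tn (lev P ε u J)))) (em (2 ^ tor P ε u J)
      (lapz (fvK u K))) ≤ ((a u)⁻¹ + 8 * R * v) * D := by
    rw [e1]
    refine hend.trans ?_
    have a1 : enz (fv u) / a u ≤ (a u)⁻¹ * D := by
      rw [div_eq_inv_mul]
      exact mul_le_mul_of_nonneg_left e4 (by positivity)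
    have a2 : R * v * 4 ^ u ≤ 8 * R * v * D := by
      have : 0 ≤ R * v := by positivity
      nlinarith
    linarith
  have e5 : ((2 ^ u : ℕ) : ℤ) = 2 ^ u := by push_cast; rfl
  have hfin := hW (2 ^ tor P ε u J) u j K L (by omega) hK
    (by
      calc 2 ^ (K + 1) + 1 ≤ 2 ^ (K + 1) + 2 ^ (K + 1) :=
            Nat.add_le_add_left Nat.one_le_two_pow _
        _ = 2 ^ (K + 2) := by rw [show K + 2 = (K + 1) + 1 by ring, pow_succ 2 (K + 1)]; ring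
        _ ≤ 2 ^ tor P ε u J := Nat.pow_le_pow_right (by norm_num) (by omega))
    (by
      refine le_trans ?_ hLL
      calc 96 * 2 ^ (8 * j) * (2 ^ (K + 1) + 1) ≤ 96 * 2 ^ (8 * j) * (2 ^ (K + 1) + 2 ^ (K + 1)) :=
            Nat.mul_le_mul_left _ (Nat.add_le_add_left Nat.one_le_two_pow _)
        _ = 384 * (2 ^ (8 * j) * 2 ^ K) := by rw [pow_succ 2 K]; ring
        _ ≤ 512 * (2 ^ (8 * j) * 2 ^ K) := Nat.mul_le_mul_right _ (by norm_num)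
        _ = 2 ^ (K + 8 * j + 9) := by rw [pow_add, pow_add]; ring
        _ ≤ 2 ^ (u + (3 * q + 25) * k) := by
          refine Nat.pow_le_pow_right (by norm_num) ?_
          rw [hK, hj]
          have h1 : q * (2 * k + 1) ≤ 3 * q * k := by nlinarith
          nlinarith)
    (tn (lev P ε u J)) (tn_pos _)
    (by
      unfold tn
      rw [inv_mul_le_iff₀ (by positivity), mul_one]
      exact pow_le_pow_right₀ (by norm_num) hlast)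
    ((a u)⁻¹ + 8 * R * v) (by positivity)
    (by
      have := hkk
      rw [hD, e5] at this
      unfold fvK at this
      rw [e5, hk, ← hj] at this
      exact this)
  have e6 : Cw / 2 ^ j ≤ Cw * v := by
    rw [div_eq_mul_inv]
    refine mul_le_mul_of_nonneg_left ?_ hCw
    have h1 := clog_inv2 (u := u) (by omega) (show θ ≤ 2 by linarith)
    rw [hk, ← hv] at h1
    refine le_trans (le_of_eq ?_) h1
    rw [hj, pow_mul]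
    norm_num
  calc stiff L b ≤ (a u)⁻¹ + 8 * R * v + Cw / 2 ^ j := hfin
    _ ≤ (a u)⁻¹ + 8 * R * v + Cw * v := by linarith
    _ = _ := by ring

lemma KXv.mono {θ Cx Cx' : ℝ} {u : ℕ} (h : KXv P b θ Cx ε a u) (hC : Cx ≤ Cx') :
    KXv P b θ Cx' ε a u := by
  have h1 := Real.rpow_nonneg (Nat.cast_nonneg (α := ℝ) u) (-θ)
  refine h.trans (mul_le_mul_of_nonneg_right (mul_le_mul_of_nonneg_right hC h1) ?_)
  positivity

/-- **the rate**, one chain -/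
theorem rate_v {b : ℝ} (hb : 0 < b) : ∃ (C1 : ℝ) (q' : ℕ), 0 ≤ C1 ∧
    ∀ (P : Par) (s : ℝ) (N0 : ℕ) (ε Y a : ℕ → ℝ), Chn P b s N0 ε Y a →
      ∀ c1 p p3 θ Cx θ' : ℝ, 1 ≤ c1 → KP P b c1 N0 ε a → KTv P b p C1 N0 ε → KDv P b p3 N0 ε →
        0 ≤ θ → θ ≤ 3 / 2 → θ ≤ 2 * s * P.pf → θ ≤ p → 0 ≤ p3 → θ ≤ 2 * s * p3 → θ' < θ →
        (∀ᶠ u : ℕ in atTop, KXv P b θ Cx ε a u) →
        ∀ᶠ u : ℕ in atTop, ∀ L : ℕ, 2 ^ (u + q' * Nat.clog 2 u) ≤ L →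
          stiff L b ≤ (a u)⁻¹ + (u : ℝ) ^ (-θ') := by
  obtain ⟨Cw, q, hCw, hq, hW⟩ := ex_LW hb
  refine ⟨12 * ((2 * q + 10 : ℕ) : ℝ) + 49, 3 * q + 25, by positivity, ?_⟩
  intro P s N0 ε Y a h c1 p p3 θ Cx θ' hc1 hK1 hK2 hK3 hθ hθ2 hθ1 hθp hp3 hθ3 hθ' hX
  obtain ⟨J, hJ1, hJ2⟩ := exists_J h.s1 P.thp0 h.adm.thp1 (2 * q + 10)
  obtain ⟨u0, hu0⟩ := ev_Lg2 P h.s1 h.adm.pf0 N0 J (2 * q + 10) hJ1
  have ht : Tendsto (fun u : ℕ => (8 * Rv b c1 (max 1 (2 * b)) (max Cx 0) J + Cw) *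
      (u : ℝ) ^ (-(θ - θ'))) atTop (𝓝 0) := by
    have h1 : Tendsto (fun n : ℕ => (n : ℝ) ^ (-(θ - θ'))) atTop (𝓝 0) :=
      (tendsto_rpow_neg_atTop (by linarith)).comp tendsto_natCast_atTop_atTop
    simpa using h1.const_mul (8 * Rv b c1 (max 1 (2 * b)) (max Cx 0) J + Cw)
  filter_upwards [hX, eventually_ge_atTop u0, eventually_ge_atTop 33,
    ht.eventually (gt_mem_nhds one_pos)] with u k1 k2 k3 k4 L hL
  have hc4 : 4 * Nat.clog 2 u + 1 ≤ u := by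
    have key : ∀ k : ℕ, 5 ≤ k → 4 * k + 8 ≤ 2 ^ k := by
      intro k hk
      induction k, hk using Nat.le_induction with
      | base => norm_num
      | succ k hk ih =>
        rw [pow_succ]
        omega
    have h1 := key ((u - 1) / 4) (by omega)
    have h2 : u ≤ 2 ^ ((u - 1) / 4) := by omega
    have h3 := (Nat.clog_le_iff_le_pow (b := 2) (by norm_num)).2 h2
    omega
  have hfin := rate_at_v h hc1 hK1 hK2 hK3 hθ hθ2 hθ1 hθp hp3 hθ3 (hu0 u k2) hc4 hJ2 le_rfl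
    (le_max_left 1 (2 * b)) (le_max_right 1 (2 * b)) (le_max_right Cx 0)
    (k1.mono (le_max_left Cx 0)) hCw.le hq hW hL
  refine hfin.trans ?_
  have hu0' : (0 : ℝ) < u := by
    have : 0 < u := by omega
    exact_mod_cast this
  have h5 : (u : ℝ) ^ (-θ) = (u : ℝ) ^ (-(θ - θ')) * (u : ℝ) ^ (-θ') := by
    rw [← Real.rpow_add hu0']
    congr 1
    ring
  have h6 : 0 < (u : ℝ) ^ (-θ') := Real.rpow_pos_of_pos hu0' _
  rw [h5, ← mul_assoc]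
  have := mul_le_mul_of_nonneg_right k4.le h6.le
  linarith

/-- **LINKW with a sharp rate, from the flow**: the chain, the profile, and the rate as soon as the
start of the chain is known -/
theorem link_pre {b : ℝ} (hb : 0 < b) : ∃ q' : ℕ, ∀ {b1 b2 pf σ c qx : ℝ}, 0 < b1 → b1 ≤ b →
    5 / 6 ≤ pf → helicity b = 2 / Real.pi → 0 < σ → σ ≤ 1 / 20 → 0 ≤ c → 4 * c ≤ σ → ∀ Q : ℕ,
    Ev b1 b2 pf Q fun P c1 => ∀ (q2 : ℝ) (a y ε xs : ℕ → ℝ) (c' r q A : ℝ) (N : ℕ),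
      SFlow P b σ c c1 q2 qx a y ε xs c' r q A N →
      ∃ (N0 : ℕ) (Y : ℕ → ℝ) (k1 : ℝ), 1 ≤ k1 ∧ P.pf = pf ∧ Chn P b (23 / 25) N0 ε Y a ∧
        KP P b k1 N0 ε a ∧ ((∃ Cx : ℝ, ∀ᶠ u : ℕ in atTop, KXv P b (6 / 5) Cx ε a u) →
          ∀ θ' : ℝ, θ' < 6 / 5 → ∀ᶠ u : ℕ in atTop, ∀ L : ℕ, 2 ^ (u + q' * Nat.clog 2 u) ≤ L →
            stiff L b ≤ (a u)⁻¹ + (u : ℝ) ^ (-θ')) := by
  obtain ⟨C1, q', hC1, hrate⟩ := rate_v hb
  refine ⟨q', ?_⟩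
  intro b1 b2 pf σ c qx hb1 h1 hpf hY hσ0 hσ1 hc hc4 Q
  have hh : 0 < helicity b := by rw [hY]; positivity
  have hhs : 1 / helicity b < 5 / 2 := by
    rw [hY, one_div, inv_div]
    linarith [Real.pi_lt_four]
  obtain ⟨k1, hk1, hin⟩ := H692.lk_inv (b2 := b2) hb1 h1 (show 0 < pf by linarith) hh hhs
  have hfam := ((hin (23 / 25) (6 / 5) C1 (3 / 4) (by norm_num) (by norm_num) (by norm_num) hC1
    (by norm_num)).imp
    (S' := fun P N0 => P.pf = pf ∧ ∀ ε Y a : ℕ → ℝ, Chn P b (23 / 25) N0 ε Y a →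
      KP P b k1 N0 ε a ∧ KTv P b (6 / 5) C1 N0 ε ∧ KDv P b (3 / 4) N0 ε)
    fun P N0 _ _ _ hq h => ⟨hq, h⟩).ev Q
  refine hfam.mono fun P c1 hP hN => ?_
  intro q2 a y ε xs c' r q A N hF
  obtain ⟨N1, hN1⟩ := chn_of_flow hF hb hP hσ0 (by linarith) hc hc4 (s := 23 / 25) (by norm_num)
    (by linarith)
  obtain ⟨N0, hN0, hN2⟩ := (hN.and (eventually_ge_atTop N1)).exists
  have hC := hN1 N0 hN2
  obtain ⟨g1, g2, g3⟩ := hN0.2 _ _ _ hC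
  have hpfP := hN0.1
  refine ⟨N0, _, k1, hk1, hpfP, hC, g1, ?_⟩
  rintro ⟨Cx, hX⟩ θ' hθ'
  exact hrate P (23 / 25) N0 _ _ _ hC k1 (6 / 5) (3 / 4) (6 / 5) Cx θ' hk1 g1 g2 g3 (by norm_num)
    (by norm_num) (by rw [hpfP]; linarith) le_rfl (by norm_num) (by norm_num) hθ' hX

/-- **LINKW with a sharp rate, from the flow and the start of the chain** -/
theorem link_sharp {b : ℝ} (hb : 0 < b) : ∃ q' : ℕ, ∀ {b1 b2 pf σ c qx : ℝ}, 0 < b1 → b1 ≤ b →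
    5 / 6 ≤ pf → helicity b = 2 / Real.pi → 0 < σ → σ ≤ 1 / 20 → 0 ≤ c → 4 * c ≤ σ → ∀ Q : ℕ,
    Ev b1 b2 pf Q fun P c1 => ∀ (q2 : ℝ) (a y ε xs : ℕ → ℝ) (c' r q A : ℝ) (N : ℕ),
      SFlow P b σ c c1 q2 qx a y ε xs c' r q A N →
      (∃ Cx : ℝ, ∀ᶠ u : ℕ in atTop, KXv P b (6 / 5) Cx ε a u) →
      ∀ θ' : ℝ, θ' < 6 / 5 → ∀ᶠ u : ℕ in atTop, ∀ L : ℕ, 2 ^ (u + q' * Nat.clog 2 u) ≤ L →
        stiff L b ≤ (a u)⁻¹ + (u : ℝ) ^ (-θ') := by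
  obtain ⟨q', h⟩ := link_pre hb
  refine ⟨q', ?_⟩
  intro b1 b2 pf σ c qx hb1 h1 hpf hY hσ0 hσ1 hc hc4 Q
  refine (h (b2 := b2) (qx := qx) hb1 h1 hpf hY hσ0 hσ1 hc hc4 Q).mono fun P c1 _ hN => ?_
  intro q2 a y ε xs c' r q A N hF
  obtain ⟨-, -, -, -, -, -, -, g⟩ := hN q2 a y ε xs c' r q A N hF
  exact g

/-- the form of the consumers: the square of side `2 ^ (u + q clog u)` -/
lemma hLu_of {a : ℕ → ℝ} {q' : ℕ} {θ : ℝ}
    (h : ∀ᶠ u : ℕ in atTop, ∀ L : ℕ, 2 ^ (u + q' * Nat.clog 2 u) ≤ L →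
      stiff L b ≤ (a u)⁻¹ + (u : ℝ) ^ (-θ)) :
    ∃ q : ℕ, ∀ᶠ u : ℕ in atTop, stiff (2 ^ (u + q * Nat.clog 2 u)) b ≤ 1 / a u + (u : ℝ) ^ (-θ) := by
  refine ⟨q', ?_⟩
  filter_upwards [h] with u hu
  rw [one_div]
  exact hu _ le_rfl

end

end Vale.Agent.P159.H972
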