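import Vale.Agent.P159.H972.Lk2
import Vale.Agent.P159.H692.Lk4
import Vale.Agent.P159.H340.Lw9
import Vale.Agent.P159.H276.DownT
import Vale.Agent.P159.H276.Eta2

/-!
P159 / LINKW (helper972), assembly: from the chain of states, the profile (K1), the torus step (K2)
and the drop (K3) to the rate of the stiffness of the squares of side `2 ^ i`.
-/

set_option linter.unusedSectionVars false

namespace Vale.Agent.P159.H972

open Finset Matrix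
open Vale.Agent.P159.H37
open Vale.Agent.P159.TM.H764 (EE hatu)
open Vale.Agent.P159.TM.Spec (V)
open Vale.Agent.P159.H864 (TI sym hsq hsq_nonneg lapM ti_lapM sym_lapM qf_eq_sum sum_hsq qf_lapM)
open Vale.Agent.P159.H963 (Gn Pin ti_Gn)
open Vale.Agent.P159.H859 (lapz enz gdz Fsu smz pf smz_ne smz_fsu pf_fsu enz_smz_le enz_diff enz_up
  le_enz enz_trz)
open Vale.Agent.P159.H692 (Xf Xf_eq PrF lk3s eS)

noncomputable section

/-- the smoothed pyramid of the start level `u` -/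
def fu (u : ℕ) : ℤ × ℤ → ℝ :=
  smz (2 ^ (u - 2 * Nat.clog 2 u)) (pf (4 * 2 ^ u) (4 * 2 ^ u) ((2 ^ u : ℕ) : ℤ))

/-- (K1) the profile -/
def KP (P : Par) (b c1 : ℝ) (N0 : ℕ) (ε a : ℕ → ℝ) : Prop :=
  ∀ n, N0 ≤ n → ∀ r, P.TT n (ε n) r → ∀ a0 d, |a n - a0| ≤ d →
    PrF (2 ^ r) b (tn n) a0 (1 / b) c1 (34 * ε n ^ P.pf + d) (34 * ε n ^ P.pf)

/-- (K2) the torus step -/
def KT (P : Par) (b s C1 : ℝ) (N0 : ℕ) (ε : ℕ → ℝ) : Prop :=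
  ∀ m, N0 ≤ m → ∀ r r', P.TT m (ε m) r → P.TT m (ε m) r' →
    ∀ u, u ≤ m → m ≤ 2 * u → (4 : ℝ) ^ (m - u) ≤ (m : ℝ) ^ C1 → ∀ a, 0 ≤ a → a ≤ 2 →
    |Xf (2 ^ r) b (tn m) a (em (2 ^ r) (fu u)) - Xf (2 ^ r') b (tn m) a (em (2 ^ r') (fu u))| ≤
      (m : ℝ) ^ (-s) * 4 ^ u

/-- (K3) the drop -/
def KD (P : Par) (b p3 : ℝ) (N0 : ℕ) (ε : ℕ → ℝ) : Prop :=
  ∀ n, N0 ≤ n → ∀ m, n + P.w (ε n) ≤ m → m ≤ n + 4 * P.w (ε n) → ∀ r, P.TT n (ε n) r →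
    m + P.kE P.es ≤ r → ∀ u, u ≤ n →
    (((2 ^ r : ℕ) : ℝ) ^ 2)⁻¹ * ∑ k ∈ univ.erase (0 : V (2 ^ r)),
      hsq (em (2 ^ r) (fu u)) k * (Pin (2 ^ r) b (tn n) k - Pin (2 ^ r) b (tn m) k) ≤
      ε n ^ p3 * 4 ^ u

/-! ### geometry -/

lemma pf_shift (z z' p : ℤ) (c : ℤ × ℤ) :
    pf z z p (c + (z - z', z - z')) = pf z' z' p c := by
  unfold H859.pf
  congr 2
  ext <;> simp <;> ring

lemma smz_shift (s : ℕ) (z z' p : ℤ) (c : ℤ × ℤ) :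
    smz s (pf z z p) (c + (z - z', z - z')) = smz s (pf z' z' p) c := by
  unfold H859.smz
  congr 1
  refine Finset.sum_congr rfl fun q _ => ?_
  rw [show c + (z - z', z - z') + q = c + q + (z - z', z - z') by abel, pf_shift]

lemma enz_pf_center (z z' p : ℤ) : enz (pf z z p) = enz (pf z' z' p) := by
  rw [← enz_trz (pf z z p) (z - z', z - z')]
  congr 1
  funext c
  exact pf_shift z z' p c

lemma two_pow_cast (u : ℕ) : (((2 ^ u : ℕ) : ℤ)) = 2 ^ u := by push_cast; rfl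

lemma fu_eq (u : ℕ) : fu u = smz (2 ^ (u - 2 * Nat.clog 2 u)) (pf (4 * 2 ^ u) (4 * 2 ^ u)
    ((2 ^ u : ℕ) : ℤ)) := rfl

lemma fu_fit {u r : ℕ} (hr : u + 3 ≤ r) : Fit (2 ^ r) (fu u) := by
  have h1 : 2 ^ (u - 2 * Nat.clog 2 u) ≤ 2 ^ u := Nat.pow_le_pow_right (by norm_num) (by omega)
  have h2 : 2 ^ (u + 3) ≤ 2 ^ r := Nat.pow_le_pow_right (by norm_num) hr
  have h3 : 2 ^ (u + 3) = 8 * 2 ^ u := by rw [pow_add]; ring
  have h4 : 0 < 2 ^ u := Nat.two_pow_pos u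
  have h1' : ((2 ^ (u - 2 * Nat.clog 2 u) : ℕ) : ℤ) ≤ ((2 ^ u : ℕ) : ℤ) := by exact_mod_cast h1
  have h2' : 8 * ((2 ^ u : ℕ) : ℤ) ≤ ((2 ^ r : ℕ) : ℤ) := by
    rw [h3] at h2
    exact_mod_cast h2
  have h4' : (0 : ℤ) < ((2 ^ u : ℕ) : ℤ) := by exact_mod_cast h4
  have h5 : (2 : ℤ) ^ u = ((2 ^ u : ℕ) : ℤ) := by push_cast; rfl
  refine fit_smz ?_ ?_ ?_ ?_ <;> rw [h5] <;> omega

section numbers

variable {u : ℕ}

lemma clog_ge (u : ℕ) : (u : ℝ) ≤ 2 ^ Nat.clog 2 u := by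
  have := Nat.le_pow_clog (b := 2) (by norm_num) u
  exact_mod_cast this

lemma clog_le_logb (hu : 1 ≤ u) : (Nat.clog 2 u : ℝ) ≤ Real.logb 2 u + 1 := by
  rcases Nat.lt_or_ge 1 u with h | h
  · have h1 := Nat.pow_pred_clog_lt_self (b := 2) (by norm_num) h
    have h2 : 1 ≤ Nat.clog 2 u := Nat.clog_pos (by norm_num) h
    have hu0 : (0 : ℝ) < u := by exact_mod_cast (by omega : 0 < u)
    have h3 : (((Nat.clog 2 u).pred : ℕ) : ℝ) ≤ Real.logb 2 u := by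
      rw [Real.le_logb_iff_rpow_le one_lt_two hu0, Real.rpow_natCast]
      exact_mod_cast h1.le
    have h4 : (Nat.clog 2 u : ℝ) = (((Nat.clog 2 u).pred : ℕ) : ℝ) + 1 := by
      have : Nat.clog 2 u = (Nat.clog 2 u).pred + 1 := by
        rw [Nat.pred_eq_sub_one]; omega
      exact_mod_cast this
    linarith
  · have : u = 1 := by omega
    subst this
    simp

end numbers

/-- enz of the pyramid of radius `2 ^ u` is of order `4 ^ u` -/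
lemma enz_ge (x0 y0 : ℤ) {u : ℕ} (hu : 1 ≤ u) :
    (4 : ℝ) ^ u / 8 ≤ enz (pf x0 y0 ((2 ^ u : ℕ) : ℤ)) := by
  have h1 : (1 : ℤ) ≤ ((2 ^ u : ℕ) : ℤ) := by exact_mod_cast Nat.one_le_two_pow
  refine le_trans ?_ (le_enz x0 y0 h1)
  have h2 : (2 : ℝ) ≤ 2 ^ u := by
    calc (2 : ℝ) = 2 ^ 1 := by norm_num
      _ ≤ _ := pow_le_pow_right₀ (by norm_num) hu
  have h3 : (4 : ℝ) ^ u = (2 ^ u) ^ 2 := by rw [← pow_mul, mul_comm, pow_mul]; norm_num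
  rw [h3]
  push_cast
  nlinarith

lemma D_le (u : ℕ) : enz (fu u) ≤ enz (pf (4 * 2 ^ u) (4 * 2 ^ u) ((2 ^ u : ℕ) : ℤ)) :=
  enz_smz_le (pf_fsu _ _ _) Nat.one_le_two_pow

lemma D_le' (u : ℕ) : enz (fu u) ≤ 16 * 4 ^ u := by
  have h := enz_smz_up (4 * 2 ^ u) (4 * 2 ^ u) (p := 2 ^ u)
    (s := 2 ^ (u - 2 * Nat.clog 2 u)) Nat.one_le_two_pow Nat.one_le_two_pow
  refine h.trans (le_of_eq ?_)
  push_cast
  rw [← pow_mul, mul_comm u 2, pow_mul]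
  norm_num

lemma F_le (u : ℕ) : ∑' c, fu u c ^ 2 ≤ 16 * 16 ^ u := by
  have h := sq_smz (4 * 2 ^ u) (4 * 2 ^ u) (p := 2 ^ u) (s := 2 ^ (u - 2 * Nat.clog 2 u))
    Nat.one_le_two_pow Nat.one_le_two_pow (Nat.pow_le_pow_right (by norm_num) (by omega))
  refine h.trans (le_of_eq ?_)
  push_cast
  rw [← pow_mul, mul_comm u 4, pow_mul]
  norm_num

lemma F_nonneg (u : ℕ) : 0 ≤ ∑' c, fu u c ^ 2 := tsum_nonneg fun _ => sq_nonneg _

lemma D_nonneg (u : ℕ) : 0 ≤ enz (fu u) := tsum_nonneg fun c => H859.gdz_nonneg _ c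

/-- `t F <= 16 * 4 ^ u` above the start level -/
lemma tF_le {u n : ℕ} (h : u ≤ n) : tn n * ∑' c, fu u c ^ 2 ≤ 16 * 4 ^ u := by
  have h1 : tn n ≤ ((4 : ℝ) ^ u)⁻¹ := by
    unfold tn
    exact inv_anti₀ (by positivity) (pow_le_pow_right₀ (by norm_num) h)
  calc tn n * ∑' c, fu u c ^ 2 ≤ ((4 : ℝ) ^ u)⁻¹ * (16 * 16 ^ u) :=
        mul_le_mul h1 (F_le u) (F_nonneg u) (by positivity)
    _ = 16 * 4 ^ u := by
        have : (16 : ℝ) ^ u = 4 ^ u * 4 ^ u := by rw [← mul_pow]; norm_num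
        rw [this]
        field_simp

/-! ### the size of the letters -/

section size

variable {P : Par} {b s : ℝ} {N0 : ℕ} {ε Y a : ℕ → ℝ}

/-- `u ^ (-θ)` -/
lemma rp_anti {u n : ℕ} {c d : ℝ} (hu : 1 ≤ u) (hn : u ≤ n) (hcd : d ≤ c) (hd : 0 ≤ d) :
    (n : ℝ) ^ (-c) ≤ (u : ℝ) ^ (-d) := by
  have hu0 : (1 : ℝ) ≤ u := by exact_mod_cast hu
  have hn0 : (u : ℝ) ≤ n := by exact_mod_cast hn
  calc (n : ℝ) ^ (-c) ≤ (n : ℝ) ^ (-d) :=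
        Real.rpow_le_rpow_of_exponent_le (hu0.trans hn0) (by linarith)
    _ ≤ (u : ℝ) ^ (-d) := Real.rpow_le_rpow_of_nonpos (by linarith) hn0 (by linarith)

lemma Chn.ε_pow (h : Chn P b s N0 ε Y a) {n u : ℕ} (hu : N0 ≤ u) (hn : u ≤ n) {q c : ℝ}
    (hq : 0 ≤ q) (hc0 : 0 ≤ c) (hc : c ≤ 2 * s * q) : ε n ^ q ≤ (u : ℝ) ^ (-c) := by
  have hn0 := h.npos (hu.trans hn)
  have h1 := h.e1 n (hu.trans hn)
  have h2 := Real.rpow_le_rpow (h.εpos (hu.trans hn)).le h1 hq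
  rw [← Real.rpow_mul hn0.le] at h2
  refine h2.trans ?_
  rw [show -(2 * s) * q = -(2 * s * q) by ring]
  have := h.n0
  exact rp_anti (by omega) hn hc hc0

/-- the stiffness of two levels -/
lemma Chn.a_sub (h : Chn P b s N0 ε Y a) {n u : ℕ} (hu : N0 ≤ u) (hn : u ≤ n) :
    |a n - a u| ≤ 8 * (u : ℝ) ^ (-s) := by
  have hs := h.s1
  have h1 := h.xa n (hu.trans hn)
  have h2 := h.xa u hu
  obtain ⟨h3, h4⟩ := h.a1 n (hu.trans hn)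
  obtain ⟨h5, h6⟩ := h.a1 u hu
  have h7 : (n : ℝ) ^ (-s) ≤ (u : ℝ) ^ (-s) := by
    have := h.n0
    exact rp_anti (by omega) hn le_rfl (by linarith)
  have h8 : a n - a u = a n * a u * ((a u)⁻¹ - (a n)⁻¹) := by
    have : a n ≠ 0 := by positivity
    have : a u ≠ 0 := by positivity
    field_simp
  have h9 : |(a u)⁻¹ - (a n)⁻¹| ≤ 2 * (u : ℝ) ^ (-s) := by
    have e : (a u)⁻¹ - (a n)⁻¹ = ((a u)⁻¹ - 2 / Real.pi) - ((a n)⁻¹ - 2 / Real.pi) := by ring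
    rw [e]
    refine (abs_sub _ _).trans ?_
    linarith
  rw [h8, abs_mul, abs_of_pos (by positivity)]
  have h10 : a n * a u ≤ 4 := by nlinarith
  calc a n * a u * |(a u)⁻¹ - (a n)⁻¹| ≤ 4 * (2 * (u : ℝ) ^ (-s)) :=
        mul_le_mul h10 h9 (abs_nonneg _) (by norm_num)
    _ = _ := by ring

end size

end

end Vale.Agent.P159.H972
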