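import Vale.Agent.P159.H972.Upz
import Vale.Agent.P159.H239.PUpI
import Vale.Agent.P159.H889.Vpd

/-!
P159 / V (helper972), UP: the family form (the start `StartP` comes from P_up).
-/

set_option linter.unusedSectionVars false

namespace Vale.Agent.P159.H972.Up

open Filter Topology
open Vale.Agent.P159.H972 (Par Good StartP)
open Vale.Agent.P159.H889 (VSs EvC)
open Vale.Agent.P159.H801 (FLC Ev)

noncomputable section

/-- **UP**, family form -/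
theorem up_fam {b b1 b2 K : ℝ} {Q : ℕ} (hb1 : 0 < b1) (h1 : b1 ≤ b) (h2 : b ≤ b2)
    (hel : helicity b = 2 / Real.pi) (A1 : ℝ) :
    EvC b1 b2 (9 / 10) Q K fun P c1 C1 => ∀ a : ℕ → ℝ, FLC P b a →
      Tendsto a atTop (𝓝 (Real.pi / 2)) → ∃ u : ℕ → ℝ, Tendsto u atTop (𝓝 0) ∧
        ∀ m e z, 0 < e → e ≤ P.es → Good P b m e →
          (∃ s ζ, VSs P b C1 A1 (1 / (8 * C1)) m e z s ζ) → z ^ (39 / 20 : ℝ) ≤ e →
          Real.log (1 / z) ≤ e ^ (-(2 * c1)) → z ≤ u m := by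
  have e1 := uS_ev (K := K) (Q := Q) (pf := 9 / 10) hb1 h1 h2 hel (by norm_num) (by norm_num)
  have e2 := H239.ev_PIn_std hb1 hel h1 h2 Q
  refine Ev.mono (Ev.and e1 e2) ?_
  rintro P c1 hA ⟨⟨-, -, h3⟩, h4⟩ C1 x1 x2 x3 a hF ha
  have hst : StartP P b := by
    obtain ⟨N0, hN0⟩ := h4.exists
    exact hN0.start
  refine ⟨uS P b C1 A1 (1 / (8 * C1)) (2 * c1), h3 C1 x1 x2 x3 A1 _ a hF ha hst, ?_⟩
  rintro m e z k1 k2 k3 ⟨s, ζ, k4⟩ k5 k6
  exact le_uS ⟨e, s, ζ, k1, k2, k3, k4, k5, k6⟩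

end

end Vale.Agent.P159.H972.Up
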