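import Vale.Agent.P159.H692.Lk2
import Vale.Agent.P159.H859.Smo3
import Vale.Agent.P159.H358.Loc8e

/-!
P159 / LINKW (C), letters (helper972): a function of finite support on the square lattice put on the
torus `V N` (`em`), its norms, its Laplacian, translations.
-/

set_option linter.unusedSectionVars false

namespace Vale.Agent.P159.H972

open Finset Matrix
open Vale.Agent.P159.H37
open Vale.Agent.P159.TM.H764 (EE hatu ch dt)
open Vale.Agent.P159.TM.Spec (V)
open Vale.Agent.P159.H864 (TI sym hsq hsq_nonneg lapM ti_lapM sym_lapM qf_eq_sum sum_hsq qf_lapM)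
open Vale.Agent.P159.H963 (Gn Pin ti_Gn)
open Vale.Agent.P159.H856 (nl hsq_nl tu Van hatu_shift hatu_nl)
open Vale.Agent.P159.H859 (lapz enz Fsu)
open Vale.Agent.P159.H692 (Xf Xf_eq)

noncomputable section

/-- the function on the torus -/
def em (N : ℕ) (f : ℤ × ℤ → ℝ) (x : V N) : ℝ := f ((x.1.val : ℤ), (x.2.val : ℤ))

/-- the support is strictly inside the fundamental domain of the torus -/
def Fit (N : ℕ) (f : ℤ × ℤ → ℝ) : Prop :=
  ∀ c : ℤ × ℤ, f c ≠ 0 → 0 < c.1 ∧ c.1 + 1 < N ∧ 0 < c.2 ∧ c.2 + 1 < N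

lemma em_succ (N : ℕ) (f : ℤ × ℤ → ℝ) : em (N + 1) f = tu N f := rfl

lemma Fit.van {N : ℕ} {f : ℤ × ℤ → ℝ} (h : Fit (N + 1) f) : Van N f := by
  intro c hc
  by_contra h0
  have h1 := h c h0
  push_cast at h1
  exact hc (by omega)

lemma Fit.fsu {N : ℕ} {f : ℤ × ℤ → ℝ} (h : Fit N f) : Fsu f := by
  refine (Finset.finite_toSet ((Finset.Ioo 0 (N : ℤ)) ×ˢ (Finset.Ioo 0 (N : ℤ)))).subset
    fun c hc => ?_
  have h1 := h c hc
  simp only [Finset.coe_product, Finset.coe_Ioo, Set.mem_prod, Set.mem_Ioo]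
  omega

variable {N : ℕ} [NeZero N] {f g : ℤ × ℤ → ℝ}

lemma nl_em (h : Fit N f) : nl (em N f) = em N (lapz f) := by
  obtain ⟨M, rfl⟩ : ∃ M, N = M + 1 := ⟨N - 1, by have := NeZero.pos N; omega⟩
  funext x
  exact H859.nl_tu h.van x

lemma hatu_inj {u v : V N → ℝ} (h : ∀ k, hatu u k = hatu v k) : u = v := by
  have h1 : ∑ x, (u - v) x ^ 2 = 0 := by
    rw [← sum_hsq]
    have h2 : ∀ k, hsq (u - v) k = 0 := by
      intro k
      have h3 : hatu (u - v) k = hatu u k - hatu v k := by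
        unfold TM.H764.hatu
        rw [← Finset.sum_sub_distrib]
        refine Finset.sum_congr rfl fun x _ => ?_
        rw [Pi.sub_apply]
        push_cast
        ring
      unfold hsq
      rw [h3, h k, sub_self, map_zero]
    simp [h2]
  funext x
  have h2 := (Finset.sum_eq_zero_iff_of_nonneg (fun x _ => sq_nonneg ((u - v) x))).1 h1 x
    (Finset.mem_univ x)
  have h3 : (u - v) x = 0 := by simpa using h2
  rw [Pi.sub_apply] at h3
  linarith

/-- the two forms of the lattice Laplacian -/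
lemma lapM_eq_nl (u : V N → ℝ) : lapM *ᵥ u = nl u := by
  refine hatu_inj fun k => ?_
  rw [H462.hatu_mulVec ti_lapM, hatu_nl, sym_lapM]

lemma lapM_em (h : Fit N f) : lapM *ᵥ em N f = em N (lapz f) := by
  rw [lapM_eq_nl, nl_em h]

lemma qf_em (h : Fit N f) : qf lapM (em N f) = enz f := by
  obtain ⟨M, rfl⟩ : ∃ M, N = M + 1 := ⟨N - 1, by have := NeZero.pos N; omega⟩
  rw [qf_lapM]
  exact H859.grd_tu h.van

/-- sums over the torus -/
lemma sum_em (F : ℤ × ℤ → ℝ) (hF : ∀ c : ℤ × ℤ, F c ≠ 0 → 0 ≤ c.1 ∧ c.1 < N ∧ 0 ≤ c.2 ∧ c.2 < N) :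
    ∑ x : V N, F ((x.1.val : ℤ), (x.2.val : ℤ)) = ∑' c, F c := by
  classical
  have h1 : ∑' c, F c = ∑ c ∈ (Finset.Ico 0 (N : ℤ)) ×ˢ (Finset.Ico 0 (N : ℤ)), F c := by
    refine tsum_eq_sum fun c hc => ?_
    by_contra h0
    have h2 := hF c h0
    exact hc (Finset.mem_product.2 ⟨Finset.mem_Ico.2 ⟨h2.1, h2.2.1⟩,
      Finset.mem_Ico.2 ⟨h2.2.2.1, h2.2.2.2⟩⟩)
  rw [h1]
  refine Finset.sum_bij (fun x _ => ((x.1.val : ℤ), (x.2.val : ℤ))) ?_ ?_ ?_ (fun _ _ => rfl)
  · intro x _
    have h2 := ZMod.val_lt x.1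
    have h3 := ZMod.val_lt x.2
    simp only [Finset.mem_product, Finset.mem_Ico]
    omega
  · intro x _ y _ hxy
    simp only [Prod.mk.injEq, Nat.cast_inj] at hxy
    exact Prod.ext (ZMod.val_injective N hxy.1) (ZMod.val_injective N hxy.2)
  · intro c hc
    simp only [Finset.mem_product, Finset.mem_Ico] at hc
    refine ⟨((c.1.toNat : ZMod N), (c.2.toNat : ZMod N)), Finset.mem_univ _, ?_⟩
    have e1 : ((c.1.toNat : ZMod N)).val = c.1.toNat := ZMod.val_cast_of_lt (by omega)
    have e2 : ((c.2.toNat : ZMod N)).val = c.2.toNat := ZMod.val_cast_of_lt (by omega)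
    simp only [e1, e2]
    exact Prod.ext (by simp; omega) (by simp; omega)

lemma sum_em_sq (h : Fit N f) : ∑ x, em N f x ^ 2 = ∑' c, f c ^ 2 := by
  refine sum_em (fun c => f c ^ 2) fun c hc => ?_
  have h1 := h c fun h0 => hc (by simp [h0])
  omega

/-- the support of the Laplacian -/
lemma lapz_fit (h : Fit N f) {c : ℤ × ℤ} (hc : lapz f c ≠ 0) :
    0 ≤ c.1 ∧ c.1 < N ∧ 0 ≤ c.2 ∧ c.2 < N := by
  by_contra h0
  refine hc ?_
  have h1 : ∀ a : ℤ × ℤ, |a.1| + |a.2| ≤ 1 → f (c + a) = 0 := by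
    intro a ha
    by_contra h2
    have h3 := h _ h2
    simp only [Prod.fst_add, Prod.snd_add] at h3
    rcases abs_cases a.1 with ⟨h, _⟩ | ⟨h, _⟩ <;>
      rcases abs_cases a.2 with ⟨h', _⟩ | ⟨h', _⟩ <;> rw [h, h'] at ha <;> omega
  have h2 := h1 0 (by simp)
  rw [add_zero] at h2
  unfold H859.lapz
  rw [sub_eq_add_neg c, sub_eq_add_neg c, h2, h1 _ (by simp), h1 _ (by simp), h1 _ (by simp),
    h1 _ (by simp)]
  ring

lemma sum_em_lap (h : Fit N f) : ∑ x, (lapM *ᵥ em N f) x ^ 2 = ∑' c, lapz f c ^ 2 := by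
  rw [lapM_em h]
  refine sum_em (fun c => lapz f c ^ 2) fun c hc => ?_
  exact lapz_fit h fun h0 => hc (by simp [h0])

lemma em_add (f g : ℤ × ℤ → ℝ) : em N (fun c => f c + g c) = em N f + em N g := rfl

lemma em_smul (a : ℝ) (f : ℤ × ℤ → ℝ) : em N (fun c => a * f c) = a • em N f := rfl

/-- the window letters of helper358 -/
lemma em_src {n : ℕ} (hf : ∀ c : ℤ × ℤ, f c ≠ 0 → 0 < c.1 ∧ c.1 < n ∧ 0 < c.2 ∧ c.2 < n) :
    H358.src N n (fun i k => f ((i : ℤ), (k : ℤ))) = em N f := by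
  funext x
  unfold H358.src em
  split_ifs with h
  · rfl
  · by_contra h0
    have h1 := hf _ fun h2 => h0 h2.symm
    simp only [Nat.cast_pos, Nat.cast_lt] at h1
    exact h ⟨h1.1, h1.2.1, h1.2.2.1, h1.2.2.2⟩

/-! ### translations -/

lemma hsq_shift (u : V N → ℝ) (e k : V N) : hsq (fun x => u (x + e)) k = hsq u k := by
  unfold hsq
  rw [hatu_shift, Complex.normSq_mul]
  have h1 : Complex.normSq (ch (-(dt k e))) = 1 := by
    have h2 := TM.H764.ch_add (-(dt k e)) (-(-(dt k e)))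
    rw [add_neg_cancel, ← TM.H764.ch_conj (-(dt k e)), Complex.mul_conj, TM.H764.ch_zero] at h2
    exact_mod_cast h2.symm
  rw [h1, one_mul]

lemma cast_val (a : ZMod N) : ((a.val : ℤ) : ZMod N) = a := by simp

/-- the shifted function on the torus -/
lemma em_shift (q : ℤ × ℤ) (h : Fit N f) (h' : Fit N fun c => f (c + q)) :
    em N (fun c => f (c + q)) = fun x => em N f (x + ((q.1 : ZMod N), (q.2 : ZMod N))) := by
  have key : ∀ (a : ZMod N) (t : ℤ), ((a + (t : ZMod N)).val : ℤ) = ((a.val : ℤ) + t) % N := by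
    intro a t
    rw [← ZMod.val_intCast (n := N) ((a.val : ℤ) + t)]
    push_cast
    rw [ZMod.natCast_zmod_val]
  funext x
  unfold em
  simp only [Prod.fst_add, Prod.snd_add]
  rw [key, key]
  set u : ℤ := (x.1.val : ℤ) with hu
  set v : ℤ := (x.2.val : ℤ) with hv
  have hN : (0 : ℤ) < N := by exact_mod_cast NeZero.pos N
  have u0 : 0 ≤ u := Int.natCast_nonneg _
  have u1 : u < N := by rw [hu]; exact_mod_cast ZMod.val_lt x.1
  have v0 : 0 ≤ v := Int.natCast_nonneg _
  have v1 : v < N := by rw [hv]; exact_mod_cast ZMod.val_lt x.2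
  have e1 := Int.emod_add_mul_ediv (u + q.1) N
  have e2 := Int.emod_add_mul_ediv (v + q.2) N
  have r1 := Int.emod_nonneg (u + q.1) hN.ne'
  have r2 := Int.emod_lt_of_pos (u + q.1) hN
  have r3 := Int.emod_nonneg (v + q.2) hN.ne'
  have r4 := Int.emod_lt_of_pos (v + q.2) hN
  set a : ℤ := (u + q.1) % N with ha
  set c : ℤ := (v + q.2) % N with hc
  set s : ℤ := (u + q.1) / N with hs
  set w : ℤ := (v + q.2) / N with hw
  show f ((u, v) + q) = f (a, c)
  have e0 : ((u, v) + q : ℤ × ℤ) = (u + q.1, v + q.2) := rfl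
  rw [e0]
  by_cases hsw : s = 0 ∧ w = 0
  · rw [hsw.1, mul_zero, add_zero] at e1
    rw [hsw.2, mul_zero, add_zero] at e2
    rw [e1, e2]
  · have z1 : f (u + q.1, v + q.2) = 0 := by
      by_contra h0
      have h1 := h _ h0
      simp only at h1
      apply hsw
      rw [← e1, ← e2] at h1
      have n1 : (-1 : ℤ) < s := by
        by_contra hcon
        have : (N : ℤ) * s ≤ N * (-1) := mul_le_mul_of_nonneg_left (by omega) hN.le
        omega
      have n2 : s < 1 := by
        by_contra hcon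
        have : (N : ℤ) * 1 ≤ N * s := mul_le_mul_of_nonneg_left (by omega) hN.le
        omega
      have n3 : (-1 : ℤ) < w := by
        by_contra hcon
        have : (N : ℤ) * w ≤ N * (-1) := mul_le_mul_of_nonneg_left (by omega) hN.le
        omega
      have n4 : w < 1 := by
        by_contra hcon
        have : (N : ℤ) * 1 ≤ N * w := mul_le_mul_of_nonneg_left (by omega) hN.le
        omega
      omega
    have z2 : f (a, c) = 0 := by
      by_contra h0
      have e3 : ((a - q.1, c - q.2) + q : ℤ × ℤ) = (a, c) := by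
        ext <;> simp
      have h1 := h' (a - q.1, c - q.2) (by show f _ ≠ 0; rw [e3]; exact h0)
      simp only at h1
      apply hsw
      have n1 : (-1 : ℤ) < s := by
        by_contra hcon
        have : (N : ℤ) * s ≤ N * (-1) := mul_le_mul_of_nonneg_left (by omega) hN.le
        omega
      have n2 : s < 1 := by
        by_contra hcon
        have : (N : ℤ) * 1 ≤ N * s := mul_le_mul_of_nonneg_left (by omega) hN.le
        omega
      have n3 : (-1 : ℤ) < w := by
        by_contra hcon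
        have : (N : ℤ) * w ≤ N * (-1) := mul_le_mul_of_nonneg_left (by omega) hN.le
        omega
      have n4 : w < 1 := by
        by_contra hcon
        have : (N : ℤ) * 1 ≤ N * w := mul_le_mul_of_nonneg_left (by omega) hN.le
        omega
      omega
    rw [z1, z2]

/-- translation of the function, all symbols -/
lemma hsq_em_shift (q : ℤ × ℤ) (h : Fit N f) (h' : Fit N fun c => f (c + q)) (k : V N) :
    hsq (em N fun c => f (c + q)) k = hsq (em N f) k := by
  rw [em_shift q h h', hsq_shift]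

/-- translation invariance of the local form -/
lemma Xf_shift {b t a : ℝ} (hb : 0 < b) (ht : 0 < t) (q : ℤ × ℤ) (h : Fit N f)
    (h' : Fit N fun c => f (c + q)) :
    Xf N b t a (em N fun c => f (c + q)) = Xf N b t a (em N f) := by
  rw [Xf_eq hb ht, Xf_eq hb ht]
  simp_rw [hsq_em_shift q h h']

/-- translation invariance of forms with source `lapz f` -/
lemma qf_lap_shift {A : Matrix (V N) (V N) ℝ} (hA : TI A) (q : ℤ × ℤ) (h : Fit N f)
    (h' : Fit N fun c => f (c + q)) :
    qf A (em N (lapz fun c => f (c + q))) = qf A (em N (lapz f)) := by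
  rw [← nl_em h', ← nl_em h, qf_eq_sum hA, qf_eq_sum hA]
  simp_rw [hsq_nl, hsq_em_shift q h h']

lemma lapz_shift (q : ℤ × ℤ) (f : ℤ × ℤ → ℝ) :
    (lapz fun c => f (c + q)) = fun c => lapz f (c + q) := by
  funext c
  unfold H859.lapz
  have e1 : ∀ d : ℤ × ℤ, c + d + q = c + q + d := fun d => by abel
  have e2 : ∀ d : ℤ × ℤ, c - d + q = c + q - d := fun d => by abel
  simp only [e1, e2]

end

end Vale.Agent.P159.H972
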