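import Vale.Agent.P159.H972.Good
import Vale.Agent.P159.H462.In3Sum

/-!
P159 / LIST P_up (helper972): the stiffness number. `FL` determines `a`; one function
`a : Nat -> R` serves all states `Good n eps` at level `n`; comparison of two levels.
-/

set_option linter.unusedSectionVars false

namespace Vale.Agent.P159.H972

open Finset Matrix
open Vale.Agent.P159.TM.H764 (EE cN cN_int cN_zero)
open Vale.Agent.P159.TM.Spec (V)
open Vale.Agent.P159.H963 (Pin)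
open Vale.Agent.P159.H462 (EE_gap EE_pos)

noncomputable section

section torus

variable {N : ℕ} [NeZero N] {b t a η : ℝ}

/-- the lowest momentum -/
lemma exists_low (hN : 2 ≤ N) : ∃ k : V N, k ≠ 0 ∧ EE k ≤ 40 / (N : ℝ) ^ 2 := by
  have : Fact (1 < N) := ⟨hN⟩
  have hN0 : (0 : ℝ) < N := by
    have : 0 < N := by omega
    exact_mod_cast this
  refine ⟨((1 : ZMod N), 0), fun h => one_ne_zero (congrArg Prod.fst h), ?_⟩
  have h1 : cN (1 : ZMod N) = Real.cos (2 * Real.pi / N) := by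
    have := cN_int (N := N) 1
    simpa using this
  unfold EE
  rw [h1, cN_zero]
  have h2 := Real.one_sub_sq_div_two_le_cos (x := 2 * Real.pi / N)
  have h3 : (2 * Real.pi / N) ^ 2 ≤ 40 / (N : ℝ) ^ 2 := by
    rw [div_pow]
    apply div_le_div_of_nonneg_right _ (by positivity)
    have := Real.pi_lt_d2
    have := Real.pi_pos
    nlinarith
  linarith

lemma FL.mono {a₁ η₁ : ℝ} (ht : 0 < t) (h : FL b t a η N) (ha : |a - a₁| + η ≤ η₁) :
    FL b t a₁ η₁ N := by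
  obtain ⟨z, a', h1, h2, h3, h4⟩ := h
  have h5 : η ≤ η₁ := by linarith [abs_nonneg (a - a₁)]
  refine ⟨z, a', h1, h2.trans h5, ?_, fun k hk => (h4 k hk).trans ?_⟩
  · have : a' - a₁ = (a' - a) + (a - a₁) := by ring
    rw [this]
    exact (abs_add_le _ _).trans (by linarith)
  · gcongr

/-- the form with weight `1 + EE / t` -/
theorem FL.flat (ht : 0 < t) (h : FL b t a η N) {k : V N} (hk : k ≠ 0) :
    |Pin N b t k - a * EE k| ≤ 2 * η * (1 + EE k / t) * EE k := by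
  obtain ⟨z, a', h1, h2, h3, h4⟩ := h
  have hN0 : (0 : ℝ) < N := H462.N_pos'
  have hE := EE_pos hk
  have hη : 0 ≤ η := (abs_nonneg _).trans h3
  have h5 : z ≤ η * EE k := by
    have h6 := EE_gap hk
    have h7 : z ≤ η / (N : ℝ) ^ 2 := by
      rw [le_div_iff₀ (by positivity)]
      exact h2
    have h8 : 1 / (N : ℝ) ^ 2 ≤ EE k := by
      refine le_trans ?_ h6
      gcongr
      norm_num
    calc z ≤ η / (N : ℝ) ^ 2 := h7
      _ = η * (1 / (N : ℝ) ^ 2) := by ring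
      _ ≤ _ := by gcongr
  have h9 : Pin N b t k - a * EE k =
      (Pin N b t k - z - a' * EE k) + (z + (a' - a) * EE k) := by ring
  rw [h9]
  refine (abs_add_le _ _).trans ?_
  have h10 : |z + (a' - a) * EE k| ≤ η * EE k + η * EE k := by
    refine (abs_add_le _ _).trans ?_
    rw [abs_of_nonneg h1, abs_mul, abs_of_pos hE]
    gcongr
  have h11 := h4 k hk
  have h12 : 2 * η * (1 + EE k / t) * EE k = 2 * (η * EE k) + 2 * (η * EE k ^ 2 / t) := by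
    field_simp
  have h13 : 0 ≤ η * EE k ^ 2 / t := by positivity
  rw [h12]
  linarith

/-- two profiles at two masses on the same torus, compared at one low momentum -/
theorem FL.cmp {t₁ t₂ a₁ a₂ η₁ η₂ δ : ℝ} (ht₁ : 0 < t₁) (ht₂ : 0 < t₂)
    (h1 : FL b t₁ a₁ η₁ N) (h2 : FL b t₂ a₂ η₂ N) {k : V N} (hk : k ≠ 0)
    (hE₁ : EE k ≤ t₁) (hE₂ : EE k ≤ t₂)
    (hd : |Pin N b t₁ k - Pin N b t₂ k| ≤ δ * EE k) : |a₁ - a₂| ≤ 4 * η₁ + 4 * η₂ + δ := by
  have h3 := h1.flat ht₁ hk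
  have h4 := h2.flat ht₂ hk
  have hE := EE_pos hk
  have hη₁ : 0 ≤ η₁ := by
    obtain ⟨z, a', -, -, h, -⟩ := h1
    exact (abs_nonneg _).trans h
  have hη₂ : 0 ≤ η₂ := by
    obtain ⟨z, a', -, -, h, -⟩ := h2
    exact (abs_nonneg _).trans h
  have h5 : 2 * η₁ * (1 + EE k / t₁) * EE k ≤ 4 * η₁ * EE k := by
    have h6 : EE k / t₁ ≤ 1 := by rwa [div_le_one ht₁]
    have h7 : 0 ≤ η₁ * EE k := by positivity
    nlinarith
  have h6 : 2 * η₂ * (1 + EE k / t₂) * EE k ≤ 4 * η₂ * EE k := by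
    have h6 : EE k / t₂ ≤ 1 := by rwa [div_le_one ht₂]
    have h7 : 0 ≤ η₂ * EE k := by positivity
    nlinarith
  have h7 : (a₁ - a₂) * EE k = (Pin N b t₁ k - Pin N b t₂ k) - (Pin N b t₁ k - a₁ * EE k) +
      (Pin N b t₂ k - a₂ * EE k) := by ring
  have h8 : |(a₁ - a₂) * EE k| ≤ (4 * η₁ + 4 * η₂ + δ) * EE k := by
    rw [h7]
    refine (abs_add_le _ _).trans ?_
    have h9 := abs_sub (Pin N b t₁ k - Pin N b t₂ k) (Pin N b t₁ k - a₁ * EE k)
    linarith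
  rw [abs_mul, abs_of_pos hE] at h8
  exact le_of_mul_le_mul_right h8 hE

/-- `FL` determines the stiffness -/
theorem FL.det {a₁ a₂ η₁ η₂ : ℝ} (ht : 40 ≤ t * (N : ℝ) ^ 2) (hN : 2 ≤ N)
    (h1 : FL b t a₁ η₁ N) (h2 : FL b t a₂ η₂ N) : |a₁ - a₂| ≤ 4 * η₁ + 4 * η₂ := by
  have hN0 : (0 : ℝ) < N := H462.N_pos'
  obtain ⟨k, hk, hE⟩ := exists_low (N := N) hN
  have hE' : EE k ≤ t := hE.trans (by rw [div_le_iff₀ (by positivity)]; exact ht)
  have ht0 : 0 < t := (EE_pos hk).trans_le hE'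
  have := h1.cmp ht0 ht0 h2 hk hE' hE' (δ := 0) (by simp)
  linarith

end torus

variable {P : Par} {b : ℝ}

lemma tn_pos (n : ℕ) : 0 < tn n := by unfold tn; positivity

lemma tn_mul (n r : ℕ) : tn n * (((2 ^ (n + r) : ℕ) : ℝ)) ^ 2 = 4 ^ r := by
  unfold tn
  push_cast
  rw [pow_add, mul_pow, ← pow_mul, ← pow_mul, mul_comm n 2, mul_comm r 2, pow_mul, pow_mul]
  norm_num

lemma TT_base (P : Par) (n : ℕ) (e : ℝ) : P.TT n e (n + P.kE e) :=
  ⟨le_rfl, Nat.le_add_right _ _⟩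

lemma forty (hk : 3 ≤ P.kE P.es) {e : ℝ} (he : 0 < e) (h : e ≤ P.es) {n r : ℕ}
    (hr : n + P.kE e ≤ r) : 40 ≤ tn n * (((2 ^ r : ℕ) : ℝ)) ^ 2 := by
  obtain ⟨j, rfl⟩ := Nat.exists_eq_add_of_le hr
  have h1 : 3 ≤ P.kE e := hk.trans (lg_anti P.th0.le he h)
  rw [add_assoc, tn_mul]
  calc (40 : ℝ) ≤ 4 ^ 3 := by norm_num
    _ ≤ 4 ^ (P.kE e + j) := pow_le_pow_right₀ (by norm_num) (by omega)

/-- two states at the same level have the same stiffness up to `8 e ^ pf` -/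
lemma GP.det {n : ℕ} {e τ₁ τ₂ a₁ a₂ : ℝ} (hk : 3 ≤ P.kE P.es) (he : 0 < e) (he1 : e ≤ P.es)
    (h1 : GP P b a₁ n e τ₁) (h2 : GP P b a₂ n e τ₂) : |a₁ - a₂| ≤ 8 * e ^ P.pf := by
  have hr := TT_base P n e
  have h3 := (h1.flat _ hr).1.det (forty hk he he1 le_rfl) ?_ (h2.flat _ hr).1
  · linarith
  · have h4 : 3 ≤ P.kE e := hk.trans (lg_anti P.th0.le he he1)
    calc 2 = 2 ^ 1 := by norm_num
      _ ≤ 2 ^ (n + P.kE e) := Nat.pow_le_pow_right (by norm_num) (by omega)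

/-- **one stiffness function for all states** -/
theorem exists_stiff (P : Par) (b : ℝ) (hk : 3 ≤ P.kE P.es) (hpf : 0 ≤ P.pf) (hpf1 : P.pf ≤ 1)
    (d : ℕ → ℝ) (hd : ∀ n, 0 < d n) :
    ∃ a : ℕ → ℝ, ∀ n ε, d n ≤ ε → ε ≤ P.es → Good P b n ε → ∀ e, ε ≤ e → e ≤ P.es →
      ∀ r, P.TT n e r → FL b (tn n) (a n) (17 * e ^ P.pf) (2 ^ r) := by
  have key : ∀ n, ∃ a : ℝ, ∀ ε, d n ≤ ε → ε ≤ P.es → Good P b n ε → ∀ e, ε ≤ e → e ≤ P.es →
      ∀ r, P.TT n e r → FL b (tn n) a (17 * e ^ P.pf) (2 ^ r) := by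
    intro n
    set E : Set ℝ := {ε | d n ≤ ε ∧ ε ≤ P.es ∧ Good P b n ε} with hE
    by_cases hne : E.Nonempty
    swap
    · refine ⟨0, fun ε h1 h2 h3 => ?_⟩
      exact absurd ⟨ε, h1, h2, h3⟩ hne
    have hbd : BddBelow E := ⟨d n, fun ε h => h.1⟩
    have hi : d n ≤ sInf E := le_csInf hne fun ε h => h.1
    have hi0 : 0 < sInf E := (hd n).trans_le hi
    obtain ⟨s, hs, hs2⟩ : ∃ s ∈ E, s < 2 * sInf E := exists_lt_of_csInf_lt hne (by linarith)
    obtain ⟨h1, h2, τ, a, hτ1, hτ2, hG⟩ := hs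
    have hs0 : 0 < s := (hd n).trans_le h1
    refine ⟨a, fun ε hε1 hε2 hε3 e he he1 r hr => ?_⟩
    have hε0 : 0 < ε := (hd n).trans_le hε1
    have he0 : 0 < e := hε0.trans_le he
    by_cases hse : s ≤ e
    · refine ((hG e hse he1).flat r hr).1.mono (tn_pos n) ?_
      rw [sub_self, abs_zero, zero_add]
      have : 0 ≤ e ^ P.pf := Real.rpow_nonneg he0.le _
      linarith
    · push Not at hse
      obtain ⟨τ', a', hτ1', hτ2', hG'⟩ := hε3
      have h5 := GP.det hk hs0 h2 (hG' s (he.trans hse.le) h2) (hG s le_rfl h2)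
      have h6 : s ≤ 2 * e := by
        have := csInf_le hbd (show ε ∈ E from ⟨hε1, hε2, ⟨τ', a', hτ1', hτ2', hG'⟩⟩)
        linarith
      have h7 : s ^ P.pf ≤ 2 * e ^ P.pf := by
        calc s ^ P.pf ≤ (2 * e) ^ P.pf := Real.rpow_le_rpow hs0.le h6 hpf
          _ = 2 ^ P.pf * e ^ P.pf := Real.mul_rpow (by norm_num) he0.le
          _ ≤ 2 ^ (1 : ℝ) * e ^ P.pf := by
              gcongr
              norm_num
          _ = _ := by rw [Real.rpow_one]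
      refine ((hG' e he he1).flat r hr).1.mono (tn_pos n) ?_
      linarith
  choose a ha using key
  exact ⟨a, fun n ε => ha n ε⟩

/-- **comparison of two levels**: from the profiles at `(n, e)` and `(m, e')` on one common torus
and a bound on the drop at one low momentum -/
theorem stiff_step {n m r : ℕ} {a₁ a₂ η₁ η₂ δ : ℝ} (hN : 1 ≤ r)
    (h40 : 40 ≤ tn m * (((2 ^ r : ℕ) : ℝ)) ^ 2) (hnm : n ≤ m)
    (h1 : FL b (tn n) a₁ η₁ (2 ^ r)) (h2 : FL b (tn m) a₂ η₂ (2 ^ r))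
    (hd : ∀ k : V (2 ^ r), k ≠ 0 → EE k ≤ tn m →
      |Pin (2 ^ r) b (tn n) k - Pin (2 ^ r) b (tn m) k| ≤ δ * EE k) :
    |a₁ - a₂| ≤ 4 * η₁ + 4 * η₂ + δ := by
  obtain ⟨k, hk, hE⟩ := exists_low (N := 2 ^ r) (by
    calc 2 = 2 ^ 1 := by norm_num
      _ ≤ 2 ^ r := Nat.pow_le_pow_right (by norm_num) hN)
  have hN0 : (0 : ℝ) < ((2 ^ r : ℕ) : ℝ) := by positivity
  have hE' : EE k ≤ tn m := hE.trans (by rw [div_le_iff₀ (by positivity)]; exact h40)
  have h3 : tn m ≤ tn n := by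
    unfold tn
    gcongr
    norm_num
  exact h1.cmp (tn_pos n) (tn_pos m) h2 hk (hE'.trans h3) hE' (hd k hk hE')

end

end Vale.Agent.P159.H972
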