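import Vale.Agent.P159.H972.Lk1
import Vale.Agent.P159.H972.StepG

/-!
P159 / LINKW (C) (helper972): the levels and the tori of the chain from the level `u` to the level
`u + O(log u)`.
-/

set_option linter.unusedSectionVars false

namespace Vale.Agent.P159.H972

open Finset Matrix

noncomputable section

/-- states at all levels, of the size of the critical point -/
structure Chn (P : Par) (b s : ℝ) (N0 : ℕ) (ε Y a : ℕ → ℝ) : Prop where
  hb : 0 < b
  adm : P.Adm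
  s1 : 3 / 4 ≤ s
  s2 : s < 1
  n0 : 4 ≤ N0
  good : ∀ n, N0 ≤ n → Good P b n (ε n)
  yb : ∀ n, N0 ≤ n → YBn P b n (ε n) (Y n)
  yε : ∀ n, N0 ≤ n → Y n ^ 2 ≤ ε n
  es : ∀ n, N0 ≤ n → ε n ≤ P.es
  e1 : ∀ n, N0 ≤ n → ε n ≤ (n : ℝ) ^ (-(2 * s))
  e2 : ∀ n, N0 ≤ n → (n : ℝ) ^ (-3 : ℝ) ≤ ε n
  Yu : ∀ n, N0 ≤ n → Y n ≤ (n : ℝ) ^ (-s)
  xa : ∀ n, N0 ≤ n → |(a n)⁻¹ - 2 / Real.pi| ≤ (n : ℝ) ^ (-s)
  a1 : ∀ n, N0 ≤ n → 1 ≤ a n ∧ a n ≤ 2
  fl : ∀ n, N0 ≤ n → ∀ r, P.TT n (ε n) r → FL b (tn n) (a n) (17 * ε n ^ P.pf) (2 ^ r)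

/-- levels -/
def lev (P : Par) (ε : ℕ → ℝ) (u : ℕ) : ℕ → ℕ
  | 0 => u
  | i + 1 => lev P ε u i + P.w (ε (lev P ε u i))

/-- tori: common to the levels `i` and `i + 1` -/
def tor (P : Par) (ε : ℕ → ℝ) (u i : ℕ) : ℕ :=
  lev P ε u (i + 1) + max (P.kE (ε (lev P ε u i))) (P.kE (ε (lev P ε u (i + 1))))

variable {P : Par} {b s : ℝ} {N0 : ℕ} {ε Y a : ℕ → ℝ}

section chn

variable (h : Chn P b s N0 ε Y a)

include h

lemma Chn.εpos {n : ℕ} (hn : N0 ≤ n) : 0 < ε n :=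
  (pow_pos (h.yb n hn).1 2).trans_le (h.yε n hn)

lemma Chn.ε1 {n : ℕ} (hn : N0 ≤ n) : ε n ≤ 1 := (h.es n hn).trans (P.es1.trans (by norm_num))

lemma Chn.npos {n : ℕ} (hn : N0 ≤ n) : (0 : ℝ) < n := by
  have := h.n0
  have : 0 < n := by omega
  exact_mod_cast this

lemma Chn.logb_pos {n : ℕ} (hn : N0 ≤ n) : 0 ≤ Real.logb 2 n := by
  have h1 := h.n0
  have h2 : (1 : ℝ) ≤ n := by
    have : 1 ≤ n := by omega
    exact_mod_cast this
  exact Real.logb_nonneg one_lt_two h2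

/-- the sizes of the logarithms of a state -/
lemma Chn.lg_size {c : ℝ} (hc : 0 ≤ c) {n : ℕ} (hn : N0 ≤ n) :
    2 * s * c * Real.logb 2 n ≤ lg c (ε n) ∧ (lg c (ε n) : ℝ) ≤ 3 * c * Real.logb 2 n + 1 := by
  have hn0 := h.npos hn
  have hε := h.εpos hn
  have h1 : 2 * s * Real.logb 2 n ≤ Real.logb 2 (1 / ε n) := by
    have e : 2 * s * Real.logb 2 n = Real.logb 2 ((n : ℝ) ^ (2 * s)) := by
      rw [Real.logb_rpow_eq_mul_logb_of_pos hn0]
    rw [e]
    apply Real.logb_le_logb_of_le one_lt_two (Real.rpow_pos_of_pos hn0 _)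
    rw [le_div_iff₀ hε]
    calc (n : ℝ) ^ (2 * s) * ε n ≤ (n : ℝ) ^ (2 * s) * (n : ℝ) ^ (-(2 * s)) :=
          mul_le_mul_of_nonneg_left (h.e1 n hn) (Real.rpow_nonneg hn0.le _)
      _ = 1 := by rw [← Real.rpow_add hn0, add_neg_cancel, Real.rpow_zero]
  have h2 : Real.logb 2 (1 / ε n) ≤ 3 * Real.logb 2 n := by
    have e : 3 * Real.logb 2 n = Real.logb 2 ((n : ℝ) ^ (3 : ℝ)) := by
      rw [Real.logb_rpow_eq_mul_logb_of_pos hn0]
    rw [e]
    apply Real.logb_le_logb_of_le one_lt_two (by positivity)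
    rw [div_le_iff₀ hε]
    calc (1 : ℝ) = (n : ℝ) ^ (3 : ℝ) * (n : ℝ) ^ (-3 : ℝ) := by
          rw [← Real.rpow_add hn0, add_neg_cancel, Real.rpow_zero]
      _ ≤ (n : ℝ) ^ (3 : ℝ) * ε n :=
          mul_le_mul_of_nonneg_left (h.e2 n hn) (Real.rpow_nonneg hn0.le _)
  constructor
  · refine le_trans ?_ (Nat.le_ceil _)
    have := mul_le_mul_of_nonneg_left h1 hc
    linarith
  · have h3 : (lg c (ε n) : ℝ) ≤ c * Real.logb 2 (1 / ε n) + 1 :=
      (Nat.ceil_lt_add_one (mul_nonneg hc (logb_nonneg' hε (h.ε1 hn)))).le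
    have := mul_le_mul_of_nonneg_left h2 hc
    linarith

lemma lev_ge (u i : ℕ) : u ≤ lev P ε u i := by
  induction i with
  | zero => exact le_rfl
  | succ i ih => exact ih.trans (Nat.le_add_right _ _)

/-- the bound of one window -/
def Wm (P : Par) (u : ℕ) : ℝ := 3 * P.thp * (Real.logb 2 u + 1) + 1

lemma Chn.logb_le {u n : ℕ} (hu : N0 ≤ u) (hn : N0 ≤ n) (h2 : (n : ℝ) ≤ 2 * u) :
    Real.logb 2 n ≤ Real.logb 2 u + 1 := by
  have h1 := h.npos hu
  have h3 := h.npos hn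
  have e : Real.logb 2 u + 1 = Real.logb 2 (2 * u) := by
    rw [Real.logb_mul two_ne_zero h1.ne', Real.logb_self_eq_one one_lt_two, add_comm]
  rw [e]
  exact Real.logb_le_logb_of_le one_lt_two h3 h2

lemma lev_up {u J : ℕ} (hu : N0 ≤ u) (hJ : (J : ℝ) * Wm P u ≤ u) :
    ∀ i, i ≤ J → (lev P ε u i : ℝ) ≤ u + i * Wm P u := by
  have hL := h.logb_pos hu
  have hthp := P.thp0
  have hW : 0 ≤ Wm P u := by unfold Wm; positivity
  intro i
  induction i with
  | zero =>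
    intro _
    show ((u : ℕ) : ℝ) ≤ _
    simp
  | succ i ih =>
    intro hi
    have h1 := ih (by omega)
    have hge := lev_ge h u i
    have h2 : (lev P ε u i : ℝ) ≤ 2 * u := by
      have h3 : (i : ℝ) * Wm P u ≤ J * Wm P u := by
        have : (i : ℝ) ≤ J := by exact_mod_cast (by omega : i ≤ J)
        gcongr
      linarith
    have h3 := h.logb_le hu (hu.trans hge) h2
    have h4 := (h.lg_size hthp.le (hu.trans hge)).2
    have h5 : (P.w (ε (lev P ε u i)) : ℝ) ≤ Wm P u := by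
      refine h4.trans ?_
      unfold Wm
      have := mul_le_mul_of_nonneg_left h3 (by positivity : 0 ≤ 3 * P.thp)
      linarith
    show (((lev P ε u i + P.w (ε (lev P ε u i)) : ℕ)) : ℝ) ≤ _
    push_cast
    linarith

lemma lev_low {u : ℕ} (hu : N0 ≤ u) (i : ℕ) :
    (u : ℝ) + i * (2 * s * P.thp * Real.logb 2 u) ≤ lev P ε u i := by
  have hthp := P.thp0
  have hs := h.s1
  induction i with
  | zero => simp [lev]
  | succ i ih =>
    have hge := lev_ge h u i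
    have h4 := (h.lg_size hthp.le (hu.trans hge)).1
    have h5 : Real.logb 2 u ≤ Real.logb 2 (lev P ε u i) :=
      Real.logb_le_logb_of_le one_lt_two (h.npos hu) (by exact_mod_cast hge)
    have h6 : 2 * s * P.thp * Real.logb 2 u ≤ (P.w (ε (lev P ε u i)) : ℝ) := by
      refine le_trans ?_ h4
      exact mul_le_mul_of_nonneg_left h5 (by positivity)
    show _ ≤ (((lev P ε u i + P.w (ε (lev P ε u i)) : ℕ)) : ℝ)
    push_cast
    linarith

/-- one window: the next level, the size hypothesis -/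
lemma Chn.si {n : ℕ} (hn : N0 ≤ n) : SI P b N0 n (n + P.w (ε n)) (ε n) (Y n) :=
  ⟨hn, h.good n hn, h.yb n hn, h.yε n hn, h.es n hn, le_rfl, by omega⟩

/-- the largeness of the start level -/
structure Lrg (P : Par) (N0 J u : ℕ) : Prop where
  u0 : N0 ≤ u
  J : ((J + 1 : ℕ) : ℝ) * Wm P u ≤ u
  L : Wm P u ≤ 9 / 2 * P.thp * Real.logb 2 u

/-- a window is larger than `K` of the neighbours -/
lemma Chn.kE_le {J u : ℕ} (hL : Lrg P N0 J u) {n n' : ℕ} (hn : u ≤ n) (hn' : u ≤ n')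
    (h2 : (n' : ℝ) ≤ 2 * u) : P.kE (ε n') ≤ 3 * P.w (ε n) := by
  have hu := hL.u0
  have hs := h.s1
  have hthp := P.thp0
  have h1 := (h.lg_size P.th0.le (hu.trans hn')).2
  have h3 := h.logb_le hu (hu.trans hn') h2
  have h4 := (h.lg_size hthp.le (hu.trans hn)).1
  have h5 : Real.logb 2 u ≤ Real.logb 2 n :=
    Real.logb_le_logb_of_le one_lt_two (h.npos hu) (by exact_mod_cast hn)
  have h0 := h.logb_pos (hu.trans hn')
  have h00 := h.logb_pos hu
  have h6 : (P.kE (ε n') : ℝ) ≤ Wm P u := by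
    refine h1.trans ?_
    unfold Wm
    have h7 : 3 * P.th * Real.logb 2 n' ≤ 3 * P.thp * (Real.logb 2 u + 1) := by
      have h8 := h.adm.hth
      calc 3 * P.th * Real.logb 2 n' ≤ 3 * P.thp * Real.logb 2 n' := by gcongr
        _ ≤ _ := by gcongr
    linarith
  have h7 := hL.L
  have h8 : 9 / 2 * P.thp * Real.logb 2 u ≤ 3 * (2 * s * P.thp * Real.logb 2 n) := by
    have h9 : 9 / 2 * (P.thp * Real.logb 2 u) ≤ 6 * s * (P.thp * Real.logb 2 u) :=
      mul_le_mul_of_nonneg_right (by linarith) (by positivity)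
    have h10 : 6 * s * (P.thp * Real.logb 2 u) ≤ 6 * s * (P.thp * Real.logb 2 n) := by
      gcongr
    linarith
  have h9 : (P.kE (ε n') : ℝ) ≤ ((3 * P.w (ε n) : ℕ) : ℝ) := by
    push_cast
    have h10 : 3 * (2 * s * P.thp * Real.logb 2 n) ≤ 3 * (P.w (ε n) : ℝ) := by
      have : 2 * s * P.thp * Real.logb 2 n ≤ (P.w (ε n) : ℝ) := h4
      linarith
    linarith
  exact_mod_cast h9

lemma lev_two {J u : ℕ} (hL : Lrg P N0 J u) {i : ℕ} (hi : i ≤ J + 1) :
    (lev P ε u i : ℝ) ≤ 2 * u := by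
  have hW : 0 ≤ Wm P u := by
    have := h.logb_pos hL.u0
    have := P.thp0
    unfold Wm
    positivity
  have h1 := lev_up h hL.u0 hL.J i hi
  have h2 : (i : ℝ) * Wm P u ≤ ((J + 1 : ℕ) : ℝ) * Wm P u := by
    have : (i : ℝ) ≤ ((J + 1 : ℕ) : ℝ) := by exact_mod_cast hi
    gcongr
  have := hL.J
  linarith

/-- the torus is admissible at the level `i` -/
lemma tor_TT {J u : ℕ} (hL : Lrg P N0 J u) {i : ℕ} (hi : i ≤ J) :
    P.TT (lev P ε u i) (ε (lev P ε u i)) (tor P ε u i) := by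
  have h1 := lev_ge h u i
  have h2 := lev_ge h u (i + 1)
  have h3 := h.kE_le hL h1 h2 (lev_two h hL (by omega))
  have hq := h.adm.hq
  have e : lev P ε u (i + 1) = lev P ε u i + P.w (ε (lev P ε u i)) := rfl
  have h4 : 1 * (4 * P.w (ε (lev P ε u i))) ≤ P.q0 * (4 * P.w (ε (lev P ε u i))) :=
    Nat.mul_le_mul_right _ (by omega)
  unfold Par.TT tor
  rw [e] at h3 ⊢
  constructor
  · have := le_max_left (P.kE (ε (lev P ε u i)))
      (P.kE (ε (lev P ε u i + P.w (ε (lev P ε u i)))))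
    omega
  · rcases max_cases (P.kE (ε (lev P ε u i)))
      (P.kE (ε (lev P ε u i + P.w (ε (lev P ε u i))))) with ⟨h5, -⟩ | ⟨h5, -⟩ <;> rw [h5] <;> omega

/-- the torus is admissible at the level `i + 1` -/
lemma tor_TT' {J u : ℕ} (hL : Lrg P N0 J u) {i : ℕ} (hi : i ≤ J) :
    P.TT (lev P ε u (i + 1)) (ε (lev P ε u (i + 1))) (tor P ε u i) := by
  have h1 := lev_ge h u i
  have h2 := lev_ge h u (i + 1)
  have h3 := h.kE_le hL h2 h1 (lev_two h hL (by omega))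
  have hq := h.adm.hq
  have h4 : 1 * (4 * P.w (ε (lev P ε u (i + 1)))) ≤ P.q0 * (4 * P.w (ε (lev P ε u (i + 1)))) :=
    Nat.mul_le_mul_right _ (by omega)
  unfold Par.TT tor
  constructor
  · have := le_max_right (P.kE (ε (lev P ε u i))) (P.kE (ε (lev P ε u (i + 1))))
    omega
  · rcases max_cases (P.kE (ε (lev P ε u i))) (P.kE (ε (lev P ε u (i + 1)))) with
      ⟨h5, -⟩ | ⟨h5, -⟩ <;> rw [h5] <;> omega

lemma tor_ge {u i : ℕ} (hu : N0 ≤ u) :
    lev P ε u (i + 1) + P.kE P.es ≤ tor P ε u i := by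
  unfold tor
  have h1 := hu.trans (lev_ge h u (i + 1))
  have h2 : P.kE P.es ≤ P.kE (ε (lev P ε u (i + 1))) :=
    lg_anti P.th0.le (h.εpos h1) (h.es _ h1)
  have := le_max_right (P.kE (ε (lev P ε u i))) (P.kE (ε (lev P ε u (i + 1))))
  omega

end chn

/-- every large level is large -/
lemma ev_Lrg (P : Par) (N0 J : ℕ) : ∃ u0, ∀ u, u0 ≤ u → Lrg P N0 J u := by
  have hthp := P.thp0
  have hlog : Filter.Tendsto (fun u : ℕ => Real.logb 2 (u : ℝ)) Filter.atTop Filter.atTop :=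
    (Real.tendsto_logb_atTop one_lt_two).comp tendsto_natCast_atTop_atTop
  have hsm : Filter.Tendsto (fun u : ℕ => ((J + 1 : ℕ) : ℝ) * Wm P u / u) Filter.atTop
      (nhds 0) := by
    have h1 : Filter.Tendsto (fun u : ℕ => Real.log (u : ℝ) / u) Filter.atTop (nhds 0) := by
      have h2 : Filter.Tendsto (fun x : ℝ => Real.log x / x) Filter.atTop (nhds 0) := by
        have := Real.isLittleO_log_id_atTop.tendsto_div_nhds_zero
        simpa using this
      exact h2.comp tendsto_natCast_atTop_atTop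
    have h3 : Filter.Tendsto (fun u : ℕ => (1 : ℝ) / u) Filter.atTop (nhds 0) :=
      tendsto_one_div_atTop_nhds_zero_nat
    have h4 := ((h1.const_mul (3 * P.thp / Real.log 2)).add
      (h3.const_mul (3 * P.thp + 1))).const_mul ((J + 1 : ℕ) : ℝ)
    simp only [mul_zero, add_zero] at h4
    refine h4.congr fun u => ?_
    unfold Wm Real.logb
    ring
  have e1 := hsm.eventually (gt_mem_nhds one_pos)
  have e2 := hlog.eventually_ge_atTop ((3 * P.thp + 1) / (3 / 2 * P.thp))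
  obtain ⟨u0, hu0⟩ := Filter.eventually_atTop.1
    (e1.and (e2.and (Filter.eventually_ge_atTop (max N0 1))))
  refine ⟨u0, fun u hu => ?_⟩
  obtain ⟨h1, h2, h3⟩ := hu0 u hu
  have hu1 : (0 : ℝ) < u := by
    have : 1 ≤ u := (le_max_right _ _).trans h3
    exact_mod_cast this
  refine ⟨(le_max_left _ _).trans h3, ?_, ?_⟩
  · rw [div_lt_one hu1] at h1
    exact h1.le
  · rw [div_le_iff₀ (by positivity)] at h2
    unfold Wm
    linarith

end

end Vale.Agent.P159.H972
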