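import Vale.Agent.P159.H972.Lk3

/-!
P159 / LINKW (helper972), assembly, second part: the rate at the side `2 ^ (u + O(log u))`.
-/

set_option linter.unusedSectionVars false

namespace Vale.Agent.P159.H972

open Finset Matrix
open Vale.Agent.P159.H37
open Vale.Agent.P159.TM.H764 (EE hatu)
open Vale.Agent.P159.TM.Spec (V)
open Vale.Agent.P159.H864 (TI sym hsq hsq_nonneg lapM ti_lapM sym_lapM qf_eq_sum sum_hsq qf_lapM)
open Vale.Agent.P159.H963 (Gn Pin ti_Gn)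
open Vale.Agent.P159.H859 (lapz enz gdz Fsu smz pf smz_ne smz_fsu pf_fsu enz_smz_le enz_diff enz_up
  le_enz enz_trz)
open Vale.Agent.P159.H692 (Xf Xf_eq PrF lk3s eS)

noncomputable section

variable {P : Par} {b s : ℝ} {N0 : ℕ} {ε Y a : ℕ → ℝ}

/-- the largeness of `u` used in the numbers -/
structure Lg2 (P : Par) (s : ℝ) (N0 J q u : ℕ) : Prop where
  lrg : Lrg P N0 J u
  l1 : 1 ≤ Real.logb 2 u
  cl : 2 * Nat.clog 2 u + 1 ≤ u
  big : (3 * (q : ℝ) + 10) * Real.logb 2 u ≤ J * (2 * s * P.thp * Real.logb 2 u)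
  pow : (4 : ℝ) ^ (2 * J * (3 * P.thp + 1)) ≤ u
  v34 : 34 * (u : ℝ) ^ (-(2 * s * P.pf)) ≤ 1
  two : (u : ℝ) ^ (2 : ℝ) ≤ 2 ^ u

/-- the numbers of the start -/
lemma start_num (h : Chn P b s N0 ε Y a) {J q u : ℕ} (hL : Lg2 P s N0 J q u) :
    ∃ s' : ℕ, 2 ^ (u - 2 * Nat.clog 2 u) ≤ s' ∧ √(34 * ε u ^ P.pf) * ((2 ^ u : ℕ) : ℝ) ≤ s' ∧
      (s' : ℝ) ≤ 2 * (√(34 * ε u ^ P.pf) * ((2 ^ u : ℕ) : ℝ)) ∧ s' ≤ 2 * 2 ^ u := by
  have hu := hL.lrg.u0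
  have hn0 := h.npos hu
  have hε := h.εpos hu
  have hpf0 := h.adm.pf0
  have hpf1 := h.adm.pf1
  have hs1 := h.s1
  have hs2 := h.s2
  have hu1 : (1 : ℝ) ≤ u := by
    have := h.n0
    exact_mod_cast (by omega : 1 ≤ u)
  have hη : 0 < 34 * ε u ^ P.pf := by positivity
  -- lower bound of the root: `u ^ (-2) ≤ √η`
  have h1 : (u : ℝ) ^ (-2 : ℝ) ≤ √(34 * ε u ^ P.pf) := by
    apply Real.le_sqrt_of_sq_le
    have h2 : ((u : ℝ) ^ (-3 : ℝ)) ^ P.pf ≤ ε u ^ P.pf :=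
      Real.rpow_le_rpow (Real.rpow_nonneg hn0.le _) (h.e2 u hu) hpf0.le
    have h3 : ((u : ℝ) ^ (-2 : ℝ)) ^ 2 ≤ ((u : ℝ) ^ (-3 : ℝ)) ^ P.pf := by
      rw [← Real.rpow_natCast, ← Real.rpow_mul hn0.le, ← Real.rpow_mul hn0.le]
      apply Real.rpow_le_rpow_of_exponent_le hu1
      push_cast
      linarith
    have h4 : 0 < ε u ^ P.pf := Real.rpow_pos_of_pos hε _
    linarith
  have h2 : √(34 * ε u ^ P.pf) ≤ 1 := by
    rw [Real.sqrt_le_one]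
    have h3 := h.ε_pow hu le_rfl (q := P.pf) (c := 2 * s * P.pf) hpf0.le (by positivity) le_rfl
    have h4 := hL.v34
    linarith
  set x : ℝ := √(34 * ε u ^ P.pf) * ((2 ^ u : ℕ) : ℝ) with hx
  have hp : (0 : ℝ) < ((2 ^ u : ℕ) : ℝ) := by positivity
  have hx1 : 1 ≤ x := by
    have h5 := hL.two
    have h6 : (u : ℝ) ^ (-2 : ℝ) * (u : ℝ) ^ (2 : ℝ) = 1 := by
      rw [← Real.rpow_add hn0]; norm_num
    have h7 : (u : ℝ) ^ (2 : ℝ) ≤ ((2 ^ u : ℕ) : ℝ) := by push_cast; exact h5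
    rw [hx]
    calc (1 : ℝ) = (u : ℝ) ^ (-2 : ℝ) * (u : ℝ) ^ (2 : ℝ) := h6.symm
      _ ≤ √(34 * ε u ^ P.pf) * ((2 ^ u : ℕ) : ℝ) :=
        mul_le_mul h1 h7 (by positivity) (Real.sqrt_nonneg _)
  have hle := Nat.le_ceil x
  have hlt := (Nat.ceil_lt_add_one (by linarith : 0 ≤ x)).le
  refine ⟨⌈x⌉₊, ?_, hle, by linarith, ?_⟩
  · have h5 : ((2 ^ (u - 2 * Nat.clog 2 u) : ℕ) : ℝ) ≤ x := by
      have h6 : (2 : ℝ) ^ (u - 2 * Nat.clog 2 u) * (u : ℝ) ^ 2 ≤ 2 ^ u := by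
        have h7 := clog_ge u
        have h8 : (u : ℝ) ^ 2 ≤ 2 ^ (2 * Nat.clog 2 u) := by
          calc (u : ℝ) ^ 2 ≤ (2 ^ Nat.clog 2 u) ^ 2 := pow_le_pow_left₀ hn0.le h7 2
            _ = _ := by rw [← pow_mul, mul_comm]
        calc _ ≤ (2 : ℝ) ^ (u - 2 * Nat.clog 2 u) * 2 ^ (2 * Nat.clog 2 u) := by gcongr
          _ = 2 ^ u := by
            rw [← pow_add]
            congr 1
            have := hL.cl
            omega
      have h7 : (2 : ℝ) ^ (u - 2 * Nat.clog 2 u) ≤ (u : ℝ) ^ (-2 : ℝ) * 2 ^ u := by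
        have h8 : (u : ℝ) ^ (-2 : ℝ) * (u : ℝ) ^ 2 = 1 := by
          rw [← Real.rpow_natCast, ← Real.rpow_add hn0]; norm_num
        calc (2 : ℝ) ^ (u - 2 * Nat.clog 2 u) =
              (u : ℝ) ^ (-2 : ℝ) * (2 ^ (u - 2 * Nat.clog 2 u) * (u : ℝ) ^ 2) := by
              rw [mul_left_comm, h8, mul_one]
          _ ≤ _ := by gcongr
      push_cast
      refine h7.trans ?_
      rw [hx]
      push_cast
      gcongr
    have h6 := h5.trans hle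
    exact_mod_cast h6
  · have h5 : x ≤ ((2 ^ u : ℕ) : ℝ) := by
      rw [hx]
      exact mul_le_of_le_one_left hp.le h2
    have h6 : (⌈x⌉₊ : ℝ) ≤ ((2 * 2 ^ u : ℕ) : ℝ) := by
      push_cast at h5 hp ⊢
      have : (1 : ℝ) ≤ 2 ^ u := one_le_pow₀ (by norm_num)
      linarith
    exact_mod_cast h6

/-- **the start of the chain**, (C1) -/
lemma start_X (h : Chn P b s N0 ε Y a) {c1 : ℝ} (hc1 : 1 ≤ c1) (hK1 : KP P b c1 N0 ε a)
    {J q u : ℕ} (hL : Lg2 P s N0 J q u) {C : ℝ} (hC1 : 1 ≤ C) (hC : 2 * b ≤ C) :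
    Xf (2 ^ tor P ε u 0) b (tn u) (a u) (em (2 ^ tor P ε u 0) (fu u)) ≤
      C * ((544 + 6 * (256 + 1024 * (2 + c1))) * (u : ℝ) ^ (-(s * P.pf)) * 4 ^ u) := by
  have hu := hL.lrg.u0
  have hb := h.hb
  have hn0 := h.npos hu
  have hε := h.εpos hu
  have hpf0 := h.adm.pf0
  have hs1 := h.s1
  obtain ⟨ha1, ha2⟩ := h.a1 u hu
  obtain ⟨s', k1, k2, k3, k4⟩ := start_num h hL
  have hT : P.TT u (ε u) (tor P ε u 0) := tor_TT h hL.lrg (i := 0) (Nat.zero_le _)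
  have hP := hK1 u hu _ hT (a u) 0 (by simp)
  rw [add_zero] at hP
  have hη : 0 < 34 * ε u ^ P.pf := by positivity
  have ht : tn u = ((4 : ℝ) ^ u)⁻¹ := rfl
  have hr : u + 3 ≤ tor P ε u 0 := by
    have h1 := tor_ge h (u := u) (i := 0) hu
    have h2 := lev_ge h u (0 + 1)
    have h3 := h.adm.hk
    omega
  have h2 : 8 * 2 ^ u ≤ 2 ^ tor P ε u 0 := by
    calc 8 * 2 ^ u = 2 ^ (u + 3) := by rw [pow_add]; ring
      _ ≤ _ := Nat.pow_le_pow_right (by norm_num) hr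
  have h2' : 8 * ((2 ^ u : ℕ) : ℤ) ≤ ((2 ^ tor P ε u 0 : ℕ) : ℤ) := by exact_mod_cast h2
  have h4' : (0 : ℤ) < ((2 ^ u : ℕ) : ℤ) := by exact_mod_cast Nat.two_pow_pos u
  have h5 : (2 : ℤ) ^ u = ((2 ^ u : ℕ) : ℤ) := by push_cast; rfl
  have k4' : (s' : ℤ) ≤ 2 * ((2 ^ u : ℕ) : ℤ) := by exact_mod_cast k4
  have hX := xf_pyr (N := 2 ^ tor P ε u 0) (x0 := 4 * 2 ^ u) (y0 := 4 * 2 ^ u) (p := 2 ^ u)
    (s := 2 ^ (u - 2 * Nat.clog 2 u)) (s' := s') hb (tn_pos u) hP (by positivity : 0 < 1 / b)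
    (by linarith : 0 ≤ a u) (by linarith : 0 ≤ c1) hη.le hη.le hC1
    (by rw [mul_one_div, le_div_iff₀ hb]; nlinarith) Nat.one_le_two_pow Nat.one_le_two_pow k1
    (by rw [h5]; omega) (by rw [h5]; omega) (by rw [h5]; omega) (by rw [h5]; omega)
  refine (le_abs_self _).trans (hX.trans (mul_le_mul_of_nonneg_left ?_ (by linarith)))
  have hsn := scale_num (t := tn u) (p := 2 ^ u) (s' := s') hη Nat.one_le_two_pow
    (by
      rw [ht]
      push_cast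
      rw [← pow_mul, mul_comm u 2, pow_mul]
      norm_num) (tn_pos u) k2 k3
    (K := a u + c1) (δ := 34 * ε u ^ P.pf) (by linarith)
  refine hsn.trans ?_
  have hp2 : (((2 ^ u : ℕ) : ℝ)) ^ 2 = 4 ^ u := by
    push_cast
    rw [← pow_mul, mul_comm u 2, pow_mul]
    norm_num
  rw [hp2]
  refine mul_le_mul_of_nonneg_right ?_ (by positivity)
  set v : ℝ := (u : ℝ) ^ (-(s * P.pf)) with hv
  have hv0 : 0 < v := Real.rpow_pos_of_pos hn0 _
  have e1 : ε u ^ P.pf ≤ v ^ 2 := by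
    have h3 := h.ε_pow hu le_rfl (q := P.pf) (c := 2 * s * P.pf) hpf0.le (by positivity) le_rfl
    refine h3.trans (le_of_eq ?_)
    rw [hv, ← Real.rpow_natCast, ← Real.rpow_mul hn0.le]
    congr 1
    push_cast
    ring
  have hv1 : v ≤ 1 := by
    rw [hv]
    apply Real.rpow_le_one_of_one_le_of_nonpos
    · have := h.n0
      exact_mod_cast (by omega : 1 ≤ u)
    · have : 0 ≤ s * P.pf := by positivity
      linarith
  have e2 : √(34 * ε u ^ P.pf) ≤ 6 * v := by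
    rw [Real.sqrt_le_left (by positivity)]
    nlinarith
  have e3 : v ^ 2 ≤ v := by nlinarith
  have e4 : 16 * (34 * ε u ^ P.pf) ≤ 544 * v := by linarith
  have e5 : (256 + 1024 * (a u + c1)) * √(34 * ε u ^ P.pf) ≤
      (256 + 1024 * (2 + c1)) * (6 * v) :=
    mul_le_mul (by linarith) e2 (Real.sqrt_nonneg _) (by linarith)
  nlinarith

end

end Vale.Agent.P159.H972
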