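import Vale.Agent.P159.H972.Lk5
import Vale.Agent.P159.H30.Tk9

/-!
P159 / LINKW (helper972), assembly, fourth part: the stiffness of the square of side
`2 ^ (u + O(log u))`, the largeness of `u`.
-/

set_option linter.unusedSectionVars false

namespace Vale.Agent.P159.H972

open Finset Matrix
open Vale.Agent.P159.H37
open Vale.Agent.P159.TM.H764 (EE hatu)
open Vale.Agent.P159.TM.Spec (V)
open Vale.Agent.P159.H864 (TI sym hsq hsq_nonneg lapM ti_lapM sym_lapM qf_eq_sum sum_hsq qf_lapM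
  ti_Gm_wt)
open Vale.Agent.P159.H963 (Gn Pin ti_Gn)
open Vale.Agent.P159.H859 (lapz enz gdz Fsu smz pf smz_ne smz_fsu pf_fsu enz_smz_le enz_diff enz_up
  le_enz enz_trz)
open Vale.Agent.P159.H692 (Xf Xf_eq PrF lk3s eS)

noncomputable section

/-- (A) + (B) of LINKW: helper340's `lw_two_loc` -/
def LW (b Cw : ℝ) (q : ℕ) : Prop :=
  ∀ (n : ℕ) [NeZero n] (u j K L : ℕ), 2 * j + 1 ≤ u → K = u + q * (j + 1) →
    2 ^ (K + 1) + 1 ≤ n → 96 * 2 ^ (8 * j) * (2 ^ (K + 1) + 1) ≤ L →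
    ∀ t : ℝ, 0 < t → t * 4 ^ (K + 5 * j) ≤ 1 → ∀ κ : ℝ, 0 ≤ κ →
    qf (Gm (H37.wt n b t)) (fun x =>
      lapz (smz (2 ^ (u - 2 * j)) (pf (2 ^ K) (2 ^ K) (2 ^ u))) ((x.1.val : ℤ), (x.2.val : ℤ))) ≤
      κ * enz (pf (2 ^ K) (2 ^ K) (2 ^ u)) →
    stiff L b ≤ κ + Cw / 2 ^ j

lemma ex_LW {b : ℝ} (hb : 0 < b) : ∃ (Cw : ℝ) (q : ℕ), 0 < Cw ∧ 4 ≤ q ∧ LW b Cw q :=
  H340.lw_two_loc hb

/-- the smoothed pyramid with centre `2 ^ K` -/
def fK (u K : ℕ) : ℤ × ℤ → ℝ :=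
  smz (2 ^ (u - 2 * Nat.clog 2 u)) (pf (2 ^ K) (2 ^ K) ((2 ^ u : ℕ) : ℤ))

lemma fK_shift (u K : ℕ) :
    (fun c => fu u (c + ((4 * 2 ^ u - 2 ^ K : ℤ), (4 * 2 ^ u - 2 ^ K : ℤ)))) = fK u K := by
  funext c
  exact smz_shift _ _ _ _ _

lemma fK_fit {u K r : ℕ} (hK : u + 2 ≤ K) (hr : K + 1 ≤ r) : Fit (2 ^ r) (fK u K) := by
  have h1 : 2 ^ (u - 2 * Nat.clog 2 u) ≤ 2 ^ u := Nat.pow_le_pow_right (by norm_num) (by omega)
  have h2 : 2 ^ (K + 1) ≤ 2 ^ r := Nat.pow_le_pow_right (by norm_num) hr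
  have h3 : 2 ^ (u + 2) ≤ 2 ^ K := Nat.pow_le_pow_right (by norm_num) hK
  have h4 : 0 < 2 ^ u := Nat.two_pow_pos u
  have e2 : 2 ^ (K + 1) = 2 * 2 ^ K := by rw [pow_succ]; ring
  have e3 : 2 ^ (u + 2) = 4 * 2 ^ u := by rw [pow_add]; ring
  rw [e2] at h2
  rw [e3] at h3
  have h1' : ((2 ^ (u - 2 * Nat.clog 2 u) : ℕ) : ℤ) ≤ ((2 ^ u : ℕ) : ℤ) := by exact_mod_cast h1
  have h2' : 2 * ((2 ^ K : ℕ) : ℤ) ≤ ((2 ^ r : ℕ) : ℤ) := by exact_mod_cast h2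
  have h3' : 4 * ((2 ^ u : ℕ) : ℤ) ≤ ((2 ^ K : ℕ) : ℤ) := by exact_mod_cast h3
  have h4' : (0 : ℤ) < ((2 ^ u : ℕ) : ℤ) := by exact_mod_cast h4
  have h5 : (2 : ℤ) ^ K = ((2 ^ K : ℕ) : ℤ) := by push_cast; rfl
  refine fit_smz ?_ ?_ ?_ ?_ <;> rw [h5] <;> omega

variable {P : Par} {b s : ℝ} {N0 : ℕ} {ε Y a : ℕ → ℝ}

/-- the last level in terms of `K` -/
lemma lev_last' (h : Chn P b s N0 ε Y a) {J q u : ℕ} (hL : Lg2 P s N0 J q u) :
    u + q * (Nat.clog 2 u + 1) + 5 * Nat.clog 2 u ≤ lev P ε u J := by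
  have hu := hL.lrg.u0
  have w1 := lev_low h hu J
  have w2 := hL.big
  have w3 := clog_le_logb (u := u) (by have := h.n0; omega)
  have hl1 := hL.l1
  have hq : (0 : ℝ) ≤ q := Nat.cast_nonneg _
  have w4 : ((u + q * (Nat.clog 2 u + 1) + 5 * Nat.clog 2 u : ℕ) : ℝ) ≤ lev P ε u J := by
    push_cast
    have w5 : (q : ℝ) * (Nat.clog 2 u + 1) ≤ q * (3 * Real.logb 2 u) :=
      mul_le_mul_of_nonneg_left (by linarith) hq
    nlinarith
  exact_mod_cast w4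

/-- **the stiffness of one square** -/
theorem rate_one (h : Chn P b s N0 ε Y a) {c1 p3 C1 : ℝ} (hc1 : 1 ≤ c1)
    (hK1 : KP P b c1 N0 ε a) (hK2 : KT P b s C1 N0 ε) (hK3 : KD P b p3 N0 ε) (hp3 : 1 / 2 ≤ p3)
    {J q u : ℕ} (hL : Lg2 P s N0 J q u) (hJ : (J : ℝ) * P.thp ≤ 2 * q + 8)
    (hC1 : 12 * (q : ℝ) + 49 ≤ C1) {C : ℝ} (hC : 1 ≤ C) (hCb : 2 * b ≤ C) {Cw : ℝ} (hCw : 0 ≤ Cw)
    (hq : 4 ≤ q) (hW : LW b Cw q) :
    stiff (2 ^ (u + q * (Nat.clog 2 u + 1) + 8 * Nat.clog 2 u + 9)) b ≤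
      (a u)⁻¹ + (8 * Rc b c1 C J + Cw) * (u : ℝ) ^ (-(s * P.pf)) := by
  have hu := hL.lrg.u0
  have hb := h.hb
  have hn0 := h.npos hu
  have hu4 : 4 ≤ u := h.n0.trans hu
  obtain ⟨ha1, ha2⟩ := h.a1 u hu
  have hend := chain_end h hc1 hK1 hK2 hK3 hp3 hL hJ hC1 hC hCb
  set j := Nat.clog 2 u with hj
  have hj1 : 1 ≤ j := Nat.clog_pos (by norm_num) (by omega)
  set K := u + q * (j + 1) with hK
  have hKu : u + 4 ≤ K := by
    have : 4 * 1 ≤ q * (j + 1) := Nat.mul_le_mul hq (by omega)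
    omega
  have hlast : K + 5 * j ≤ lev P ε u J := lev_last' h hL
  have hto := tor_ge h (u := u) (i := J) hu
  have hge1 : lev P ε u J ≤ lev P ε u (J + 1) := Nat.le_add_right _ _
  have hr : K + 5 ≤ tor P ε u J := by omega
  -- the translation
  have hfu : Fit (2 ^ tor P ε u J) (fu u) := fu_fit (by omega)
  have hfK : Fit (2 ^ tor P ε u J) (fK u K) := fK_fit (by omega) (by omega)
  have e1 : qf (Gm (wt (2 ^ tor P ε u J) b (tn (lev P ε u J)))) (em (2 ^ tor P ε u J)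
      (lapz (fK u K))) = qf (Gm (wt (2 ^ tor P ε u J) b (tn (lev P ε u J))))
      (lapM *ᵥ em (2 ^ tor P ε u J) (fu u)) := by
    rw [lapM_em hfu, ← fK_shift u K]
    refine qf_lap_shift (ti_Gm_wt _) _ hfu ?_
    rw [fK_shift]
    exact hfK
  -- the energy
  have e2 : enz (pf (4 * 2 ^ u) (4 * 2 ^ u) ((2 ^ u : ℕ) : ℤ)) =
      enz (pf (2 ^ K) (2 ^ K) ((2 ^ u : ℕ) : ℤ)) := enz_pf_center _ _ _
  have e3 := enz_ge (2 ^ K) (2 ^ K) (u := u) (by omega)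
  have e4 := D_le u
  rw [e2] at e4
  obtain ⟨D, hD⟩ : ∃ D, D = enz (pf (2 ^ K) (2 ^ K) ((2 ^ u : ℕ) : ℤ)) := ⟨_, rfl⟩
  rw [← hD] at e3 e4
  obtain ⟨v, hv⟩ : ∃ v : ℝ, v = (u : ℝ) ^ (-(s * P.pf)) := ⟨_, rfl⟩
  have hv0 : 0 < v := by rw [hv]; exact Real.rpow_pos_of_pos hn0 _
  obtain ⟨R, hR⟩ : ∃ R : ℝ, R = Rc b c1 C J := ⟨_, rfl⟩
  have hR0 : 0 ≤ R := by
    rw [hR]
    unfold Rc
    positivity
  rw [← hv, ← hR] at hend ⊢
  have h4u : (0 : ℝ) < 4 ^ u := by positivity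
  have hk : qf (Gm (wt (2 ^ tor P ε u J) b (tn (lev P ε u J)))) (em (2 ^ tor P ε u J)
      (lapz (fK u K))) ≤ ((a u)⁻¹ + 8 * R * v) * D := by
    rw [e1]
    refine hend.trans ?_
    have a1 : enz (fu u) / a u ≤ (a u)⁻¹ * D := by
      rw [div_eq_inv_mul]
      exact mul_le_mul_of_nonneg_left e4 (by positivity)
    have a2 : R * v * 4 ^ u ≤ 8 * R * v * D := by
      have : 0 ≤ R * v := by positivity
      nlinarith
    linarith
  have e5 : ((2 ^ u : ℕ) : ℤ) = 2 ^ u := by push_cast; rfl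
  have hfin := hW (2 ^ tor P ε u J) u j K (2 ^ (K + 8 * j + 9)) (by have := hL.cl; omega) rfl
    (by
      calc 2 ^ (K + 1) + 1 ≤ 2 ^ (K + 1) + 2 ^ (K + 1) :=
            Nat.add_le_add_left Nat.one_le_two_pow _
        _ = 2 ^ (K + 2) := by rw [show K + 2 = (K + 1) + 1 by ring, pow_succ 2 (K + 1)]; ring
        _ ≤ 2 ^ tor P ε u J := Nat.pow_le_pow_right (by norm_num) (by omega))
    (by
      calc 96 * 2 ^ (8 * j) * (2 ^ (K + 1) + 1) ≤ 96 * 2 ^ (8 * j) * (2 ^ (K + 1) + 2 ^ (K + 1)) :=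
            Nat.mul_le_mul_left _ (Nat.add_le_add_left Nat.one_le_two_pow _)
        _ = 384 * (2 ^ (8 * j) * 2 ^ K) := by rw [pow_succ 2 K]; ring
        _ ≤ 512 * (2 ^ (8 * j) * 2 ^ K) := Nat.mul_le_mul_right _ (by norm_num)
        _ = 2 ^ (K + 8 * j + 9) := by rw [pow_add, pow_add]; ring)
    (tn (lev P ε u J)) (tn_pos _)
    (by
      unfold tn
      rw [inv_mul_le_iff₀ (by positivity), mul_one]
      exact pow_le_pow_right₀ (by norm_num) hlast)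
    ((a u)⁻¹ + 8 * R * v) (by positivity)
    (by
      have := hk
      rw [hD, e5] at this
      unfold fK at this
      rw [e5] at this
      exact this)
  have e6 : Cw / 2 ^ j ≤ Cw * v := by
    rw [div_eq_mul_inv]
    refine mul_le_mul_of_nonneg_left ?_ hCw
    have h1 := clog_ge u
    have h2 : ((2 : ℝ) ^ j)⁻¹ ≤ (u : ℝ)⁻¹ := inv_anti₀ hn0 h1
    refine h2.trans ?_
    rw [hv, ← Real.rpow_neg_one]
    have hs1 := h.s1
    have hs2 := h.s2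
    have hpf0 := h.adm.pf0
    have hpf1 := h.adm.pf1
    refine Real.rpow_le_rpow_of_exponent_le ?_ ?_
    · exact_mod_cast (by omega : 1 ≤ u)
    · nlinarith
  calc stiff (2 ^ (K + 8 * j + 9)) b ≤ (a u)⁻¹ + 8 * R * v + Cw / 2 ^ j := hfin
    _ ≤ (a u)⁻¹ + 8 * R * v + Cw * v := by linarith
    _ = _ := by ring

/-- the number of windows -/
lemma exists_J {s thp : ℝ} (hs1 : 3 / 4 ≤ s) (ht : 0 < thp) (ht1 : thp ≤ 1) (q : ℕ) :
    ∃ J : ℕ, (3 * (q : ℝ) + 10) ≤ J * (2 * s * thp) ∧ (J : ℝ) * thp ≤ 2 * q + 8 := by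
  have hq : (0 : ℝ) ≤ q := Nat.cast_nonneg _
  have hst : 0 < 2 * s * thp := by positivity
  refine ⟨⌈(3 * (q : ℝ) + 10) / (2 * s * thp)⌉₊, ?_, ?_⟩
  · have := Nat.le_ceil ((3 * (q : ℝ) + 10) / (2 * s * thp))
    rwa [div_le_iff₀ hst] at this
  · have h1 := (Nat.ceil_lt_add_one
      (by positivity : 0 ≤ (3 * (q : ℝ) + 10) / (2 * s * thp))).le
    have h2 : (3 * (q : ℝ) + 10) / (2 * s * thp) * thp ≤ 2 * q + 20 / 3 := by
      have e : (3 * (q : ℝ) + 10) / (2 * s * thp) * thp = (3 * (q : ℝ) + 10) / (2 * s) := by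
        field_simp
      rw [e, div_le_iff₀ (by positivity)]
      nlinarith
    calc _ ≤ ((3 * (q : ℝ) + 10) / (2 * s * thp) + 1) * thp :=
          mul_le_mul_of_nonneg_right h1 ht.le
      _ = (3 * (q : ℝ) + 10) / (2 * s * thp) * thp + thp := by ring
      _ ≤ _ := by linarith

/-- every large level is large -/
lemma ev_Lg2 (P : Par) {s : ℝ} (hs1 : 3 / 4 ≤ s) (hpf : 0 < P.pf) (N0 J q : ℕ)
    (hJ : (3 * (q : ℝ) + 10) ≤ J * (2 * s * P.thp)) :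
    ∃ u0, ∀ u, u0 ≤ u → Lg2 P s N0 J q u := by
  obtain ⟨v0, hv0⟩ := ev_Lrg P N0 J
  have hnat := tendsto_natCast_atTop_atTop (R := ℝ)
  have hlog : Filter.Tendsto (fun u : ℕ => Real.logb 2 (u : ℝ)) Filter.atTop Filter.atTop :=
    (Real.tendsto_logb_atTop one_lt_two).comp hnat
  have e1 := hlog.eventually_ge_atTop 1
  have e2 := hnat.eventually_ge_atTop ((4 : ℝ) ^ (2 * J * (3 * P.thp + 1)))
  have e3 : ∀ᶠ u : ℕ in Filter.atTop, 34 * (u : ℝ) ^ (-(2 * s * P.pf)) ≤ 1 := by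
    have h1 : 0 < 2 * s * P.pf := by positivity
    have h2 := ((tendsto_rpow_neg_atTop h1).comp hnat).const_mul 34
    rw [mul_zero] at h2
    exact (h2.eventually (gt_mem_nhds one_pos)).mono fun u hu => le_of_lt hu
  have e4 : ∀ᶠ u : ℕ in Filter.atTop, 8 ≤ u := Filter.eventually_ge_atTop 8
  have e5 : ∀ᶠ u : ℕ in Filter.atTop, v0 ≤ u := Filter.eventually_ge_atTop v0
  have key : ∀ u : ℕ, 8 ≤ u → 4 * u ^ 2 ≤ 2 ^ u := fun u hu => H30.sq_le_two_pow hu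
  have e6 : ∀ᶠ u : ℕ in Filter.atTop, 2 * Nat.clog 2 u + 1 ≤ u := by
    filter_upwards [e4] with u hu
    have h1 : u ≤ 2 ^ ((u - 1) / 2) := by
      rcases Nat.lt_or_ge u 18 with h | h
      · interval_cases u <;> norm_num
      · have h2 := key ((u - 1) / 2) (by omega)
        have h3 : u ≤ 4 * ((u - 1) / 2) ^ 2 := by
          have h4 : u ≤ 2 * ((u - 1) / 2) + 2 := by omega
          nlinarith [Nat.zero_le ((u - 1) / 2)]
        exact h3.trans h2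
    have h2 := (Nat.clog_le_iff_le_pow (b := 2) (by norm_num)).2 h1
    omega
  obtain ⟨u0, hu0⟩ := Filter.eventually_atTop.1
    (e1.and (e2.and (e3.and (e4.and (e5.and e6)))))
  refine ⟨u0, fun u hu => ?_⟩
  obtain ⟨h1, h2, h3, h4, h5, h6⟩ := hu0 u hu
  refine ⟨hv0 u h5, h1, h6, ?_, h2, h3, ?_⟩
  · calc (3 * (q : ℝ) + 10) * Real.logb 2 u ≤ J * (2 * s * P.thp) * Real.logb 2 u :=
          mul_le_mul_of_nonneg_right hJ (by linarith)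
      _ = _ := by ring
  · have h7 := key u h4
    have h8 : ((4 * u ^ 2 : ℕ) : ℝ) ≤ ((2 ^ u : ℕ) : ℝ) := by exact_mod_cast h7
    push_cast at h8
    have h9 : (u : ℝ) ^ (2 : ℝ) = (u : ℝ) ^ 2 := by norm_num
    rw [h9]
    nlinarith [sq_nonneg (u : ℝ)]

end

end Vale.Agent.P159.H972
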