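import Vale.Agent.P159.H972.Lk6
import Vale.Agent.P159.H692.LkV

/-!
P159 / LINKW with a sharp rate (helper972): the chain with the finer smoothing `2 ^ (u - 4 clog u)`
and all the errors of the size `u ^ (-θ)`, the start of the chain as a hypothesis.
-/

set_option linter.unusedSectionVars false

namespace Vale.Agent.P159.H972

open Finset Matrix
open Vale.Agent.P159.H37
open Vale.Agent.P159.TM.H764 (EE hatu)
open Vale.Agent.P159.TM.Spec (V)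
open Vale.Agent.P159.H864 (TI sym hsq hsq_nonneg lapM ti_lapM sym_lapM qf_eq_sum sum_hsq qf_lapM)
open Vale.Agent.P159.H963 (Gn Pin ti_Gn)
open Vale.Agent.P159.H859 (lapz enz gdz Fsu smz pf smz_ne smz_fsu pf_fsu enz_smz_le enz_diff enz_up
  le_enz enz_trz)
open Vale.Agent.P159.H692 (Xf Xf_eq PrF lk3s eS fv KTv KDv)

noncomputable section

/-- the start of the chain -/
def KXv (P : Par) (b θ Cx : ℝ) (ε a : ℕ → ℝ) (u : ℕ) : Prop :=
  Xf (2 ^ tor P ε u 0) b (tn u) (a u) (em (2 ^ tor P ε u 0) (fv u)) ≤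
    Cx * (u : ℝ) ^ (-θ) * 4 ^ u

/-! ### the function -/

lemma fv_fit {u r : ℕ} (hr : u + 3 ≤ r) : Fit (2 ^ r) (fv u) := by
  have h1 : 2 ^ (u - 4 * Nat.clog 2 u) ≤ 2 ^ u := Nat.pow_le_pow_right (by norm_num) (by omega)
  have h2 : 2 ^ (u + 3) ≤ 2 ^ r := Nat.pow_le_pow_right (by norm_num) hr
  have h3 : 2 ^ (u + 3) = 8 * 2 ^ u := by rw [pow_add]; ring
  have h4 : 0 < 2 ^ u := Nat.two_pow_pos u
  have h1' : ((2 ^ (u - 4 * Nat.clog 2 u) : ℕ) : ℤ) ≤ ((2 ^ u : ℕ) : ℤ) := by exact_mod_cast h1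
  have h2' : 8 * ((2 ^ u : ℕ) : ℤ) ≤ ((2 ^ r : ℕ) : ℤ) := by
    rw [h3] at h2
    exact_mod_cast h2
  have h4' : (0 : ℤ) < ((2 ^ u : ℕ) : ℤ) := by exact_mod_cast h4
  have h5 : (2 : ℤ) ^ u = ((2 ^ u : ℕ) : ℤ) := by push_cast; rfl
  refine fit_smz ?_ ?_ ?_ ?_ <;> rw [h5] <;> omega

lemma Dv_le (u : ℕ) : enz (fv u) ≤ enz (pf (4 * 2 ^ u) (4 * 2 ^ u) ((2 ^ u : ℕ) : ℤ)) :=
  enz_smz_le (pf_fsu _ _ _) Nat.one_le_two_pow

lemma Dv_le' (u : ℕ) : enz (fv u) ≤ 16 * 4 ^ u := by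
  have h := enz_smz_up (4 * 2 ^ u) (4 * 2 ^ u) (p := 2 ^ u)
    (s := 2 ^ (u - 4 * Nat.clog 2 u)) Nat.one_le_two_pow Nat.one_le_two_pow
  refine h.trans (le_of_eq ?_)
  push_cast
  rw [← pow_mul, mul_comm u 2, pow_mul]
  norm_num

lemma Fv_le (u : ℕ) : ∑' c, fv u c ^ 2 ≤ 16 * 16 ^ u := by
  have h := sq_smz (4 * 2 ^ u) (4 * 2 ^ u) (p := 2 ^ u) (s := 2 ^ (u - 4 * Nat.clog 2 u))
    Nat.one_le_two_pow Nat.one_le_two_pow (Nat.pow_le_pow_right (by norm_num) (by omega))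
  refine h.trans (le_of_eq ?_)
  push_cast
  rw [← pow_mul, mul_comm u 4, pow_mul]
  norm_num

lemma Fv_nonneg (u : ℕ) : 0 ≤ ∑' c, fv u c ^ 2 := tsum_nonneg fun _ => sq_nonneg _

lemma Dv_nonneg (u : ℕ) : 0 ≤ enz (fv u) := tsum_nonneg fun c => H859.gdz_nonneg _ c

/-- `t F ≤ 16 * 4 ^ u` above the start level -/
lemma tFv_le {u n : ℕ} (h : u ≤ n) : tn n * ∑' c, fv u c ^ 2 ≤ 16 * 4 ^ u := by
  have h1 : tn n ≤ ((4 : ℝ) ^ u)⁻¹ := by
    unfold tn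
    exact inv_anti₀ (by positivity) (pow_le_pow_right₀ (by norm_num) h)
  calc tn n * ∑' c, fv u c ^ 2 ≤ ((4 : ℝ) ^ u)⁻¹ * (16 * 16 ^ u) :=
        mul_le_mul h1 (Fv_le u) (Fv_nonneg u) (by positivity)
    _ = 16 * 4 ^ u := by
        have : (16 : ℝ) ^ u = 4 ^ u * 4 ^ u := by rw [← mul_pow]; norm_num
        rw [this]
        field_simp

/-- the error of one window, in numbers -/
lemma eS_lev {C au b c1 D F t E U dd kk w X : ℝ} (hb : 0 < b) (hc1 : 0 ≤ c1)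
    (hE0 : 0 ≤ E) (hE : E ≤ w) (hU : U ^ 2 ≤ w) (hw0 : 0 ≤ w) (hw1 : w ≤ 1)
    (hF0 : 0 ≤ t * F) (hF : t * F ≤ 16 * X) (hD0 : 0 ≤ D) (hD : D ≤ 16 * X)
    (hdd : dd ≤ w * X) (hkk : kk ≤ w * X) (ha2 : au ≤ 2) :
    eS C au (1 / b) c1 D F t (34 * E + 8 * U) (34 * E) dd kk ≤
      (C ^ 2 + 2 * b ^ 2 * (39040 + 544 * (2 + c1)) + 1) * (w * X) := by
  unfold eS
  have t6 : 2 / (1 / b) ^ 2 = 2 * b ^ 2 := by field_simp
  rw [t6]
  have hEE : E ^ 2 ≤ w := by nlinarith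
  have t1 : C ^ 2 * dd ≤ C ^ 2 * (w * X) := mul_le_mul_of_nonneg_left hdd (sq_nonneg C)
  have w2 : (34 * E + 8 * U) ^ 2 ≤ 2440 * w := by nlinarith [sq_nonneg (34 * E - 8 * U)]
  have t3 : (34 * E + 8 * U) ^ 2 * (t * F) ≤ 2440 * w * (16 * X) :=
    mul_le_mul w2 hF hF0 (by positivity)
  have t4 : (au + c1) * (34 * E) * D ≤ (2 + c1) * (34 * w) * (16 * X) :=
    mul_le_mul (mul_le_mul (by linarith) (by linarith) (by positivity) (by linarith)) hD hD0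
      (by positivity)
  have t7 := mul_le_mul_of_nonneg_left (add_le_add t3 t4) (by positivity : 0 ≤ 2 * b ^ 2)
  have t8 : (C ^ 2 + 2 * b ^ 2 * (39040 + 544 * (2 + c1)) + 1) * (w * X) =
      C ^ 2 * (w * X) + 2 * b ^ 2 * (2440 * w * (16 * X) + (2 + c1) * (34 * w) * (16 * X)) +
        w * X := by ring
  rw [t8]
  exact add_le_add (add_le_add t1 t7) hkk

variable {P : Par} {b s : ℝ} {N0 : ℕ} {ε Y a : ℕ → ℝ}

lemma clog_inv2 {u : ℕ} (hu : 1 ≤ u) {θ : ℝ} (hθ : θ ≤ 2) :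
    ((4 : ℝ) ^ Nat.clog 2 u)⁻¹ ≤ (u : ℝ) ^ (-θ) := by
  have hu1 : (1 : ℝ) ≤ u := by exact_mod_cast hu
  have hu0 : (0 : ℝ) < u := by linarith
  have w8 : (u : ℝ) ^ 2 ≤ 4 ^ Nat.clog 2 u := by
    calc (u : ℝ) ^ 2 ≤ (2 ^ Nat.clog 2 u) ^ 2 := pow_le_pow_left₀ hu0.le (clog_ge u) 2
      _ = _ := by
        rw [← pow_mul, mul_comm, pow_mul]
        norm_num
  have w9 : ((4 : ℝ) ^ Nat.clog 2 u)⁻¹ ≤ ((u : ℝ) ^ 2)⁻¹ := inv_anti₀ (by positivity) w8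
  refine w9.trans ?_
  have e : ((u : ℝ) ^ 2)⁻¹ = (u : ℝ) ^ (-2 : ℝ) := by
    rw [Real.rpow_neg hu0.le]
    norm_num
  rw [e]
  exact Real.rpow_le_rpow_of_exponent_le hu1 (by linarith)

/-- the constant of the chain -/
def Rv (b c1 C Cx : ℝ) (J : ℕ) : ℝ :=
  Cx + J * (C ^ 2 + 2 * b ^ 2 * (39040 + 544 * (2 + c1)) + 1) + 16

/-- **the neutral covariance at the end of the chain**, sharp errors -/
theorem chain_end_v (h : Chn P b s N0 ε Y a) {c1 p p3 C1 θ Cx : ℝ} (hc1 : 1 ≤ c1)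
    (hK1 : KP P b c1 N0 ε a) (hK2 : KTv P b p C1 N0 ε) (hK3 : KDv P b p3 N0 ε)
    (hθ : 0 ≤ θ) (hθ2 : θ ≤ 3 / 2) (hθ1 : θ ≤ 2 * s * P.pf) (hθp : θ ≤ p) (hp3 : 0 ≤ p3)
    (hθ3 : θ ≤ 2 * s * p3)
    {J q u : ℕ} (hL : Lg2 P s N0 J q u) (hJ : (J : ℝ) * P.thp ≤ 2 * q + 8)
    (hC1 : 12 * (q : ℝ) + 49 ≤ C1) {C : ℝ} (hC : 1 ≤ C) (hCb : 2 * b ≤ C) (hCx : 0 ≤ Cx)
    (hX : KXv P b θ Cx ε a u) :
    qf (Gm (wt (2 ^ tor P ε u J) b (tn (lev P ε u J))))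
      (lapM *ᵥ em (2 ^ tor P ε u J) (fv u)) ≤
      enz (fv u) / a u + Rv b c1 C Cx J * (u : ℝ) ^ (-θ) * 4 ^ u := by
  have hu := hL.lrg.u0
  have hb := h.hb
  have hn0 := h.npos hu
  have hpf0 := h.adm.pf0
  have hpf1 := h.adm.pf1
  have hs1 := h.s1
  have hs2 := h.s2
  have hthp := P.thp0
  obtain ⟨ha1, ha2⟩ := h.a1 u hu
  have hu1' : 1 ≤ u := by
    have := h.n0
    omega
  have hu1 : (1 : ℝ) ≤ u := by exact_mod_cast hu1'
  set v : ℝ := (u : ℝ) ^ (-θ) with hv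
  have hv0 : 0 < v := Real.rpow_pos_of_pos hn0 _
  have hv1 : v ≤ 1 := Real.rpow_le_one_of_one_le_of_nonpos hu1 (by linarith)
  have hge : ∀ i, u ≤ lev P ε u i := lev_ge h u
  have hN : ∀ i, N0 ≤ lev P ε u i := fun i => hu.trans (hge i)
  -- sizes
  have z1 : ∀ i, ε (lev P ε u i) ^ P.pf ≤ v := fun i =>
    h.ε_pow hu (hge i) (q := P.pf) (c := θ) hpf0.le hθ hθ1
  have z2 : ∀ i, ε (lev P ε u i) ^ p3 ≤ v := fun i =>
    h.ε_pow hu (hge i) (q := p3) (c := θ) hp3 hθ hθ3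
  have z3 : ∀ i, (lev P ε u i : ℝ) ^ (-p) ≤ v := fun i => rp_anti hu1' (hge i) hθp hθ
  have z4 : ((u : ℝ) ^ (-s)) ^ 2 ≤ v := by
    rw [← Real.rpow_natCast, ← Real.rpow_mul hn0.le]
    refine Real.rpow_le_rpow_of_exponent_le hu1 ?_
    push_cast
    linarith
  have hη0 : ∀ i, 0 ≤ 34 * ε (lev P ε u i) ^ P.pf := fun i => by
    have := (h.εpos (hN i)).le
    positivity
  -- geometry
  have htor : ∀ i, u + 3 ≤ tor P ε u i := by
    intro i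
    have h1 := tor_ge h (u := u) (i := i) hu
    have h2 := hge (i + 1)
    have h3 := h.adm.hk
    omega
  have hfit : ∀ i, Fit (2 ^ tor P ε u i) (fv u) := fun i => fv_fit (htor i)
  have key := lk3s (fun i => lev P ε u i) (fun i => tor P ε u i) (b := b) (a := a u)
    (c0 := 1 / b) (c1 := c1) (C := C) (D := enz (fv u)) (F := ∑' c, fv u c ^ 2)
    (e0 := Cx * v * 4 ^ u)
    (fun i => em (2 ^ tor P ε u i) (fv u))
    (fun i => 34 * ε (lev P ε u i) ^ P.pf + 8 * (u : ℝ) ^ (-s))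
    (fun i => 34 * ε (lev P ε u i) ^ P.pf) (fun i => ε (lev P ε u i) ^ p3 * 4 ^ u)
    (fun i => (lev P ε u (i + 1) : ℝ) ^ (-p) * 4 ^ u) hb (by linarith) (by positivity)
    (by linarith) hC (by rw [mul_one_div, le_div_iff₀ hb]; nlinarith) J
    (fun i _ => Nat.le_add_right _ _) (fun i _ => qf_em (hfit i)) (fun i _ => sum_em_sq (hfit i))
    hX (fun i _ => hη0 i)
    (fun i hi => hK1 _ (hN i) _ (tor_TT h hL.lrg (by omega)) (a u) _ (h.a_sub hu (hge i)))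
    (fun i _ k hk => H276.Pin_ge hb (tn_pos _) hk)
    (fun i _ k hk => H276.Pin_mono hb (tn_pos _) (by
      unfold tn
      exact inv_anti₀ (by positivity) (pow_le_pow_right₀ (by norm_num) (Nat.le_add_right _ _)))
      hk)
    (fun i hi => hK3 _ (hN i) _ le_rfl (by show _ + _ ≤ _; omega) _ (tor_TT h hL.lrg (by omega))
      (tor_ge h hu) u (hge i))
    (fun i hi => by
      have h1 := hK2 (lev P ε u (i + 1)) (hN _) (tor P ε u (i + 1)) (tor P ε u i)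
        (tor_TT h hL.lrg (by omega)) (tor_TT' h hL.lrg (by omega)) u (hge _)
        (by
          have := lev_two h hL.lrg (i := i + 1) (by omega)
          exact_mod_cast this)
        (four_lev h hL hJ hC1 (by omega)) (a u) (by linarith) ha2
      have := (abs_le.1 h1).2
      linarith)
  refine key.trans ?_
  -- the sum of the errors
  have hD0 := Dv_nonneg u
  have hD := Dv_le' u
  have hF0 := Fv_nonneg u
  have h4u : (0 : ℝ) < 4 ^ u := by positivity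
  have hsum : ∑ i ∈ range J, eS C (a u) (1 / b) c1 (enz (fv u)) (∑' c, fv u c ^ 2)
      (tn (lev P ε u i)) (34 * ε (lev P ε u i) ^ P.pf + 8 * (u : ℝ) ^ (-s))
      (34 * ε (lev P ε u i) ^ P.pf) (ε (lev P ε u i) ^ p3 * 4 ^ u)
      ((lev P ε u (i + 1) : ℝ) ^ (-p) * 4 ^ u) ≤
      J * ((C ^ 2 + 2 * b ^ 2 * (39040 + 544 * (2 + c1)) + 1) * (v * 4 ^ u)) := by
    refine (Finset.sum_le_sum fun i _ => eS_lev hb (by linarith)
      (Real.rpow_nonneg (h.εpos (hN i)).le _) (z1 i) z4 hv0.le hv1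
      (mul_nonneg (tn_pos _).le hF0) (tFv_le (hge i)) hD0 hD
      (mul_le_mul_of_nonneg_right (z2 i) h4u.le)
      (mul_le_mul_of_nonneg_right (z3 (i + 1)) h4u.le) ha2).trans (le_of_eq ?_)
    rw [Finset.sum_const, Finset.card_range, nsmul_eq_mul]
  -- the last mass
  have hlast : tn (lev P ε u J) * ∑' c, fv u c ^ 2 ≤ 16 * (v * 4 ^ u) :=
    last_le (lev_last h hL) (clog_inv2 hu1' (by linarith)) hF0 (Fv_le u)
  -- together
  have hR : Cx * v * 4 ^ u +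
      J * ((C ^ 2 + 2 * b ^ 2 * (39040 + 544 * (2 + c1)) + 1) * (v * 4 ^ u)) +
        16 * (v * 4 ^ u) = Rv b c1 C Cx J * v * 4 ^ u := by
    unfold Rv
    ring
  have hR0 : 0 ≤ Rv b c1 C Cx J * v * 4 ^ u := by
    unfold Rv
    positivity
  have hdiv : ∀ x : ℝ, x ≤ Rv b c1 C Cx J * v * 4 ^ u →
      x / a u ^ 2 ≤ Rv b c1 C Cx J * v * 4 ^ u := by
    intro x hx
    refine (div_le_div_of_nonneg_right hx (sq_nonneg _)).trans ?_
    exact div_le_self hR0 (one_le_pow₀ ha1)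
  refine add_le_add le_rfl (hdiv _ ?_)
  exact (add_le_add (add_le_add le_rfl hsum) hlast).trans (le_of_eq hR)

end

end Vale.Agent.P159.H972
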