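import Vale.Agent.P159.H889.Vvs
import Vale.Agent.P159.H963.LnkP
import Vale.Agent.P159.H316.Yb2
import Vale.Agent.P159.H316.Yb4

/-!
P159 / V (helper972), UP: the activities of the V states at the level `n` are at most `u n`, where
`u n` tends to zero.
-/

set_option linter.unusedSectionVars false

namespace Vale.Agent.P159.H972.Up

open Filter Topology
open Vale.Agent.P159.TM.Spec (V)
open Vale.Agent.P159.TM.SpecC (wT)
open Vale.Agent.P159.H864 (yt yt_nonneg)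
open Vale.Agent.P159.H972 (Par lg tn Good StartP TT_base)
open Vale.Agent.P159.H889 (VSs SV TV lam nu VB)
open Vale.Agent.P159.H896 (om)
open Vale.Agent.P159.H801 (FLC)
open Vale.Agent.P159.H37 (small_rpow lg_lo lg_hi)
open Vale.Agent.P159.H316 (exp_small)

noncomputable section

/-- the numbers of the V states at the level `n` in the regime `log (1 / z) ≤ e ^ (-c2)` -/
def Mem (P : Par) (b C1 A1 dl c2 : ℝ) (n : ℕ) (z : ℝ) : Prop :=
  ∃ (e : ℝ) (s : ℕ) (ζ : ℂ), 0 < e ∧ e ≤ P.es ∧ Good P b n e ∧ VSs P b C1 A1 dl n e z s ζ ∧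
    z ^ (39 / 20 : ℝ) ≤ e ∧ Real.log (1 / z) ≤ e ^ (-c2)

/-- the largest activity at the level `n` -/
def uS (P : Par) (b C1 A1 dl c2 : ℝ) (n : ℕ) : ℝ := sSup {z | Mem P b C1 A1 dl c2 n z}

variable {P : Par} {b C1 A1 dl c2 : ℝ} {n : ℕ}

lemma Mem.z0 {z : ℝ} (h : Mem P b C1 A1 dl c2 n z) : 0 < z := by
  obtain ⟨e, s, ζ, -, -, -, hV, -⟩ := h
  exact hV.z0

lemma Mem.z1 {z : ℝ} (h : Mem P b C1 A1 dl c2 n z) : z ≤ 1 := by
  obtain ⟨e, s, ζ, he, hes, -, hV, hz, -⟩ := h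
  by_contra hc
  push Not at hc
  have h1 : 1 < z ^ (39 / 20 : ℝ) := Real.one_lt_rpow hc (by norm_num)
  have h2 : e ≤ 1 := hes.trans (P.es1.trans (by norm_num))
  linarith

lemma le_uS {z : ℝ} (h : Mem P b C1 A1 dl c2 n z) : z ≤ uS P b C1 A1 dl c2 n :=
  le_csSup ⟨1, fun _ hx => hx.z1⟩ h

/-- the form of the master theorem -/
lemma le_up {z e x : ℝ} (h : Mem P b C1 A1 dl c2 n z) (he : 0 < e) (he1 : e ≤ 1) (hx : 0 ≤ x) :
    z ≤ e ^ (-x) * uS P b C1 A1 dl c2 n := by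
  have h1 := le_uS h
  have h2 : 1 ≤ e ^ (-x) := Real.one_le_rpow_of_pos_of_le_one_of_nonpos he he1 (by linarith)
  have h3 : 0 ≤ uS P b C1 A1 dl c2 n := h.z0.le.trans h1
  calc z ≤ 1 * uS P b C1 A1 dl c2 n := by rw [one_mul]; exact h1
    _ ≤ _ := mul_le_mul_of_nonneg_right h2 h3

lemma uS_nonneg : 0 ≤ uS P b C1 A1 dl c2 n := Real.sSup_nonneg fun _ hx => hx.z0.le

lemma uS_le {δ : ℝ} (hδ : 0 ≤ δ) (h : ∀ z, Mem P b C1 A1 dl c2 n z → z ≤ δ) :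
    uS P b C1 A1 dl c2 n ≤ δ := Real.sSup_le h hδ

/-- scalar part -/
lemma up_sc {z e th X Y ω C y Ex : ℝ} (he : 0 < e) (hz : 0 < z)
    (hX : X ≤ 4 * e ^ (-(2 * th))) (hY0 : 0 ≤ Y)
    (hL : z ≤ e ^ (-th) * (ω + X * (z * e ^ (7 / 8 : ℝ)) + z * e ^ (439 / 500 : ℝ)))
    (hω : ω ≤ X * Y) (hY : Y ≤ C * (y + Ex))
    (n1 : e ^ (-th) * (4 * e ^ (-(2 * th)) * e ^ (7 / 8 : ℝ) + e ^ (439 / 500 : ℝ)) ≤ 1 / 4)
    (n2 : e ^ (-th) * (4 * e ^ (-(2 * th))) * (C * Ex) ≤ z / 4) :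
    z ≤ 8 * C * e ^ (-(3 * th)) * y := by
  obtain ⟨p, hp⟩ : ∃ p, p = e ^ (-th) := ⟨_, rfl⟩
  obtain ⟨q, hq⟩ : ∃ q, q = e ^ (-(2 * th)) := ⟨_, rfl⟩
  obtain ⟨u, hu⟩ : ∃ u, u = e ^ (7 / 8 : ℝ) := ⟨_, rfl⟩
  obtain ⟨v, hv⟩ : ∃ v, v = e ^ (439 / 500 : ℝ) := ⟨_, rfl⟩
  have hp0 : 0 < p := by rw [hp]; exact Real.rpow_pos_of_pos he _
  have hq0 : 0 < q := by rw [hq]; exact Real.rpow_pos_of_pos he _
  have hu0 : 0 < u := by rw [hu]; exact Real.rpow_pos_of_pos he _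
  have hv0 : 0 < v := by rw [hv]; exact Real.rpow_pos_of_pos he _
  have hpq : e ^ (-(3 * th)) = p * q := by
    rw [hp, hq, ← Real.rpow_add he]
    congr 1
    ring
  rw [hpq]
  rw [← hp, ← hu, ← hv] at hL
  rw [← hp, ← hq, ← hu, ← hv] at n1
  rw [← hp, ← hq] at n2
  rw [← hq] at hX
  have h1 : ω ≤ 4 * q * (C * (y + Ex)) := by
    refine hω.trans ?_
    exact mul_le_mul hX hY hY0 (by positivity)
  have h2 : X * (z * u) ≤ 4 * q * (z * u) := mul_le_mul_of_nonneg_right hX (by positivity)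
  have h3 : z ≤ p * (4 * q * (C * (y + Ex)) + 4 * q * (z * u) + z * v) := by
    refine hL.trans (mul_le_mul_of_nonneg_left (by linarith) hp0.le)
  have h4 : p * (4 * q * (C * (y + Ex)) + 4 * q * (z * u) + z * v) =
      4 * C * (p * q) * y + p * (4 * q) * (C * Ex) + z * (p * (4 * q * u + v)) := by ring
  rw [h4] at h3
  have h5 : z * (p * (4 * q * u + v)) ≤ z * (1 / 4) := mul_le_mul_of_nonneg_left n1 hz.le
  linarith

/-- from `x ^ c ≤ 2 ^ s / 2 ^ n` to the number of scales -/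
lemma cells_up {x c : ℝ} {n s : ℕ} (hx : 0 < x) (h : x ^ c ≤ lam n s) :
    ((n : ℝ) - s) * Real.log 2 ≤ c * (-Real.log x) := by
  have h1 := Real.log_le_log (Real.rpow_pos_of_pos hx _) h
  unfold lam at h1
  rw [Real.log_rpow hx, Real.log_div (by positivity) (by positivity), Real.log_pow,
    Real.log_pow] at h1
  linarith

/-- the number of scales of the cells -/
lemma ns_le {e z C1 K' : ℝ} {n s : ℕ} (he : 0 < e) (hz0 : 0 < z)
    (hs1 : (e * z) ^ (9 / 8 * C1) ≤ lam n s) (hHV : Real.log (1 / z) ≤ e ^ (-(1 / 4 : ℝ)))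
    (hC1 : 0 ≤ C1) (hCK : C1 ≤ K') (q3 : 6 * K' * e ^ (1 / 4 : ℝ) ≤ 1 / 2) :
    (n : ℝ) - s ≤ e ^ (-(1 / 2 : ℝ)) := by
  have h3 := cells_up (mul_pos he hz0) hs1
  rw [Real.log_mul he.ne' hz0.ne'] at h3
  have h4 : -Real.log z ≤ e ^ (-(1 / 4 : ℝ)) := by
    have h5 : Real.log (1 / z) = -Real.log z := by rw [one_div, Real.log_inv]
    rw [← h5]
    exact hHV
  have h5 : -Real.log e ≤ 4 * e ^ (-(1 / 4 : ℝ)) := by
    have h6 := Real.log_le_rpow_div (x := 1 / e) (by positivity)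
      (show (0 : ℝ) < 1 / 4 by norm_num)
    rw [one_div, Real.log_inv, Real.inv_rpow he.le, ← Real.rpow_neg he.le] at h6
    linarith
  have hl2 := Real.log_two_gt_d9
  have hp : 0 < e ^ (-(1 / 4 : ℝ)) := Real.rpow_pos_of_pos he _
  have h6 : ((n : ℝ) - s) * Real.log 2 ≤ 6 * K' * e ^ (-(1 / 4 : ℝ)) := by
    calc ((n : ℝ) - s) * Real.log 2 ≤ 9 / 8 * C1 * (-(Real.log e + Real.log z)) := h3
      _ ≤ 9 / 8 * C1 * (5 * e ^ (-(1 / 4 : ℝ))) :=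
        mul_le_mul_of_nonneg_left (by linarith) (by linarith)
      _ = 45 / 8 * (C1 * e ^ (-(1 / 4 : ℝ))) := by ring
      _ ≤ 6 * (K' * e ^ (-(1 / 4 : ℝ))) := by
        have h7 : C1 * e ^ (-(1 / 4 : ℝ)) ≤ K' * e ^ (-(1 / 4 : ℝ)) :=
          mul_le_mul_of_nonneg_right hCK hp.le
        have h8 : 0 ≤ C1 * e ^ (-(1 / 4 : ℝ)) := mul_nonneg hC1 hp.le
        linarith
      _ = _ := by ring
  have h7 : 6 * K' * e ^ (-(1 / 4 : ℝ)) ≤ 1 / 2 * e ^ (-(1 / 2 : ℝ)) := by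
    have e2 : e ^ (-(1 / 4 : ℝ)) = e ^ (1 / 4 : ℝ) * e ^ (-(1 / 2 : ℝ)) := by
      rw [← Real.rpow_add he]
      norm_num
    rw [e2, ← mul_assoc]
    exact mul_le_mul_of_nonneg_right q3 (Real.rpow_nonneg he.le _)
  have hp2 : 0 < e ^ (-(1 / 2 : ℝ)) := Real.rpow_pos_of_pos he _
  by_contra hcc
  push Not at hcc
  have h8 : e ^ (-(1 / 2 : ℝ)) * Real.log 2 < ((n : ℝ) - s) * Real.log 2 :=
    mul_lt_mul_of_pos_right hcc (by linarith)
  have h9 : 1 / 2 * e ^ (-(1 / 2 : ℝ)) ≤ e ^ (-(1 / 2 : ℝ)) * Real.log 2 := by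
    rw [mul_comm]
    exact mul_le_mul_of_nonneg_left (by linarith) hp2.le
  linarith

/-- the finite size error is absorbed by the lower bound on the activity -/
lemma z_low {e z c C th : ℝ} (he : 0 < e) (hz0 : 0 < z) (hC : 0 ≤ C)
    (hHV : Real.log (1 / z) ≤ e ^ (-(th / 2))) (q4 : e ^ (th / 2) ≤ c / 2)
    (q5 : 16 * C * Real.exp (-(c / 2 * e ^ (-th))) ≤ e ^ (3 * th)) :
    16 * C * Real.exp (-(c * e ^ (-th))) * e ^ (-(3 * th)) ≤ z := by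
  have hT : e ^ (-(th / 2)) ≤ c / 2 * e ^ (-th) := by
    have e2 : e ^ (-(th / 2)) = e ^ (th / 2) * e ^ (-th) := by
      rw [← Real.rpow_add he]
      congr 1
      ring
    rw [e2]
    exact mul_le_mul_of_nonneg_right q4 (Real.rpow_nonneg he.le _)
  have h3 : Real.exp (-(c * e ^ (-th))) ≤
      Real.exp (-(c / 2 * e ^ (-th))) * Real.exp (-(e ^ (-(th / 2)))) := by
    rw [← Real.exp_add]
    apply Real.exp_le_exp.2
    linarith
  have h4 : Real.exp (-(e ^ (-(th / 2)))) ≤ z := by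
    have h5 : Real.log (1 / z) = -Real.log z := by rw [one_div, Real.log_inv]
    rw [h5] at hHV
    rw [← Real.le_log_iff_exp_le hz0]
    linarith
  have h5 : 0 < e ^ (-(3 * th)) := Real.rpow_pos_of_pos he _
  have h6 : e ^ (3 * th) * e ^ (-(3 * th)) = 1 := by
    rw [← Real.rpow_add he, add_neg_cancel, Real.rpow_zero]
  have hA := Real.exp_pos (-(e ^ (-(th / 2))))
  calc 16 * C * Real.exp (-(c * e ^ (-th))) * e ^ (-(3 * th))
      ≤ 16 * C * (Real.exp (-(c / 2 * e ^ (-th))) * Real.exp (-(e ^ (-(th / 2))))) *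
        e ^ (-(3 * th)) :=
        mul_le_mul_of_nonneg_right (mul_le_mul_of_nonneg_left h3 (by linarith)) h5.le
    _ = (16 * C * Real.exp (-(c / 2 * e ^ (-th)))) * e ^ (-(3 * th)) *
        Real.exp (-(e ^ (-(th / 2)))) := by ring
    _ ≤ e ^ (3 * th) * e ^ (-(3 * th)) * Real.exp (-(e ^ (-(th / 2)))) :=
        mul_le_mul_of_nonneg_right (mul_le_mul_of_nonneg_right q5 h5.le) hA.le
    _ = Real.exp (-(e ^ (-(th / 2)))) := by rw [h6, one_mul]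
    _ ≤ z := h4

/-- one state: (L) of LINK at the base torus and the volume dependence of the core number -/
lemma mem_core {c1 C c K Y z e : ℝ} {s : ℕ} {ζ : ℂ} (hb : 0 < b) (hC : 0 < C)
    (hc1t : 4 * c1 ≤ P.th) (hth1 : P.th ≤ 1 / 32) (hC0 : 2 ≤ P.C0) (hCC : P.C0 ≤ C1)
    (hCK : C1 ≤ K * P.C0) (he : 0 < e) (hee : e ≤ P.es) (hGe : Good P b n e)
    (hV : VSs P b C1 A1 dl n e z s ζ) (hz1 : z ≤ 1)
    (hHV : Real.log (1 / z) ≤ e ^ (-(2 * c1)))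
    (q1 : 5 * e ^ (3 / 4 : ℝ) ≤ 1 / 4) (q2 : 4 * e ^ (3 / 16 : ℝ) ≤ 1)
    (q3 : 6 * (K * P.C0) * e ^ (1 / 4 : ℝ) ≤ 1 / 2) (q4 : e ^ (P.th / 2) ≤ c / 2)
    (q5 : 16 * C * Real.exp (-(c / 2 * e ^ (-P.th))) ≤ e ^ (3 * P.th))
    (hl1 : ∀ (ε e : ℝ) (r s : ℕ)
        [NeZero (2 ^ r / 2 ^ s)], 0 < ε → ε ≤ e → e ≤ P.es → Good P b n ε → P.TT n e r →
        (2 : ℝ) ^ s / 2 ^ n ≤ e ^ (2 : ℝ) → (n : ℝ) - s ≤ e ^ (-(1 / 2 : ℝ)) →
        ∀ (z : ℂ) (Δ ηc Lp E K K' : ℝ) (D : ℕ),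
          H889.VB (2 ^ r) (2 ^ s) b (tn n) (z * ((tn n * ((2 ^ s : ℕ) : ℝ) ^ 2 : ℝ) : ℂ))
            (Δ * (tn n * ((2 ^ s : ℕ) : ℝ) ^ 2)) D ηc Lp E K K' →
          ‖z‖ ≤ e ^ (-(1 * P.th)) *
            (om (wT b (2 ^ r)) (tn n • (1 : Matrix (V (2 ^ r)) (V (2 ^ r)) ℝ)) 1
              + (4 : ℝ) ^ r / 4 ^ n * Δ + E))
    (hY : yt (2 ^ (n + P.kE e)) b (4 * tn n) ≤ C * (Y + Real.exp (-(c * e ^ (-P.th))))) :
    z ≤ 8 * C * e ^ (-(3 * P.th)) * Y := by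
  have hth := P.th0
  have hz0 := hV.z0
  have he1 : e ≤ 1 := hee.trans (P.es1.trans (by norm_num))
  -- the torus
  have hTT := TT_base P n e
  have hsn : lam n s ≤ e ^ (2 : ℝ) := by
    refine hV.s2.trans ?_
    calc (e * z) ^ C1 ≤ e ^ C1 :=
          Real.rpow_le_rpow (by positivity) (by nlinarith) (by linarith)
      _ ≤ e ^ (2 : ℝ) := Real.rpow_le_rpow_of_exponent_ge he he1 (by linarith)
  have hsn' : s ≤ n := by
    by_contra hcc
    push Not at hcc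
    have h3 : (2 : ℝ) ^ n < 2 ^ s := pow_lt_pow_right₀ (by norm_num) hcc
    have h4 : 1 < lam n s := by
      unfold lam
      rw [one_lt_div (by positivity)]
      exact h3
    have h5 : e ^ (2 : ℝ) ≤ 1 := Real.rpow_le_one he.le he1 (by norm_num)
    linarith
  have : NeZero (2 ^ (n + P.kE e) / 2 ^ s) := ⟨(Nat.div_pos
    (Nat.pow_le_pow_right (by norm_num) (by omega)) (by positivity)).ne'⟩
  have hns : (n : ℝ) - s ≤ e ^ (-(1 / 2 : ℝ)) := by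
    refine ns_le he hz0 hV.s1 (hHV.trans ?_) (by linarith) hCK q3
    exact Real.rpow_le_rpow_of_exponent_ge he he1 (by linarith)
  -- (L)
  obtain ⟨Lp, hVB⟩ := hV.sv (n + P.kE e) ⟨le_rfl, Nat.le_add_right _ _⟩
  have hL := hl1 e e (n + P.kE e) s he le_rfl hee hGe hTT hsn hns ζ
    (z * e ^ (7 / 8 : ℝ)) _ Lp _ _ _ _ hVB
  rw [hV.nz, one_mul] at hL
  have hX : (4 : ℝ) ^ (n + P.kE e) / 4 ^ n = 4 ^ P.kE e := by
    rw [pow_add]
    field_simp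
  rw [hX] at hL
  have hXle : (4 : ℝ) ^ P.kE e ≤ 4 * e ^ (-(2 * P.th)) := by
    have h3 : (2 : ℝ) ^ P.kE e ≤ 2 * e ^ (-P.th) := lg_hi (c := P.th) hth.le he he1
    have h4 : (4 : ℝ) ^ P.kE e = (2 ^ P.kE e) ^ 2 := by
      rw [← pow_mul, mul_comm, pow_mul]
      norm_num
    have h5 : e ^ (-(2 * P.th)) = (e ^ (-P.th)) ^ 2 := by
      rw [← Real.rpow_natCast, ← Real.rpow_mul he.le]
      congr 1
      push_cast
      ring
    rw [h4, h5]
    calc ((2 : ℝ) ^ P.kE e) ^ 2 ≤ (2 * e ^ (-P.th)) ^ 2 :=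
          pow_le_pow_left₀ (by positivity) h3 2
      _ = _ := by ring
  -- the volume
  have htn := H972.tn_pos n
  have hYy0 : 0 ≤ yt (2 ^ (n + P.kE e)) b (4 * tn n) := yt_nonneg hb.le (by positivity)
  have hN : tn n * ((2 ^ (n + P.kE e) : ℕ) : ℝ) ^ 2 = 4 ^ P.kE e := H972.tn_mul n (P.kE e)
  have hyt1 : yt (2 ^ (n + P.kE e)) b (tn n) ≤ e ^ (1 / 4 : ℝ) := by
    obtain ⟨τ, a', -, -, hGP⟩ := hGe
    have h3 := ((hGP e le_rfl hee).rng _ (Or.inl hTT)).1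
    unfold H972.RNG at h3
    exact H316.yt_of_rng h3
  have hsmall : tn n * ((2 ^ (n + P.kE e) : ℕ) : ℝ) ^ 2 *
      yt (2 ^ (n + P.kE e)) b (tn n) ≤ 1 := by
    rw [hN]
    calc (4 : ℝ) ^ P.kE e * yt (2 ^ (n + P.kE e)) b (tn n)
        ≤ 4 * e ^ (-(2 * P.th)) * e ^ (1 / 4 : ℝ) :=
          mul_le_mul hXle hyt1 (yt_nonneg hb.le htn) (by positivity)
      _ = 4 * e ^ (-(2 * P.th) + 1 / 4) := by rw [mul_assoc, ← Real.rpow_add he]
      _ ≤ 4 * e ^ (3 / 16 : ℝ) := by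
          refine mul_le_mul_of_nonneg_left ?_ (by norm_num)
          exact Real.rpow_le_rpow_of_exponent_ge he he1 (by linarith)
      _ ≤ 1 := q2
  have hom := (H316.om_le_yt (N := 2 ^ (n + P.kE e)) hb htn hsmall).2
  rw [hN] at hom
  have hz4 := z_low he hz0 hC.le (hHV.trans
    (Real.rpow_le_rpow_of_exponent_ge he he1 (by linarith))) q4 q5
  have hpq : e ^ (-P.th) * (4 * e ^ (-(2 * P.th))) = 4 * e ^ (-(3 * P.th)) := by
    rw [show -(3 * P.th) = -P.th + -(2 * P.th) by ring, Real.rpow_add he]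
    ring
  refine up_sc (C := C) (y := Y) (Ex := Real.exp (-(c * e ^ (-P.th)))) he hz0 hXle hYy0 hL
    ?_ hY ?_ ?_
  · have h3 := H316.yt_four (N := 2 ^ (n + P.kE e)) hb htn
    have h4 : (0 : ℝ) ≤ 4 ^ P.kE e := by positivity
    have h5 := mul_le_mul_of_nonneg_left h3 h4
    linarith
  · have e3 : e ^ (-P.th) * (4 * e ^ (-(2 * P.th)) * e ^ (7 / 8 : ℝ) + e ^ (439 / 500 : ℝ)) =
        4 * e ^ (-(3 * P.th) + 7 / 8) + e ^ (-P.th + 439 / 500) := by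
      rw [Real.rpow_add he, Real.rpow_add he]
      have := hpq
      linear_combination (e ^ (7 / 8 : ℝ)) * this
    rw [e3]
    have h3 : e ^ (-(3 * P.th) + 7 / 8) ≤ e ^ (3 / 4 : ℝ) :=
      Real.rpow_le_rpow_of_exponent_ge he he1 (by linarith)
    have h4 : e ^ (-P.th + 439 / 500) ≤ e ^ (3 / 4 : ℝ) :=
      Real.rpow_le_rpow_of_exponent_ge he he1 (by linarith)
    linarith
  · rw [hpq]
    linarith

/-- **UP**: the activities of the V states tend to zero -/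
theorem uS_ev {b1 b2 pf K : ℝ} {Q : ℕ} (hb1 : 0 < b1) (h1 : b1 ≤ b) (h2 : b ≤ b2)
    (hel : helicity b = 2 / Real.pi) (hpf : 1 / 2 < pf) (hpf1 : pf ≤ 1) :
    H801.Ev b1 b2 pf Q fun P c1 => 0 < c1 ∧ 4 * c1 ≤ P.th ∧ ∀ C1 : ℝ, 1 ≤ C1 → P.C0 ≤ C1 →
      C1 ≤ K * P.C0 → ∀ (A1 dl : ℝ) (a : ℕ → ℝ), FLC P b a → Tendsto a atTop (𝓝 (Real.pi / 2)) →
      StartP P b → Tendsto (uS P b C1 A1 dl (2 * c1)) atTop (𝓝 0) := by
  have hb : 0 < b := hb1.trans_le h1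
  have hpi := Real.pi_gt_three
  have hpi2 := Real.pi_lt_d2
  obtain ⟨c', hc', i0, hstart⟩ := H280.start_yt hb (by rw [hel]; positivity) (by
    rw [hel, one_div_div]; linarith)
  obtain ⟨W0, hcore⟩ := H316.good_core hb1 b2
  obtain ⟨c, C, hc, hC, hcore⟩ := hcore W0 le_rfl
  have hlink := LNK.link_Ev (b1 := b1) (b2 := b2) (pf := pf) (C1 := 2) (k := 1) (Q := Q)
    (hb.trans_le h2) hpf hpf1 (by linarith) (by norm_num) one_pos
  have hnums : H801.Ev b1 b2 pf Q fun P c1 => 0 < c1 ∧ 4 * c1 ≤ P.th ∧ P.th ≤ 1 / 32 ∧ 2 ≤ P.C0 ∧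
      P.pf = pf ∧ (∃ es, P.es ≤ es ∧ es ≤ 1 / 4 ∧ ∀ (P' : Par) (b : ℝ) (a : ℕ → ℝ), P'.Adm →
        P'.th = P.th → P'.es ≤ es → 1 / 4 ≤ P'.pf → b1 ≤ b → b ≤ b2 → FLC P' b a →
        Tendsto a atTop (𝓝 (Real.pi / 2)) →
        ∀ᶠ n in atTop, ∀ ε, 0 < ε → ε ≤ P'.es → Good P' b n ε → ∀ y, 0 < y →
          y ≤ 4 * ε ^ (1 / 4 : ℝ) → yt (2 ^ (n + P'.kE ε)) b (4 * tn n) ≤ y →
          ∀ e, ε ≤ e → e ≤ P'.es → ∀ r, n + P'.kE e ≤ r →
            yt (2 ^ r) b (4 * tn n) ≤ C * (y + Real.exp (-(c * e ^ (-P.th))))) ∧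
      (∀ e, 0 < e → e ≤ P.es → 5 * e ^ (3 / 4 : ℝ) ≤ 1 / 4 ∧ 4 * e ^ (3 / 16 : ℝ) ≤ 1 ∧
        6 * (K * P.C0) * e ^ (1 / 4 : ℝ) ≤ 1 / 2 ∧ e ^ (P.th / 2) ≤ c / 2 ∧
        16 * C * Real.exp (-(c / 2 * e ^ (-P.th))) ≤ e ^ (3 * P.th)) := by
    apply H801.Ev.of
    refine ⟨0, fun W _ => ⟨1, one_pos, fun ys _ _ => ⟨0, fun X0 _ => ⟨1, one_pos,
      fun x1 hx1 hx1r => ⟨1, one_pos, fun thp hthp hthpr => ⟨1 / 32, by norm_num,
      fun th hth hth1 => ?_⟩⟩⟩⟩⟩⟩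
    obtain ⟨es, hes, hes4, hco⟩ := hcore th hth hth1
    refine ⟨2, fun C0 hC0 => ⟨th / 4, by positivity, fun c1 hc1 hc1r => ?_⟩⟩
    obtain ⟨e1, he1, k1⟩ := small_rpow (s := 3 / 4) (A := 5) (B := 1 / 4) (by norm_num)
      (by norm_num)
    obtain ⟨e2, he2, k2⟩ := small_rpow (s := 3 / 16) (A := 4) (B := 1) (by norm_num)
      (by norm_num)
    obtain ⟨e3, he3, k3⟩ := small_rpow (s := 1 / 4) (A := 6 * (K * C0)) (B := 1 / 2) (by norm_num)
      (by norm_num)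
    obtain ⟨e4, he4, k4⟩ := small_rpow (s := th / 2) (A := 1) (B := c / 2) (by positivity)
      (by positivity)
    obtain ⟨e5, he5, k5⟩ := exp_small (c := c / 2) (th := th) (by positivity) hth (16 * C)
      (3 * th) (B := 1) one_pos
    refine ⟨min es (min e1 (min e2 (min e3 (min e4 e5)))), by positivity, fun P hP => ?_⟩
    have hPes := hP.ees
    have m1 := hPes.trans (min_le_left _ _)
    have m2 := hPes.trans (min_le_right _ _)
    have m3 := m2.trans (min_le_left _ _)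
    have m4 := m2.trans (min_le_right _ _)
    have m5 := m4.trans (min_le_left _ _)
    have m6 := m4.trans (min_le_right _ _)
    have m7 := m6.trans (min_le_left _ _)
    have m8 := m6.trans (min_le_right _ _)
    have m9 := m8.trans (min_le_left _ _)
    have m10 := m8.trans (min_le_right _ _)
    rw [hP.eth, hP.eC0]
    refine ⟨hc1, by linarith, hth1, hC0, hP.epf, ⟨es, m1, hes4, ?_⟩, ?_⟩
    · intro P' b a hA hth' hes' hpf' hb1' hb2' hF ha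
      filter_upwards [hco P' b a hA hth' hes' hpf' hb1' hb2' hF ha] with n hn
      intro ε hε hεs hG y hy hy4 hyt e he hee r hr
      exact (hn ε hε hεs hG y hy hy4 hyt e he hee r hr).2
    · intro e he hee
      refine ⟨k1 e he (hee.trans m3), k2 e he (hee.trans m5), k3 e he (hee.trans m7), ?_, ?_⟩
      · have := k4 e he (hee.trans m9)
        rwa [one_mul] at this
      · have := k5 e he (hee.trans m10)
        rwa [one_mul] at this
  -- the limit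
  refine (H801.Ev.and hnums hlink).mono ?_
  rintro P c1 hA ⟨⟨hc1, hc1t, hth1, hC0, hPpf, ⟨es, hes, hes4, hco⟩, hnum⟩, hlk⟩
  refine ⟨hc1, hc1t, ?_⟩
  intro C1 hC1 hCC hCK A1 dl a hF ha hS
  have hth := P.th0
  have hco' := hco P b a hA rfl hes (by rw [hPpf]; linarith) h1 h2 hF ha
  have hlk' := hlk b a hb h2 hF ha
  rw [Metric.tendsto_atTop]
  intro δ0 hδ0
  obtain ⟨δ, hδ, hδ1⟩ : ∃ δ : ℝ, 0 < δ ∧ δ < δ0 := exists_between hδ0
  -- the size `e0`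
  set η : ℝ := δ ^ (39 / 20 : ℝ) with hη
  have hη0 : 0 < η := Real.rpow_pos_of_pos hδ _
  obtain ⟨x1, hx1, g1⟩ := exp_small (c := c') (th := P.th) hc' hth
    (8 * C * η ^ (-(3 * P.th))) 0 (B := δ) hδ
  obtain ⟨x2, hx2, g2⟩ := exp_small (c := c') (th := P.th) hc' hth 1 (1 / 4) (B := 4)
    (by norm_num)
  obtain ⟨x3, hx3, g3⟩ := small_rpow (s := P.th) (A := (2 : ℝ) ^ i0) (B := 1) hth one_pos
  set e0 : ℝ := min (min P.es η) (min x1 (min x2 x3)) with he0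
  have he00 : 0 < e0 := by
    have := P.es0
    positivity
  have he0s : e0 ≤ P.es := (min_le_left _ _).trans (min_le_left _ _)
  have he0η : e0 ≤ η := (min_le_left _ _).trans (min_le_right _ _)
  have he01 : e0 ≤ x1 := (min_le_right _ _).trans (min_le_left _ _)
  have he02 : e0 ≤ x2 := (min_le_right _ _).trans ((min_le_right _ _).trans (min_le_left _ _))
  have he03 : e0 ≤ x3 := (min_le_right _ _).trans ((min_le_right _ _).trans (min_le_right _ _))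
  set y : ℝ := Real.exp (-(c' * 2 ^ (P.kE e0 + 1))) with hy
  have hy0 : 0 < y := Real.exp_pos _
  have hlo := lg_lo (c := P.th) he00
  have hlo' : e0 ^ (-P.th) ≤ (2 : ℝ) ^ (P.kE e0 + 1) :=
    hlo.trans (pow_le_pow_right₀ (by norm_num) (Nat.le_succ _))
  have hyx : y ≤ Real.exp (-(c' * e0 ^ (-P.th))) := by
    apply Real.exp_le_exp.2
    have := mul_le_mul_of_nonneg_left hlo' hc'.le
    linarith
  have hi : i0 ≤ P.kE e0 + 1 := by
    have h3 := g3 e0 he00 he03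
    have h4 : (2 : ℝ) ^ i0 ≤ 2 ^ (P.kE e0 + 1) := by
      refine le_trans ?_ hlo'
      have h5 : 0 < e0 ^ (-P.th) := Real.rpow_pos_of_pos he00 _
      have h6 := mul_le_mul_of_nonneg_right h3 h5.le
      rw [mul_assoc, ← Real.rpow_add he00, add_neg_cancel, Real.rpow_zero, mul_one, one_mul] at h6
      exact h6
    exact (pow_le_pow_iff_right₀ (one_lt_two (α := ℝ))).1 h4
  have hy4 : y ≤ 4 * e0 ^ (1 / 4 : ℝ) := by
    have := g2 e0 he00 he02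
    rw [one_mul] at this
    exact hyx.trans this
  have hyδ : 8 * C * η ^ (-(3 * P.th)) * y ≤ δ := by
    have h3 := g1 e0 he00 he01
    rw [Real.rpow_zero, mul_one] at h3
    have h4 : 0 ≤ 8 * C * η ^ (-(3 * P.th)) := by
      have := Real.rpow_nonneg hη0.le (-(3 * P.th))
      positivity
    exact (mul_le_mul_of_nonneg_left hyx h4).trans h3
  obtain ⟨n0, hG0⟩ := hS.good he00 he0s
  obtain ⟨m1, hm1⟩ := hstart (P.kE e0 + 1)
  obtain ⟨n1, hn1⟩ := eventually_atTop.1 (hco'.and hlk')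
  refine ⟨max n1 (max n0 (m1 + 1)), fun n hn => ?_⟩
  have hnn1 : n1 ≤ n := (le_max_left _ _).trans hn
  have hnn0 : n0 ≤ n := ((le_max_left _ _).trans (le_max_right _ _)).trans hn
  have hnm1 : m1 + 1 ≤ n := ((le_max_right _ _).trans (le_max_right _ _)).trans hn
  obtain ⟨hc1', hl1⟩ := hn1 n hnn1
  have hyt : yt (2 ^ (n + P.kE e0)) b (4 * tn n) ≤ y := by
    have h4 := hm1 (P.kE e0 + 1) hi le_rfl (n - 1) (by omega)
    have e1 : P.kE e0 + 1 + (n - 1) = n + P.kE e0 := by omega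
    have e4 : tn (n - 1) = 4 * tn n := (H316.four_tn (by omega)).symm
    have h5 : yt (2 ^ (P.kE e0 + 1 + (n - 1))) b (tn (n - 1)) ≤
        Real.exp (-(c' * 2 ^ (P.kE e0 + 1))) := h4
    rw [e1, e4] at h5
    exact h5
  have hall : ∀ z, Mem P b C1 A1 dl (2 * c1) n z → z ≤ δ := by
    intro z hz
    have hz0 := hz.z0
    have hz1 := hz.z1
    obtain ⟨e, s, ζ, he, hee, hGe, hV, hze, hHV⟩ := hz
    rcases lt_or_ge e η with hlt | hge
    · by_contra hcon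
      push Not at hcon
      have := Real.rpow_le_rpow hδ.le hcon.le (show (0 : ℝ) ≤ 39 / 20 by norm_num)
      linarith
    obtain ⟨q1, q2, q3, q4, q5⟩ := hnum e he hee
    have hY := hc1' e0 he00 he0s (hG0 n hnn0) y hy0 hy4 hyt e (he0η.trans hge) hee
      (n + P.kE e) le_rfl
    have hfin := mem_core hb hC hc1t hth1 hC0 hCC hCK he hee hGe hV hz1 hHV q1 q2 q3 q4 q5
      (fun ε' e' r s _ k1 k2 k3 k4 k5 k6 k7 ζ' Δ ηc Lp E K1 K2 D k8 =>
        (hl1 ε' e' r s k1 k2 k3 k4 k5 k6 k7 ζ' Δ ηc Lp E K1 K2 D k8).2) hY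
    refine hfin.trans (le_trans ?_ hyδ)
    refine mul_le_mul_of_nonneg_right ?_ hy0.le
    refine mul_le_mul_of_nonneg_left ?_ (by positivity)
    exact Real.rpow_le_rpow_of_nonpos hη0 hge (by linarith)
  rw [Real.dist_eq, sub_zero, abs_of_nonneg uS_nonneg]
  exact (uS_le hδ.le hall).trans_lt hδ1

end

end Vale.Agent.P159.H972.Up
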