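import Vale.Agent.P159.H972.Stf
import Vale.Agent.P159.H801.Close

/-!
P159 / LIST P_up (helper972): the stiffness part of the contract of helper801. From START (strong
form, stiffness `1 / helicity b`), the states `Good` and the bound on the drop of the neutral self
energy: one function `a`, `a n -> 1 / helicity b`, and the step `|1/a_m - 1/a_n| <= eps ^ p1`.
-/

set_option linter.unusedSectionVars false

namespace Vale.Agent.P159.H972

open Finset Matrix Filter Topology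
open Vale.Agent.P159.TM.H764 (EE)
open Vale.Agent.P159.TM.Spec (V)
open Vale.Agent.P159.H963 (Pin)

noncomputable section

variable {P : Par} {b : ℝ}

/-- `w2` of the contract -/
lemma w2' (hthp : P.thp ≤ 1) (hes : P.es ≤ 1 / 4) {ε ε' : ℝ} (hε : 0 < ε) (h1 : ε / 2 ≤ ε')
    (h3 : ε' ≤ P.es) : P.w ε' ≤ 2 * P.w ε :=
  lg_half P.thp0 hthp hε h1 (by linarith)

lemma lg_half' {c ε ε' : ℝ} (hc : 0 < c) (hc1 : c ≤ 1) (hε : 0 < ε) (h1 : ε / 2 ≤ ε') :
    lg c ε' ≤ lg c ε + 1 := by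
  have h0 : 0 < ε' := by linarith
  have h5 : Real.logb 2 (1 / ε') ≤ 1 + Real.logb 2 (1 / ε) := by
    have h6 : (1 : ℝ) + Real.logb 2 (1 / ε) = Real.logb 2 (2 * (1 / ε)) := by
      rw [Real.logb_mul two_ne_zero (by positivity), Real.logb_self_eq_one one_lt_two]
    rw [h6]
    apply Real.logb_le_logb_of_le one_lt_two (by positivity)
    rw [mul_one_div, div_le_div_iff₀ h0 hε]
    linarith
  unfold lg
  rw [Nat.ceil_le]
  push_cast
  have h8 := Nat.le_ceil (c * Real.logb 2 (1 / ε))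
  nlinarith

/-- the drop of the neutral self energy over one window, at low momenta -/
def Drop (P : Par) (b : ℝ) (y : ℕ → ℝ) (p2 : ℝ) (N0 : ℕ) : Prop :=
  ∀ n m ε, N0 ≤ n → Good P b n ε → y n ^ 2 ≤ ε → ε ≤ P.es → n + P.w ε ≤ m →
    m ≤ n + 4 * P.w ε → ∀ r, P.TT n ε r → m + P.kE P.es ≤ r → ∀ k : V (2 ^ r), k ≠ 0 →
      EE k ≤ tn m → |Pin (2 ^ r) b (tn n) k - Pin (2 ^ r) b (tn m) k| ≤ ε ^ p2 * EE k

/-- a common torus of two consecutive states -/
lemma common {n m : ℕ} {ε ε' : ℝ} (hth : P.th ≤ P.thp) (hth1 : P.th ≤ 1) (hq : 2 ≤ P.q0)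
    (hε : 0 < ε) (hes : ε ≤ P.es) (h1 : ε / 2 ≤ ε') (h2 : ε' ≤ P.es) (h3 : n + P.w ε ≤ m)
    (h4 : m ≤ n + 4 * P.w ε) :
    P.TT n ε (m + P.kE ε') ∧ P.TT m ε' (m + P.kE ε') ∧ m + P.kE P.es ≤ m + P.kE ε' := by
  have h0 : 0 < ε' := by linarith
  have h5 : P.kE ε ≤ P.w ε := by
    unfold Par.kE Par.w lg
    apply Nat.ceil_mono
    have := one_le_logb hε (hes.trans P.es1)
    gcongr
  have h6 : P.kE ε' ≤ P.kE ε + 1 := lg_half' P.th0 hth1 hε h1
  have h7 : 1 ≤ P.w ε := w1 hε hes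
  have h8 : P.kE P.es ≤ P.kE ε' := lg_anti P.th0.le h0 h2
  refine ⟨⟨by omega, ?_⟩, ⟨le_rfl, by omega⟩, by omega⟩
  have h9 : 2 * (4 * P.w ε) ≤ P.q0 * (4 * P.w ε) := Nat.mul_le_mul_right _ hq
  omega

/-- **the stiffness part of the contract**: one stiffness function, its limit, the step (X1), (X2) -/
theorem xs (P : Par) (b : ℝ) (hb : helicity b = 2 / Real.pi) (hk : 3 ≤ P.kE P.es)
    (hth : P.th ≤ P.thp) (hth1 : P.th ≤ 1) (hq : 2 ≤ P.q0) (hpf : 0 < P.pf) (hpf1 : P.pf ≤ 1)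
    (y : ℕ → ℝ) (hy : ∀ n, 0 < y n) (hy0 : Tendsto y atTop (𝓝 0)) (hS : StartP P b)
    {sg p1 p2 : ℝ} {N0 : ℕ} (hp1 : 0 < p1)
    (hpf2 : p1 < (1 - sg) * P.pf) (hsg : 0 ≤ sg) (hp2 : p1 < p2) (hD : Drop P b y p2 N0) :
    ∃ a : ℕ → ℝ, Tendsto a atTop (𝓝 (Real.pi / 2)) ∧
      (∀ n ε, y n ^ 2 ≤ ε → ε ≤ P.es → Good P b n ε → ∀ e, ε ≤ e → e ≤ P.es →
        ∀ r, P.TT n e r → FL b (tn n) (a n) (17 * e ^ P.pf) (2 ^ r)) ∧
      Tendsto (fun n => (a n)⁻¹ - 2 / Real.pi) atTop (𝓝 0) ∧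
      ∃ N1, N0 ≤ N1 ∧ (∀ n, N1 ≤ n → 1 ≤ a n) ∧
        ∀ n m e e', N1 ≤ n → Good P b n e → Good P b m e' → y n ^ 2 ≤ e → y m ^ 2 ≤ e' →
          e / 2 ≤ e' → e' ≤ e ^ (1 - sg) → e ≤ P.es → e' ≤ P.es → n + P.w e ≤ m →
          m ≤ n + 4 * P.w e → |((a m)⁻¹ - 2 / Real.pi) - ((a n)⁻¹ - 2 / Real.pi)| ≤ e ^ p1 := by
  obtain ⟨a, ha⟩ := exists_stiff P b hk hpf.le hpf1 (fun n => y n ^ 2) fun n => pow_pos (hy n) 2
  have hinv : (helicity b)⁻¹ = Real.pi / 2 := by rw [hb, inv_div]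
  -- the limit of `a`
  have hlim : Tendsto a atTop (𝓝 (Real.pi / 2)) := by
    rw [Metric.tendsto_atTop]
    intro δ hδ
    obtain ⟨e1, he1, h1⟩ := H801.small_pow (a := P.pf) (c := δ / 2 / 72) hpf (by positivity)
    set e0 := min e1 P.es with he0
    have he00 : 0 < e0 := lt_min he1 P.es0
    have he0s : e0 ≤ P.es := min_le_right _ _
    have h2 : e0 ^ P.pf ≤ δ / 2 / 72 := h1 e0 he00.le (min_le_left _ _)
    obtain ⟨n0, hn0⟩ := hS e0 he00 he0s
    have h3 : ∀ᶠ n in atTop, y n ^ 2 ≤ e0 := by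
      have := hy0.pow 2
      simp only [ne_eq, OfNat.ofNat_ne_zero, not_false_eq_true, zero_pow] at this
      exact this.eventually (ge_mem_nhds he00)
    obtain ⟨n1, hn1⟩ := eventually_atTop.1 h3
    refine ⟨max n0 n1, fun n hn => ?_⟩
    obtain ⟨τ, hτ1, hτ2, hG⟩ := hn0 n ((le_max_left _ _).trans hn)
    have hr := TT_base P n e0
    have hf1 := ha n e0 (hn1 n ((le_max_right _ _).trans hn)) he0s ⟨τ, _, hτ1, hτ2, hG⟩ e0 le_rfl
      he0s _ hr
    have hf2 := ((hG e0 le_rfl he0s).flat _ hr).1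
    have h40 := forty (P := P) hk he00 he0s (n := n) (r := n + P.kE e0) le_rfl
    have h4 : 3 ≤ P.kE e0 := hk.trans (lg_anti P.th0.le he00 he0s)
    have h5 := hf1.det h40 (by
      calc 2 = 2 ^ 1 := by norm_num
        _ ≤ 2 ^ (n + P.kE e0) := Nat.pow_le_pow_right (by norm_num) (by omega)) hf2
    rw [hinv] at h5
    rw [Real.dist_eq]
    linarith
  have hpi : (1 : ℝ) < Real.pi / 2 := by linarith [Real.pi_gt_three]
  have hx0 : Tendsto (fun n => (a n)⁻¹ - 2 / Real.pi) atTop (𝓝 0) := by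
    have h1 := (hlim.inv₀ (by positivity)).sub_const (2 / Real.pi)
    rwa [inv_div, sub_self] at h1
  refine ⟨a, hlim, ha, hx0, ?_⟩
  -- small `e`
  have hp3 : 0 < (1 - sg) * P.pf - p1 := by linarith
  obtain ⟨ea, hea, h1⟩ := H801.small_pow (a := (1 - sg) * P.pf - p1) (c := 1 / 272) hp3
    (by norm_num)
  obtain ⟨eb, heb, h2⟩ := H801.small_pow (a := p2 - p1) (c := 1 / 2) (by linarith) (by norm_num)
  set e1 := min ea (min eb P.es) with he1
  have he10 : 0 < e1 := lt_min hea (lt_min heb P.es0)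
  have hev : ∀ᶠ n in atTop, 1 ≤ a n ∧ |(a n)⁻¹ - 2 / Real.pi| ≤ e1 ^ p1 / 2 := by
    have h3 := hlim.eventually (le_mem_nhds hpi)
    have h4 := hx0.abs
    rw [abs_zero] at h4
    have h5 : 0 < e1 ^ p1 / 2 := by have := Real.rpow_pos_of_pos he10 p1; positivity
    exact h3.and (h4.eventually (ge_mem_nhds h5))
  obtain ⟨N2, hN2⟩ := eventually_atTop.1 hev
  refine ⟨max N0 N2, le_max_left _ _, fun n hn => (hN2 n ((le_max_right _ _).trans hn)).1, ?_⟩
  intro n m e e' hn hGn hGm hyn hym h3 h4 hes hes' hw1 hw2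
  have he : 0 < e := (pow_pos (hy n) 2).trans_le hyn
  have he' : 0 < e' := (pow_pos (hy m) 2).trans_le hym
  have hnm : n ≤ m := (Nat.le_add_right _ _).trans hw1
  have hn2 : N2 ≤ n := (le_max_right _ _).trans hn
  have hm2 : N2 ≤ m := hn2.trans hnm
  by_cases hsm : e ≤ e1
  · obtain ⟨hr1, hr2, hr3⟩ := common hth hth1 hq he hes h3 hes' hw1 hw2
    have hf1 := ha n e hyn hes hGn e le_rfl hes _ hr1
    have hf2 := ha m e' hym hes' hGm e' le_rfl hes' _ hr2
    have hd := hD n m e ((le_max_left _ _).trans hn) hGn hyn hes hw1 hw2 _ hr1 hr3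
    have h40 := forty (P := P) hk he' hes' (n := m) (r := m + P.kE e') le_rfl
    have h5 : 3 ≤ P.kE e' := hk.trans (lg_anti P.th0.le he' hes')
    have h6 := stiff_step (by omega) h40 hnm hf1 hf2 hd
    have h7 : e' ^ P.pf ≤ e ^ ((1 - sg) * P.pf) := by
      rw [Real.rpow_mul he.le]
      exact Real.rpow_le_rpow he'.le h4 hpf.le
    have he1' : e ≤ 1 := hes.trans (P.es1.trans (by norm_num))
    have h8 : e ^ P.pf ≤ e ^ ((1 - sg) * P.pf) := by
      apply Real.rpow_le_rpow_of_exponent_ge he he1'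
      nlinarith
    have h9 : e ^ ((1 - sg) * P.pf) ≤ e ^ p1 / 272 := by
      have h10 := h1 e he.le (hsm.trans (min_le_left _ _))
      have h11 : e ^ ((1 - sg) * P.pf) = e ^ ((1 - sg) * P.pf - p1) * e ^ p1 := by
        rw [← Real.rpow_add he, sub_add_cancel]
      rw [h11]
      have h12 := Real.rpow_pos_of_pos he p1
      nlinarith
    have h10 : e ^ p2 ≤ e ^ p1 / 2 := by
      have h10 := h2 e he.le (hsm.trans ((min_le_right _ _).trans (min_le_left _ _)))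
      have h11 : e ^ p2 = e ^ (p2 - p1) * e ^ p1 := by
        rw [← Real.rpow_add he, sub_add_cancel]
      rw [h11]
      have h12 := Real.rpow_pos_of_pos he p1
      nlinarith
    have h11 : |a n - a m| ≤ e ^ p1 := by linarith
    have ha1 := (hN2 n hn2).1
    have ha2 := (hN2 m hm2).1
    have h12 : ((a m)⁻¹ - 2 / Real.pi) - ((a n)⁻¹ - 2 / Real.pi) = (a n - a m) / (a m * a n) := by
      have : a n ≠ 0 := by positivity
      have : a m ≠ 0 := by positivity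
      field_simp
      ring
    rw [h12, abs_div]
    refine (div_le_self (abs_nonneg _) ?_).trans h11
    rw [abs_of_pos (by positivity)]
    nlinarith
  · push Not at hsm
    have h5 := (hN2 n hn2).2
    have h6 := (hN2 m hm2).2
    have h7 : e1 ^ p1 ≤ e ^ p1 := Real.rpow_le_rpow he10.le hsm.le hp1.le
    refine (abs_sub _ _).trans ?_
    linarith

end

end Vale.Agent.P159.H972
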