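import Vale.Agent.P159.H972.StepG

/-!
P159 / LIST P_up (helper972): the stiffness part of the contract of helper801, without the zero
background numbers: one stiffness function for all states `Good P b n ε`, `0 < ε ≤ es`, its limit,
and the step `|1/a_m - 1/a_n| ≤ ε ^ p1` in the letters `SI`.
-/

set_option linter.unusedSectionVars false

namespace Vale.Agent.P159.H972

open Finset Matrix Filter Topology
open Vale.Agent.P159.TM.H764 (EE)
open Vale.Agent.P159.TM.Spec (V)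
open Vale.Agent.P159.H963 (Pin)

noncomputable section

variable {P : Par} {b : ℝ}

/-- **one stiffness function for all states** -/
theorem exists_stiff' (P : Par) (b : ℝ) (hk : 3 ≤ P.kE P.es) (hpf : 0 ≤ P.pf) :
    ∃ a : ℕ → ℝ, ∀ n ε, 0 < ε → ε ≤ P.es → Good P b n ε → ∀ e, ε ≤ e → e ≤ P.es →
      ∀ r, P.TT n e r → FL b (tn n) (a n) (17 * e ^ P.pf) (2 ^ r) := by
  have key : ∀ n, ∃ a : ℝ, ∀ ε, 0 < ε → ε ≤ P.es → Good P b n ε → ∀ e, ε ≤ e → e ≤ P.es →
      ∀ r, P.TT n e r → FL b (tn n) a (17 * e ^ P.pf) (2 ^ r) := by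
    intro n
    have h0 : ∀ ε : {ε : ℝ // 0 < ε ∧ ε ≤ P.es ∧ Good P b n ε}, ∃ a : ℝ, ∃ τ : ℝ,
        ∀ e, ε.1 ≤ e → e ≤ P.es → GP P b a n e τ := by
      rintro ⟨ε, h1, h2, τ, a, h3, h4, h5⟩
      exact ⟨a, τ, h5⟩
    choose A T hA using h0
    have hd : ∀ s u : {ε : ℝ // 0 < ε ∧ ε ≤ P.es ∧ Good P b n ε}, s.1 ≤ u.1 →
        |A s - A u| ≤ 8 * u.1 ^ P.pf := fun s u h =>
      GP.det hk u.2.1 u.2.2.1 (hA s u.1 h u.2.2.1) (hA u u.1 le_rfl u.2.2.1)
    have hd2 : ∀ s u : {ε : ℝ // 0 < ε ∧ ε ≤ P.es ∧ Good P b n ε},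
        A s - 8 * s.1 ^ P.pf ≤ A u + 8 * u.1 ^ P.pf := by
      intro s u
      have h1 : 0 ≤ s.1 ^ P.pf := Real.rpow_nonneg s.2.1.le _
      have h2 : 0 ≤ u.1 ^ P.pf := Real.rpow_nonneg u.2.1.le _
      rcases le_total s.1 u.1 with h | h
      · have := (abs_le.1 (hd s u h)).2
        linarith
      · have := (abs_le.1 (hd u s h)).1
        linarith
    set S : Set ℝ := Set.range fun s : {ε : ℝ // 0 < ε ∧ ε ≤ P.es ∧ Good P b n ε} =>
      A s - 8 * s.1 ^ P.pf with hS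
    refine ⟨sSup S, fun ε h1 h2 h3 e he he1 r hr => ?_⟩
    set s0 : {ε : ℝ // 0 < ε ∧ ε ≤ P.es ∧ Good P b n ε} := ⟨ε, h1, h2, h3⟩ with hs0
    have hbd : BddAbove S := ⟨A s0 + 8 * s0.1 ^ P.pf, by
      rintro _ ⟨s, rfl⟩
      exact hd2 s s0⟩
    have h4 : A s0 - 8 * ε ^ P.pf ≤ sSup S := le_csSup hbd ⟨s0, rfl⟩
    have h5 : sSup S ≤ A s0 + 8 * ε ^ P.pf := csSup_le ⟨_, s0, rfl⟩ (by
      rintro _ ⟨s, rfl⟩
      exact hd2 s s0)
    have h6 : ε ^ P.pf ≤ e ^ P.pf := Real.rpow_le_rpow h1.le he hpf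
    have h7 : |A s0 - sSup S| ≤ 8 * ε ^ P.pf := abs_le.2 ⟨by linarith, by linarith⟩
    have h8 : 0 ≤ e ^ P.pf := Real.rpow_nonneg (h1.le.trans he) _
    exact ((hA s0 e he he1).flat r hr).1.mono (tn_pos n) (by linarith)
  choose a ha using key
  exact ⟨a, fun n ε => ha n ε⟩

/-- the drop of the neutral self energy over one window, at low momenta -/
def Drop' (P : Par) (b p2 : ℝ) (N0 : ℕ) : Prop :=
  ∀ n m ε Y, SI P b N0 n m ε Y → ∀ r, P.TT n ε r → m + P.kE P.es ≤ r → ∀ k : V (2 ^ r), k ≠ 0 →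
    EE k ≤ tn m → |Pin (2 ^ r) b (tn n) k - Pin (2 ^ r) b (tn m) k| ≤ ε ^ p2 * EE k

/-- **the stiffness part of the contract**, letters `SI` -/
theorem xs' (P : Par) (b : ℝ) (hb : helicity b = 2 / Real.pi) (hA : P.Adm) (hS : StartP P b)
    {sg p1 p2 : ℝ} {N0 : ℕ} (hp1 : 0 < p1)
    (hpf2 : p1 < (1 - sg) * P.pf) (hsg : 0 ≤ sg) (hp2 : p1 < p2) (hD : Drop' P b p2 N0) :
    ∃ a : ℕ → ℝ, Tendsto a atTop (𝓝 (Real.pi / 2)) ∧
      (∀ n ε, 0 < ε → ε ≤ P.es → Good P b n ε → ∀ e, ε ≤ e → e ≤ P.es →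
        ∀ r, P.TT n e r → FL b (tn n) (a n) (17 * e ^ P.pf) (2 ^ r)) ∧
      Tendsto (fun n => (a n)⁻¹ - 2 / Real.pi) atTop (𝓝 0) ∧
      ∃ N1, N0 ≤ N1 ∧ (∀ n, N1 ≤ n → 1 ≤ a n) ∧
        ∀ n m e e' Y, N1 ≤ n → SI P b N0 n m e Y → Good P b m e' → e / 2 ≤ e' →
          e' ≤ e ^ (1 - sg) → e' ≤ P.es →
          |((a m)⁻¹ - 2 / Real.pi) - ((a n)⁻¹ - 2 / Real.pi)| ≤ e ^ p1 := by
  have hk := hA.hk
  have hth := hA.hth
  have hth1 := hA.th1
  have hq := hA.hq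
  have hpf := hA.pf0
  obtain ⟨a, ha⟩ := exists_stiff' P b hk hpf.le
  have hinv : (helicity b)⁻¹ = Real.pi / 2 := by rw [hb, inv_div]
  -- the limit of `a`
  have hlim : Tendsto a atTop (𝓝 (Real.pi / 2)) := by
    rw [Metric.tendsto_atTop]
    intro δ hδ
    obtain ⟨e1, he1, h1⟩ := H801.small_pow (a := P.pf) (c := δ / 2 / 72) hpf (by positivity)
    set e0 := min e1 P.es with he0
    have he00 : 0 < e0 := lt_min he1 P.es0
    have he0s : e0 ≤ P.es := min_le_right _ _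
    have h2 : e0 ^ P.pf ≤ δ / 2 / 72 := h1 e0 he00.le (min_le_left _ _)
    obtain ⟨n0, hn0⟩ := hS e0 he00 he0s
    refine ⟨n0, fun n hn => ?_⟩
    obtain ⟨τ, hτ1, hτ2, hG⟩ := hn0 n hn
    have hr := TT_base P n e0
    have hf1 := ha n e0 he00 he0s ⟨τ, _, hτ1, hτ2, hG⟩ e0 le_rfl he0s _ hr
    have hf2 := ((hG e0 le_rfl he0s).flat _ hr).1
    have h40 := forty (P := P) hk he00 he0s (n := n) (r := n + P.kE e0) le_rfl
    have h4 : 3 ≤ P.kE e0 := hk.trans (lg_anti P.th0.le he00 he0s)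
    have h5 := hf1.det h40 (by
      calc 2 = 2 ^ 1 := by norm_num
        _ ≤ 2 ^ (n + P.kE e0) := Nat.pow_le_pow_right (by norm_num) (by omega)) hf2
    rw [hinv] at h5
    rw [Real.dist_eq]
    linarith
  have hpi : (1 : ℝ) < Real.pi / 2 := by linarith [Real.pi_gt_three]
  have hx0 : Tendsto (fun n => (a n)⁻¹ - 2 / Real.pi) atTop (𝓝 0) := by
    have h1 := (hlim.inv₀ (by positivity)).sub_const (2 / Real.pi)
    rwa [inv_div, sub_self] at h1
  refine ⟨a, hlim, ha, hx0, ?_⟩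
  -- small `e`
  have hp3 : 0 < (1 - sg) * P.pf - p1 := by linarith
  obtain ⟨ea, hea, h1⟩ := H801.small_pow (a := (1 - sg) * P.pf - p1) (c := 1 / 272) hp3
    (by norm_num)
  obtain ⟨eb, heb, h2⟩ := H801.small_pow (a := p2 - p1) (c := 1 / 2) (by linarith) (by norm_num)
  set e1 := min ea (min eb P.es) with he1
  have he10 : 0 < e1 := lt_min hea (lt_min heb P.es0)
  have hev : ∀ᶠ n in atTop, 1 ≤ a n ∧ |(a n)⁻¹ - 2 / Real.pi| ≤ e1 ^ p1 / 2 := by
    have h3 := hlim.eventually (le_mem_nhds hpi)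
    have h4 := hx0.abs
    rw [abs_zero] at h4
    have h5 : 0 < e1 ^ p1 / 2 := by have := Real.rpow_pos_of_pos he10 p1; positivity
    exact h3.and (h4.eventually (ge_mem_nhds h5))
  obtain ⟨N2, hN2⟩ := eventually_atTop.1 hev
  refine ⟨max N0 N2, le_max_left _ _, fun n hn => (hN2 n ((le_max_right _ _).trans hn)).1, ?_⟩
  intro n m e e' Y hn hSI hGm h3 h4 hes'
  have he : 0 < e := hSI.εpos
  have he' : 0 < e' := by linarith
  have hes := hSI.εes
  have hw1 := hSI.lo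
  have hw2 := hSI.up
  have hnm : n ≤ m := hSI.lt.le
  have hn2 : N2 ≤ n := (le_max_right _ _).trans hn
  have hm2 : N2 ≤ m := hn2.trans hnm
  by_cases hsm : e ≤ e1
  · obtain ⟨hr1, hr2, hr3⟩ := common hth hth1 hq he hes h3 hes' hw1 hw2
    have hf1 := ha n e he hes hSI.good e le_rfl hes _ hr1
    have hf2 := ha m e' he' hes' hGm e' le_rfl hes' _ hr2
    have hd := hD n m e Y hSI _ hr1 hr3
    have h40 := forty (P := P) hk he' hes' (n := m) (r := m + P.kE e') le_rfl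
    have h5 : 3 ≤ P.kE e' := hk.trans (lg_anti P.th0.le he' hes')
    have h6 := stiff_step (by omega) h40 hnm hf1 hf2 hd
    have h7 : e' ^ P.pf ≤ e ^ ((1 - sg) * P.pf) := by
      rw [Real.rpow_mul he.le]
      exact Real.rpow_le_rpow he'.le h4 hpf.le
    have he1' : e ≤ 1 := hes.trans (P.es1.trans (by norm_num))
    have h8 : e ^ P.pf ≤ e ^ ((1 - sg) * P.pf) := by
      apply Real.rpow_le_rpow_of_exponent_ge he he1'
      nlinarith
    have h9 : e ^ ((1 - sg) * P.pf) ≤ e ^ p1 / 272 := by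
      have h10 := h1 e he.le (hsm.trans (min_le_left _ _))
      have h11 : e ^ ((1 - sg) * P.pf) = e ^ ((1 - sg) * P.pf - p1) * e ^ p1 := by
        rw [← Real.rpow_add he, sub_add_cancel]
      rw [h11]
      have h12 := Real.rpow_pos_of_pos he p1
      nlinarith
    have h10 : e ^ p2 ≤ e ^ p1 / 2 := by
      have h10 := h2 e he.le (hsm.trans ((min_le_right _ _).trans (min_le_left _ _)))
      have h11 : e ^ p2 = e ^ (p2 - p1) * e ^ p1 := by
        rw [← Real.rpow_add he, sub_add_cancel]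
      rw [h11]
      have h12 := Real.rpow_pos_of_pos he p1
      nlinarith
    have h11 : |a n - a m| ≤ e ^ p1 := by linarith
    have ha1 := (hN2 n hn2).1
    have ha2 := (hN2 m hm2).1
    have h12 : ((a m)⁻¹ - 2 / Real.pi) - ((a n)⁻¹ - 2 / Real.pi) = (a n - a m) / (a m * a n) := by
      have : a n ≠ 0 := by positivity
      have : a m ≠ 0 := by positivity
      field_simp
      ring
    rw [h12, abs_div]
    refine (div_le_self (abs_nonneg _) ?_).trans h11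
    rw [abs_of_pos (by positivity)]
    nlinarith
  · push Not at hsm
    have h5 := (hN2 n hn2).2
    have h6 := (hN2 m hm2).2
    have h7 : e1 ^ p1 ≤ e ^ p1 := Real.rpow_le_rpow he10.le hsm.le hp1.le
    refine (abs_sub _ _).trans ?_
    linarith

end

end Vale.Agent.P159.H972
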